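import Vale.Agent.P157.RS.Defs

/-!
# P157, RS: replacing a measure by `K` independent sample points
-/

noncomputable section

open MeasureTheory ProbabilityTheory Real Filter Topology Set
open scoped BigOperators

namespace P157.RS

variable {E : Type*} [MeasurableSpace E] (μ : Measure E) [IsProbabilityMeasure μ]

lemma integrable_of_abs_le {Ω : Type*} [MeasurableSpace Ω] {ν : Measure Ω} [IsFiniteMeasure ν]
    {h : Ω → ℝ} (hm : Measurable h) {C : ℝ} (hC : ∀ x, |h x| ≤ C) : Integrable h ν :=
  Integrable.of_bound hm.aestronglyMeasurable C (ae_of_all _ fun x => by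
    rw [Real.norm_eq_abs]; exact hC x)

lemma exp_mem {a A : ℝ} (ha : |a| ≤ A) : exp a ∈ Icc (exp (-A)) (exp A) :=
  ⟨exp_le_exp.mpr (neg_le_of_abs_le ha), exp_le_exp.mpr (le_of_abs_le ha)⟩

lemma abs_exp_le {a A : ℝ} (ha : |a| ≤ A) : |exp a| ≤ exp A := by
  rw [abs_of_pos (exp_pos a)]; exact (exp_mem ha).2

lemma le_integral_exp {Ω : Type*} [MeasurableSpace Ω] (ν : Measure Ω) [IsProbabilityMeasure ν]
    {h : Ω → ℝ} (hm : Measurable h) {A : ℝ} (hA : ∀ x, |h x| ≤ A) :
    exp (-A) ≤ ∫ x, exp (h x) ∂ν := by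
  have := integral_mono (μ := ν) (integrable_const (exp (-A)))
    (integrable_of_abs_le hm.exp fun x => abs_exp_le (hA x)) fun x => (exp_mem (hA x)).1
  simpa using this

lemma integral_exp_le {Ω : Type*} [MeasurableSpace Ω] (ν : Measure Ω) [IsProbabilityMeasure ν]
    {h : Ω → ℝ} (hm : Measurable h) {A : ℝ} (hA : ∀ x, |h x| ≤ A) :
    ∫ x, exp (h x) ∂ν ≤ exp A := by
  have := integral_mono (μ := ν) (integrable_of_abs_le hm.exp fun x => abs_exp_le (hA x))
    (integrable_const (exp A)) fun x => (exp_mem (hA x)).2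
  simpa using this

/-- The average of `exp` over a finite family stays in the same interval. -/
lemma mean_exp_mem {ι : Type*} [Fintype ι] [Nonempty ι] {h : ι → ℝ} {A : ℝ}
    (hA : ∀ i, |h i| ≤ A) :
    (∑ i, exp (h i)) / (Fintype.card ι : ℝ) ∈ Icc (exp (-A)) (exp A) := by
  have hn : (0 : ℝ) < Fintype.card ι := by exact_mod_cast Fintype.card_pos
  constructor
  · rw [le_div_iff₀ hn]
    calc exp (-A) * (Fintype.card ι : ℝ) = ∑ _i : ι, exp (-A) := by
          rw [Finset.sum_const, Finset.card_univ, nsmul_eq_mul]; ring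
      _ ≤ _ := Finset.sum_le_sum fun i _ => (exp_mem (hA i)).1
  · rw [div_le_iff₀ hn]
    calc ∑ i, exp (h i) ≤ ∑ _i : ι, exp A := Finset.sum_le_sum fun i _ => (exp_mem (hA i)).2
      _ = _ := by rw [Finset.sum_const, Finset.card_univ, nsmul_eq_mul]; ring

lemma lse_sub_log {ι : Type*} [Fintype ι] [Nonempty ι] (h : ι → ℝ) :
    lse h - log (Fintype.card ι : ℝ) = log ((∑ i, exp (h i)) / (Fintype.card ι : ℝ)) := by
  unfold lse
  rw [log_div (Finset.sum_pos (fun i _ => exp_pos _) Finset.univ_nonempty).ne'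
    (by exact_mod_cast Fintype.card_ne_zero)]

lemma log_le_tangent {s z : ℝ} (hs : 0 < s) (hz : 0 < z) : log s ≤ log z + (s / z - 1) := by
  have := log_le_sub_one_of_pos (div_pos hs hz)
  rw [log_div hs.ne' hz.ne'] at this
  linarith

lemma abs_log_sub_log_le {s z A : ℝ} (hs : exp (-A) ≤ s) (hz : exp (-A) ≤ z) :
    |log s - log z| ≤ exp A * |s - z| := by
  have key : ∀ a b : ℝ, exp (-A) ≤ a → exp (-A) ≤ b → log a - log b ≤ exp A * |a - b| := by
    intro a b ha hb
    have hb0 : 0 < b := (exp_pos _).trans_le hb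
    have ha0 : 0 < a := (exp_pos _).trans_le ha
    have hinv : 1 / b ≤ exp A := by
      rw [div_le_iff₀ hb0]
      calc (1 : ℝ) = exp A * exp (-A) := by rw [← exp_add, add_neg_cancel, exp_zero]
        _ ≤ exp A * b := mul_le_mul_of_nonneg_left hb (exp_pos A).le
    calc log a - log b ≤ a / b - 1 := by linarith [log_le_tangent ha0 hb0]
      _ = 1 / b * (a - b) := by field_simp
      _ ≤ 1 / b * |a - b| := mul_le_mul_of_nonneg_left (le_abs_self _) (one_div_pos.mpr hb0).le
      _ ≤ exp A * |a - b| := mul_le_mul_of_nonneg_right hinv (abs_nonneg _)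
  rcases le_total (log z) (log s) with h | h
  · rw [abs_of_nonneg (sub_nonneg.mpr h)]; exact key s z hs hz
  · rw [abs_of_nonpos (sub_nonpos.mpr h), neg_sub, abs_sub_comm]; exact key z s hz hs

/-- Jensen: a sample is below the measure. -/
theorem sample_le {F : E → ℝ} (hF : Measurable F) {A : ℝ} (hA : ∀ x, |F x| ≤ A) (K : ℕ) :
    ∫ θ, lse (fun k : Fin (K + 1) => F (θ k)) ∂Measure.pi (fun _ => μ) - log (K + 1)
      ≤ log (∫ x, exp (F x) ∂μ) := by
  set Z := ∫ x, exp (F x) ∂μ with hZdef
  have hZ : 0 < Z := (exp_pos _).trans_le (le_integral_exp μ hF hA)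
  set P := Measure.pi (fun _ : Fin (K + 1) => μ) with hP
  have hn : ((Fintype.card (Fin (K + 1)) : ℕ) : ℝ) = (K : ℝ) + 1 := by simp
  set S : (Fin (K + 1) → E) → ℝ := fun θ => (∑ k, exp (F (θ k))) / ((K : ℝ) + 1) with hS
  have hSmem : ∀ θ, S θ ∈ Icc (exp (-A)) (exp A) := fun θ => by
    have := mean_exp_mem (h := fun k : Fin (K + 1) => F (θ k)) (A := A) (fun k => hA _)
    simpa [hS] using this
  have hSm : Measurable S := by fun_prop
  have hSi : Integrable S P := integrable_of_abs_le hSm (C := exp A) fun θ => by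
    rw [abs_of_pos ((exp_pos _).trans_le (hSmem θ).1)]; exact (hSmem θ).2
  have hlse : ∀ θ, lse (fun k : Fin (K + 1) => F (θ k)) = log (S θ) + log ((K : ℝ) + 1) := by
    intro θ
    have := lse_sub_log (fun k : Fin (K + 1) => F (θ k))
    rw [hn] at this
    linarith
  have hlogb : ∀ θ, |log (S θ)| ≤ A := fun θ => by
    rw [abs_le]
    exact ⟨by simpa using log_le_log (exp_pos _) (hSmem θ).1,
      by simpa using log_le_log ((exp_pos _).trans_le (hSmem θ).1) (hSmem θ).2⟩
  have hli : Integrable (fun θ => log (S θ)) P := integrable_of_abs_le hSm.log hlogb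
  have hES : ∫ θ, S θ ∂P = Z := by
    rw [hS]
    simp only
    rw [integral_div, integral_finsetSum]
    · have : ∀ k : Fin (K + 1), ∫ θ, exp (F (θ k)) ∂P = Z := fun k =>
        integral_comp_eval (μ := fun _ : Fin (K + 1) => μ) (i := k) (f := fun x => exp (F x))
          hF.exp.aestronglyMeasurable
      simp only [this, Finset.sum_const, Finset.card_univ, nsmul_eq_mul, Fintype.card_fin]
      push_cast
      field_simp
    · exact fun k _ => integrable_of_abs_le (by fun_prop) fun θ => abs_exp_le (hA _)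
  simp only [hlse]
  rw [integral_add hli (integrable_const _), integral_const, probReal_univ, one_smul,
    add_sub_cancel_right]
  calc ∫ θ, log (S θ) ∂P ≤ ∫ θ, (log Z + (S θ / Z - 1)) ∂P := by
        refine integral_mono hli ((integrable_const _).add ((hSi.div_const Z).sub (integrable_const _))) ?_
        exact fun θ => log_le_tangent ((exp_pos _).trans_le (hSmem θ).1) hZ
    _ = log Z := by
        rw [integral_add (integrable_const _) ((hSi.div_const Z).sub' (integrable_const _)),
          integral_sub (hSi.div_const Z) (integrable_const _), integral_div, hES]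
        simp [hZ.ne']

/-- A large sample is close to the measure. -/
theorem sample_near {F : E → ℝ} (hF : Measurable F) {A : ℝ} (hA : ∀ x, |F x| ≤ A) (K : ℕ) :
    ∫ θ, |lse (fun k : Fin (K + 1) => F (θ k)) - log (K + 1) - log (∫ x, exp (F x) ∂μ)|
        ∂Measure.pi (fun _ => μ) ≤ exp (2 * A) / √((K + 1 : ℕ) : ℝ) := by
  set Z := ∫ x, exp (F x) ∂μ with hZdef
  have hZ1 := le_integral_exp μ hF hA
  have hZ2 := integral_exp_le μ hF hA
  set P := Measure.pi (fun _ : Fin (K + 1) => μ) with hP
  set n : ℝ := (K : ℝ) + 1 with hndef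
  have hn0 : 0 < n := by positivity
  have hn : ((Fintype.card (Fin (K + 1)) : ℕ) : ℝ) = n := by simp [hndef]
  set S : (Fin (K + 1) → E) → ℝ := fun θ => (∑ k, exp (F (θ k))) / n with hS
  have hSmem : ∀ θ, S θ ∈ Icc (exp (-A)) (exp A) := fun θ => by
    have := mean_exp_mem (h := fun k : Fin (K + 1) => F (θ k)) (A := A) (fun k => hA _)
    simpa [hS, hndef] using this
  have hSm : Measurable S := by fun_prop
  have hdb : ∀ θ, |S θ - Z| ≤ exp A := fun θ => by
    rw [abs_le]
    constructor <;> linarith [(hSmem θ).1, (hSmem θ).2, exp_pos (-A)]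
  have hlse : ∀ θ, lse (fun k : Fin (K + 1) => F (θ k)) - log n = log (S θ) := by
    intro θ
    have := lse_sub_log (fun k : Fin (K + 1) => F (θ k))
    rwa [hn] at this
  have hvar : ∫ θ, (S θ - Z) ^ 2 ∂P ≤ exp A ^ 2 / n := by
    set X : Fin (K + 1) → E → ℝ := fun _ x => exp (F x) with hX
    have hmem : ∀ i : Fin (K + 1), MemLp (X i) 2 μ := fun i =>
      MemLp.of_bound hF.exp.aestronglyMeasurable (exp A) (ae_of_all _ fun x => by
        rw [Real.norm_eq_abs]; exact abs_exp_le (hA x))
    have hv := variance_sum_pi (μ := fun _ : Fin (K + 1) => μ) hmem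
    have hfun : (∑ i, fun θ : Fin (K + 1) → E => X i (θ i)) = fun θ => n * S θ := by
      ext θ
      simp only [Finset.sum_apply, hX, hS]
      field_simp
    rw [hfun] at hv
    have hmean : ∫ θ, n * S θ ∂P = n * Z := by
      simp only [hS]
      simp_rw [mul_div_cancel₀ _ hn0.ne']
      rw [integral_finsetSum]
      · have : ∀ k : Fin (K + 1), ∫ θ, exp (F (θ k)) ∂P = Z := fun k =>
          integral_comp_eval (μ := fun _ : Fin (K + 1) => μ) (i := k) (f := fun x => exp (F x))
            hF.exp.aestronglyMeasurable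
        simp only [this, Finset.sum_const, Finset.card_univ, nsmul_eq_mul, hn]
      · exact fun k _ => integrable_of_abs_le (by fun_prop) fun θ => abs_exp_le (hA _)
    rw [variance_eq_integral (hSm.const_mul n).aemeasurable, hmean] at hv
    have hone : Var[fun x => exp (F x); μ] ≤ exp A ^ 2 := by
      refine (variance_le_expectation_sq hF.exp.aestronglyMeasurable).trans ?_
      have := integral_mono (μ := μ) (f := fun x => exp (F x) ^ 2) (g := fun _ => exp A ^ 2)
        (integrable_of_abs_le (hF.exp.pow_const 2) (C := exp A ^ 2) fun x => by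
          rw [abs_pow]; exact pow_le_pow_left₀ (abs_nonneg _) (abs_exp_le (hA x)) 2)
        (integrable_const _) fun x => pow_le_pow_left₀ (exp_pos _).le (exp_mem (hA x)).2 2
      simpa using this
    have hsum : ∑ i, Var[X i; μ] ≤ n * exp A ^ 2 := by
      calc ∑ i, Var[X i; μ] ≤ ∑ _i : Fin (K + 1), exp A ^ 2 := Finset.sum_le_sum fun i _ => hone
        _ = n * exp A ^ 2 := by rw [Finset.sum_const, Finset.card_univ, nsmul_eq_mul, hn]
    rw [← hv] at hsum
    simp_rw [← mul_sub, mul_pow] at hsum
    rw [integral_const_mul] at hsum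
    rw [le_div_iff₀ hn0]
    nlinarith
  set c : ℝ := √n / exp A with hc
  have hc0 : 0 < c := div_pos (Real.sqrt_pos.mpr hn0) (exp_pos A)
  have hi2 : Integrable (fun θ => (S θ - Z) ^ 2) P :=
    integrable_of_abs_le ((hSm.sub_const Z).pow_const 2) (C := exp A ^ 2) fun θ => by
      rw [abs_pow]; exact pow_le_pow_left₀ (abs_nonneg _) (hdb θ) 2
  have hgi : Integrable (fun θ => exp A * ((c * (S θ - Z) ^ 2 + 1 / c) / 2)) P :=
    (((hi2.const_mul c).add (integrable_const (1 / c))).div_const 2).const_mul (exp A)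
  push_cast
  refine (integral_mono_of_nonneg (ae_of_all _ fun θ => abs_nonneg _) hgi (ae_of_all _ fun θ => ?_)).trans ?_
  · show |lse (fun k : Fin (K + 1) => F (θ k)) - log n - log Z| ≤ _
    rw [hlse θ]
    refine (abs_log_sub_log_le (hSmem θ).1 hZ1).trans (mul_le_mul_of_nonneg_left ?_ (exp_pos A).le)
    rw [le_div_iff₀ two_pos, ← mul_le_mul_iff_of_pos_left hc0, mul_add, mul_one_div, div_self hc0.ne',
      ← sq_abs (S θ - Z)]
    nlinarith [sq_nonneg (c * |S θ - Z| - 1)]
  · rw [integral_const_mul, integral_div, integral_add (hi2.const_mul c) (integrable_const _),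
      integral_const_mul, integral_const, probReal_univ, one_smul]
    have h1 : c * ∫ θ, (S θ - Z) ^ 2 ∂P ≤ c * (exp A ^ 2 / n) := mul_le_mul_of_nonneg_left hvar hc0.le
    have hs : √n * √n = n := Real.mul_self_sqrt hn0.le
    have hs0 : √n ≠ 0 := (Real.sqrt_pos.mpr hn0).ne'
    have he : exp (2 * A) = exp A * exp A := by rw [← exp_add]; ring_nf
    have h2 : exp A * ((c * (exp A ^ 2 / n) + 1 / c) / 2) = exp (2 * A) / √n := by
      rw [he, hc]
      field_simp
      rw [Real.sq_sqrt hn0.le]
      ring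
    calc exp A * ((c * ∫ θ, (S θ - Z) ^ 2 ∂P + 1 / c) / 2)
        ≤ exp A * ((c * (exp A ^ 2 / n) + 1 / c) / 2) := by
          have := (exp_pos A).le
          gcongr
      _ = _ := h2

lemma map_eval_pair {K : ℕ} {k l : Fin (K + 1)} (h : k ≠ l) :
    (Measure.pi (fun _ : Fin (K + 1) => μ)).map (fun θ => (θ k, θ l)) = μ.prod μ := by
  have hi : IndepFun (fun θ : Fin (K + 1) → E => θ k) (fun θ => θ l)
      (Measure.pi (fun _ : Fin (K + 1) => μ)) :=
    (iIndepFun_pi (μ := fun _ : Fin (K + 1) => μ) (X := fun _ x => x) fun _ => aemeasurable_id).indepFun h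
  rw [(indepFun_iff_map_prod_eq_prod_map_map (measurable_pi_apply k).aemeasurable
    (measurable_pi_apply l).aemeasurable).1 hi, (measurePreserving_eval _ k).map_eq,
    (measurePreserving_eval _ l).map_eq]

/-- Jensen for pairs from one sample; the diagonal costs `O (1 / K)`. -/
theorem sample_pair_le {G : E × E → ℝ} (hG : Measurable G) {A : ℝ} (hA : ∀ x, |G x| ≤ A) (K : ℕ) :
    ∫ θ, lse (fun p : Fin (K + 1) × Fin (K + 1) => G (θ p.1, θ p.2)) ∂Measure.pi (fun _ => μ)
        - 2 * log (K + 1)
      ≤ log (∫ p, exp (G p) ∂μ.prod μ) + exp (2 * A) / (K + 1) := by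
  set Z := ∫ p, exp (G p) ∂μ.prod μ with hZdef
  have hZ1 := le_integral_exp (μ.prod μ) hG hA
  have hZ : 0 < Z := (exp_pos _).trans_le hZ1
  set P := Measure.pi (fun _ : Fin (K + 1) => μ) with hP
  set n : ℝ := (K : ℝ) + 1 with hndef
  have hn0 : 0 < n := by positivity
  have hn : ((Fintype.card (Fin (K + 1) × Fin (K + 1)) : ℕ) : ℝ) = n * n := by simp [hndef]
  set S : (Fin (K + 1) → E) → ℝ :=
    fun θ => (∑ p : Fin (K + 1) × Fin (K + 1), exp (G (θ p.1, θ p.2))) / (n * n) with hS
  have hSmem : ∀ θ, S θ ∈ Icc (exp (-A)) (exp A) := fun θ => by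
    have := mean_exp_mem (h := fun p : Fin (K + 1) × Fin (K + 1) => G (θ p.1, θ p.2)) (A := A)
      (fun p => hA _)
    simpa [hS, hn] using this
  have hSm : Measurable S := by fun_prop
  have hSi : Integrable S P := integrable_of_abs_le hSm (C := exp A) fun θ => by
    rw [abs_of_pos ((exp_pos _).trans_le (hSmem θ).1)]; exact (hSmem θ).2
  have hlse : ∀ θ, lse (fun p : Fin (K + 1) × Fin (K + 1) => G (θ p.1, θ p.2))
      = log (S θ) + 2 * log n := by
    intro θ
    have := lse_sub_log (fun p : Fin (K + 1) × Fin (K + 1) => G (θ p.1, θ p.2))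
    rw [hn, log_mul hn0.ne' hn0.ne'] at this
    linarith
  have hlogb : ∀ θ, |log (S θ)| ≤ A := fun θ => by
    rw [abs_le]
    exact ⟨by simpa using log_le_log (exp_pos _) (hSmem θ).1,
      by simpa using log_le_log ((exp_pos _).trans_le (hSmem θ).1) (hSmem θ).2⟩
  have hli : Integrable (fun θ => log (S θ)) P := integrable_of_abs_le hSm.log hlogb
  have hterm : ∀ p : Fin (K + 1) × Fin (K + 1), ∫ θ, exp (G (θ p.1, θ p.2)) ∂P
      ≤ Z + if p.1 = p.2 then exp A else 0 := by
    intro p
    by_cases h : p.1 = p.2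
    · rw [if_pos h]
      have := integral_mono (μ := P) (f := fun θ => exp (G (θ p.1, θ p.2))) (g := fun _ => exp A)
        (integrable_of_abs_le (by fun_prop) fun θ => abs_exp_le (hA _)) (integrable_const _)
        fun θ => (exp_mem (hA _)).2
      simp only [integral_const, probReal_univ, one_smul] at this
      linarith
    · rw [if_neg h, add_zero, hZdef, ← map_eval_pair μ h,
        integral_map (by fun_prop) hG.exp.aestronglyMeasurable]
  have hES : ∫ θ, S θ ∂P ≤ Z + exp A / n := by
    simp only [hS]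
    rw [integral_div, integral_finsetSum _ fun p _ =>
      integrable_of_abs_le (by fun_prop) fun θ => abs_exp_le (hA _), div_le_iff₀ (by positivity)]
    refine (Finset.sum_le_sum fun p _ => hterm p).trans (le_of_eq ?_)
    rw [Finset.sum_add_distrib, Finset.sum_const, Finset.card_univ, nsmul_eq_mul, hn,
      Fintype.sum_prod_type]
    simp only [Finset.sum_ite_eq, Finset.mem_univ, if_true, Finset.sum_const, Finset.card_univ,
      nsmul_eq_mul, Fintype.card_fin]
    push_cast
    rw [← hndef]
    field_simp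
  simp only [hlse]
  rw [integral_add hli (integrable_const _), integral_const, probReal_univ, one_smul,
    add_sub_cancel_right]
  calc ∫ θ, log (S θ) ∂P ≤ ∫ θ, (log Z + (S θ / Z - 1)) ∂P := by
        refine integral_mono hli ((integrable_const _).add ((hSi.div_const Z).sub (integrable_const _))) ?_
        exact fun θ => log_le_tangent ((exp_pos _).trans_le (hSmem θ).1) hZ
    _ = log Z + ((∫ θ, S θ ∂P) / Z - 1) := by
        rw [integral_add (integrable_const _) ((hSi.div_const Z).sub' (integrable_const _)),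
          integral_sub (hSi.div_const Z) (integrable_const _), integral_div]
        simp
    _ ≤ _ := by
        have h1 : (∫ θ, S θ ∂P) / Z - 1 ≤ (exp A / n) / Z := by
          rw [div_sub_one hZ.ne']
          gcongr
          linarith
        have h2 : exp A / n / Z ≤ exp (2 * A) / n := by
          rw [div_div, div_le_div_iff₀ (by positivity) hn0]
          have e : exp (2 * A) * exp (-A) = exp A := by rw [← exp_add]; ring_nf
          have := mul_le_mul_of_nonneg_left hZ1 (exp_pos (2 * A)).le
          rw [e] at this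
          nlinarith
        linarith

end P157.RS

end
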