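import Vale.Agent.P157.RS.Defs
import Vale.Agent.P157.Split

/-!
# P157, RS: Gaussian fields and the interpolation of rows by fields in small slots
-/

noncomputable section

open MeasureTheory ProbabilityTheory Real Filter Topology Set
open scoped BigOperators

namespace P157.RS

open Vale.Agent.P150 (gauss)
open P157 (Em)

namespace Fld

open P157.Conc (Grad lin Sp Dmat integral_split)

variable {Y L ι κ κ' μ : Type*} [Fintype Y]

/-- Lipschitz functionals of the log weights. -/
def Li (Φ : (Y → ℝ) → ℝ) : Prop :=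
  ∃ C, 0 ≤ C ∧ ∀ a b, |Φ a - Φ b| ≤ C * ∑ y, |a y - b y|

lemma Li.continuous {Φ : (Y → ℝ) → ℝ} (h : Li Φ) : Continuous Φ := by
  obtain ⟨C, -, h⟩ := h
  refine continuous_iff_continuousAt.2 fun b => ?_
  refine tendsto_iff_norm_sub_tendsto_zero.2 (squeeze_zero
    (g := fun a => C * ∑ y, |a y - b y|) (fun a => norm_nonneg _)
    (fun a => by rw [norm_eq_abs]; exact h a b) ?_)
  have : Continuous fun a : Y → ℝ => C * ∑ y, |a y - b y| := by fun_prop
  simpa using this.tendsto b

lemma Li.add {Φ Ψ : (Y → ℝ) → ℝ} (h : Li Φ) (h' : Li Ψ) : Li (fun u => Φ u + Ψ u) := by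
  obtain ⟨C, hC, h⟩ := h
  obtain ⟨D, hD, h'⟩ := h'
  refine ⟨C + D, add_nonneg hC hD, fun a b => ?_⟩
  rw [add_mul, add_sub_add_comm]
  exact (abs_add_le _ _).trans (add_le_add (h a b) (h' a b))

lemma Li.const (c : ℝ) : Li (fun _ : Y → ℝ => c) := ⟨0, le_rfl, fun a b => by simp⟩

lemma Li.cmul (c : ℝ) {Φ : (Y → ℝ) → ℝ} (h : Li Φ) : Li (fun u => c * Φ u) := by
  obtain ⟨C, hC, h⟩ := h
  refine ⟨|c| * C, mul_nonneg (abs_nonneg _) hC, fun a b => ?_⟩
  rw [← mul_sub, abs_mul, mul_assoc]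
  exact mul_le_mul_of_nonneg_left (h a b) (abs_nonneg _)

lemma gw_nonneg (u : Y → ℝ) (y : Y) : 0 ≤ gw u y :=
  div_nonneg (exp_pos _).le (Finset.sum_nonneg fun z _ => (exp_pos _).le)

variable [Nonempty Y]

lemma part_pos (u : Y → ℝ) : 0 < ∑ y, exp (u y) :=
  Finset.sum_pos (fun y _ => exp_pos _) Finset.univ_nonempty

lemma sum_gw (u : Y → ℝ) : ∑ y, gw u y = 1 := by
  simp only [gw, ← Finset.sum_div, div_self (part_pos u).ne']

lemma gw_le_one (u : Y → ℝ) (y : Y) : gw u y ≤ 1 :=
  (Finset.single_le_sum (f := gw u) (fun z _ => gw_nonneg u z) (Finset.mem_univ y)).trans_eq (sum_gw u)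

lemma grad_lse : Grad (lse (Y := Y)) gw := by
  intro v w s hv
  refine ((HasDerivAt.fun_sum fun x _ => (hv x).exp).log (part_pos (v s)).ne').congr_deriv ?_
  rw [Finset.sum_div]
  exact Finset.sum_congr rfl fun x _ => by rw [gw]; ring

lemma grad_gw [DecidableEq Y] (x : Y) : Grad (fun u => gw u x)
    (fun u y => (if x = y then gw u x else 0) - gw u x * gw u y) := by
  intro v w s hv
  refine ((hv x).exp.div (HasDerivAt.fun_sum fun z _ => (hv z).exp) (part_pos (v s)).ne').congr_deriv ?_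
  simp only [sub_mul, Finset.sum_sub_distrib, ite_mul, zero_mul, Finset.sum_ite_eq,
    Finset.mem_univ, if_true, mul_assoc, ← Finset.mul_sum]
  have e : ∑ z, gw (v s) z * w z = (∑ z, exp (v s z) * w z) / ∑ z, exp (v s z) := by
    rw [Finset.sum_div]
    exact Finset.sum_congr rfl fun z _ => by rw [gw]; ring
  have := (part_pos (v s)).ne'
  rw [e, gw]
  field_simp

lemma lse_le_of_le {a b : Y → ℝ} (h : ∀ y, a y ≤ b y) : lse a ≤ lse b :=
  log_le_log (part_pos a) (Finset.sum_le_sum fun y _ => exp_le_exp.2 (h y))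

lemma li_lse : Li (lse (Y := Y)) := by
  refine ⟨1, zero_le_one, (grad_lse (Y := Y)).lip fun u y => ?_⟩
  rw [abs_of_nonneg (gw_nonneg u y)]
  exact gw_le_one u y

lemma abs_gw_sub_le (a b : Y → ℝ) (x : Y) : |gw a x - gw b x| ≤ ∑ y, |a y - b y| := by
  classical
  simpa using (grad_gw x).lip (C := 1) (fun u y => by
    have := gw_nonneg u x
    have := gw_le_one u x
    have := mul_nonneg (gw_nonneg u x) (gw_nonneg u y)
    have := mul_le_of_le_one_right (gw_nonneg u x) (gw_le_one u y)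
    rw [abs_le]
    split_ifs <;> constructor <;> linarith) a b

lemma avgC_lip (G : Y → Y → ℝ) (a b : Y → ℝ) :
    |avgC a G - avgC b G| ≤ (2 * ∑ x, ∑ y, |G x y|) * ∑ y, |a y - b y| := by
  simp only [avgC, ← Finset.sum_sub_distrib]
  rw [mul_assoc, Finset.sum_mul, Finset.mul_sum]
  refine (Finset.abs_sum_le_sum_abs _ _).trans (Finset.sum_le_sum fun x _ => ?_)
  refine (Finset.abs_sum_le_sum_abs _ _).trans ?_
  rw [Finset.sum_mul, Finset.mul_sum]
  refine Finset.sum_le_sum fun y _ => ?_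
  rw [← sub_mul, abs_mul, mul_comm _ |G x y|, mul_left_comm 2 |G x y|]
  refine mul_le_mul_of_nonneg_left ?_ (abs_nonneg _)
  have e : gw a x * gw a y - gw b x * gw b y
      = (gw a x - gw b x) * gw a y + gw b x * (gw a y - gw b y) := by ring
  rw [e]
  refine (abs_add_le _ _).trans ?_
  rw [abs_mul, abs_mul, abs_of_nonneg (gw_nonneg a y), abs_of_nonneg (gw_nonneg b x), two_mul]
  exact add_le_add ((mul_le_of_le_one_right (abs_nonneg _) (gw_le_one a y)).trans (abs_gw_sub_le a b x))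
    ((mul_le_of_le_one_left (abs_nonneg _) (gw_le_one b x)).trans (abs_gw_sub_le a b y))

lemma avgI_lip (F : Y → ℝ) (a b : Y → ℝ) :
    |avgI a F - avgI b F| ≤ (∑ y, |F y|) * ∑ y, |a y - b y| := by
  simp only [avgI, ← Finset.sum_sub_distrib, Finset.sum_mul]
  refine (Finset.abs_sum_le_sum_abs _ _).trans (Finset.sum_le_sum fun x _ => ?_)
  rw [← sub_mul, abs_mul, mul_comm]
  exact mul_le_mul_of_nonneg_left (abs_gw_sub_le a b x) (abs_nonneg _)

lemma li_avgC (G : Y → Y → ℝ) : Li (fun t => avgC t G) :=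
  ⟨_, mul_nonneg two_pos.le (Finset.sum_nonneg fun _ _ => Finset.sum_nonneg fun _ _ => abs_nonneg _),
    avgC_lip G⟩

omit [Nonempty Y]
variable [Fintype κ] [Fintype L] [Fintype ι] {Φ Ψ : (Y → ℝ) → ℝ} {f : ℝ → ℝ} {B : ℝ}

omit [Fintype Y] in
lemma fld_eq (z : Y → κ → ℝ) (v : ℝ) (g : κ → ℝ) :
    (fun y => √v * dot (z y) g) = lin (fun y i => √v * z y i) g := by
  funext y
  simp only [lin, dot, Finset.mul_sum, mul_assoc]

omit [Fintype Y] in
lemma continuous_field (z : Y → κ → ℝ) (v : ℝ) :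
    Continuous fun g : κ → ℝ => fun y => √v * dot (z y) g := by
  rw [show (fun g : κ → ℝ => fun y => √v * dot (z y) g) = lin (fun y i => √v * z y i) from funext (fld_eq z v)]
  exact P157.Conc.continuous_lin _

lemma abs_field_le (z : Y → κ → ℝ) (v : ℝ) (g : κ → ℝ) :
    ∑ y, |√v * dot (z y) g| ≤ (√v * ∑ y, ∑ i, |z y i|) * ∑ i, |g i| := by
  rw [mul_assoc, Finset.sum_mul, Finset.mul_sum]
  refine Finset.sum_le_sum fun y _ => ?_
  rw [abs_mul, abs_of_nonneg (Real.sqrt_nonneg v)]
  refine mul_le_mul_of_nonneg_left ((Finset.abs_sum_le_sum_abs _ _).trans ?_) (Real.sqrt_nonneg v)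
  rw [Finset.sum_mul]
  refine Finset.sum_le_sum fun i _ => ?_
  rw [abs_mul]
  exact mul_le_mul_of_nonneg_left
    (Finset.single_le_sum (f := fun j => |g j|) (fun j _ => abs_nonneg _) (Finset.mem_univ i))
    (abs_nonneg _)

lemma integrable_fld (hΦ : Li Φ) (z : Y → κ → ℝ) (v : ℝ) (u : Y → ℝ) :
    Integrable (fun g => Φ (fun y => u y + √v * dot (z y) g)) (gauss κ) := by
  have hc : Continuous fun g : κ → ℝ => Φ (fun y => u y + √v * dot (z y) g) :=
    hΦ.continuous.comp (continuous_pi fun y =>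
      continuous_const.add ((continuous_apply y).comp (continuous_field z v)))
  obtain ⟨C, hC, h⟩ := hΦ
  refine Vale.Agent.P150.integrable_of_linear_bound hc (A := |Φ u|)
    (B := C * (√v * ∑ y, ∑ i, |z y i|)) fun g => ?_
  have h1 := h (fun y => u y + √v * dot (z y) g) u
  simp only [add_sub_cancel_left] at h1
  have h2 := mul_le_mul_of_nonneg_left (abs_field_le z v g) hC
  have h3 := abs_sub_abs_le_abs_sub (Φ fun y => u y + √v * dot (z y) g) (Φ u)
  rw [← mul_assoc] at h2
  linarith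

lemma li_fld (hΦ : Li Φ) (z : Y → κ → ℝ) (v : ℝ) : Li (fld z v Φ) := by
  obtain ⟨C, hC, h⟩ := hΦ
  refine ⟨C, hC, fun a b => ?_⟩
  unfold fld
  rw [← integral_sub (integrable_fld ⟨C, hC, h⟩ z v a) (integrable_fld ⟨C, hC, h⟩ z v b),
    ← Real.norm_eq_abs]
  refine (norm_integral_le_of_norm_le_const (C := C * ∑ y, |a y - b y|) (ae_of_all _ fun g => ?_)).trans_eq
    (by simp)
  rw [Real.norm_eq_abs]
  simpa using h (fun y => a y + √v * dot (z y) g) (fun y => b y + √v * dot (z y) g)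

lemma fld_mono (hΦ : Li Φ) (hΨ : Li Ψ) (h : ∀ t, Φ t ≤ Ψ t) (z : Y → κ → ℝ) (v : ℝ) (u : Y → ℝ) :
    fld z v Φ u ≤ fld z v Ψ u :=
  integral_mono (integrable_fld hΦ z v u) (integrable_fld hΨ z v u) fun g => h _

lemma fld_add (hΦ : Li Φ) (hΨ : Li Ψ) (z : Y → κ → ℝ) (v : ℝ) (u : Y → ℝ) :
    fld z v (fun t => Φ t + Ψ t) u = fld z v Φ u + fld z v Ψ u :=
  integral_add (integrable_fld hΦ z v u) (integrable_fld hΨ z v u)

omit [Fintype Y] in
lemma fld_cmul (c : ℝ) (z : Y → κ → ℝ) (v : ℝ) (u : Y → ℝ) (Φ : (Y → ℝ) → ℝ) :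
    fld z v (fun t => c * Φ t) u = c * fld z v Φ u :=
  integral_const_mul _ _

omit [Fintype Y] in
lemma fld_const (c : ℝ) (z : Y → κ → ℝ) (v : ℝ) (u : Y → ℝ) : fld z v (fun _ => c) u = c := by
  simp [fld]

section Rows

variable (hf : Continuous f) (hB : ∀ s, |f s| ≤ B)
include hf

omit [Fintype Y] in
lemma continuous_row (a : Y → L → ι → ℝ) (u : Y → ℝ) :
    Continuous fun g : ι → ℝ => fun y => u y + rowInc f a g y :=
  continuous_pi fun y => continuous_const.add (continuous_finsetSum _ fun l _ =>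
    hf.comp (continuous_finsetSum _ fun i _ => continuous_const.mul (continuous_apply i)))

include hB

omit hf in
lemma sum_row_le (a : Y → L → ι → ℝ) (g : ι → ℝ) :
    ∑ y, |rowInc f a g y| ≤ Fintype.card Y * (Fintype.card L * B) := by
  refine (Finset.sum_le_card_nsmul _ _ (Fintype.card L * B) fun y _ => ?_).trans_eq (by simp)
  refine (Finset.abs_sum_le_sum_abs _ _).trans
    ((Finset.sum_le_card_nsmul _ _ B fun l _ => hB _).trans_eq (by simp))

lemma integrable_T (hΦ : Li Φ) (a : Y → L → ι → ℝ) (u : Y → ℝ) :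
    Integrable (fun g => Φ (fun y => u y + rowInc f a g y)) (gauss ι) := by
  have hc := hΦ.continuous.comp (continuous_row hf a u)
  obtain ⟨C, hC, h⟩ := hΦ
  refine Vale.Agent.P150.integrable_gauss_bound hc
    (B := |Φ u| + C * (Fintype.card Y * (Fintype.card L * B))) fun g => ?_
  have h1 := h (fun y => u y + rowInc f a g y) u
  simp only [add_sub_cancel_left] at h1
  have h2 := mul_le_mul_of_nonneg_left (sum_row_le hB a g) hC
  have h3 := abs_sub_abs_le_abs_sub (Φ fun y => u y + rowInc f a g y) (Φ u)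
  linarith

lemma li_T (hΦ : Li Φ) (a : Y → L → ι → ℝ) : Li (T f a Φ) := by
  obtain ⟨C, hC, h⟩ := hΦ
  refine ⟨C, hC, fun x x' => ?_⟩
  unfold T
  rw [← integral_sub (integrable_T hf hB ⟨C, hC, h⟩ a x) (integrable_T hf hB ⟨C, hC, h⟩ a x'),
    ← Real.norm_eq_abs]
  refine (norm_integral_le_of_norm_le_const (C := C * ∑ y, |x y - x' y|) (ae_of_all _ fun g => ?_)).trans_eq
    (by simp)
  rw [Real.norm_eq_abs]
  simpa using h (fun y => x y + rowInc f a g y) (fun y => x' y + rowInc f a g y)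

lemma li_Rk (hΦ : Li Φ) (a : Y → L → ι → ℝ) : ∀ k, Li (Rk f a Φ k)
  | 0 => hΦ
  | k + 1 => li_T hf hB (li_Rk hΦ a k) a

lemma Rk_mono (hΦ : Li Φ) (hΨ : Li Ψ) (h : ∀ t, Φ t ≤ Ψ t) (a : Y → L → ι → ℝ) :
    ∀ k u, Rk f a Φ k u ≤ Rk f a Ψ k u
  | 0, u => h u
  | k + 1, u => integral_mono (integrable_T hf hB (li_Rk hf hB hΦ a k) a u)
      (integrable_T hf hB (li_Rk hf hB hΨ a k) a u) fun _ => Rk_mono hΦ hΨ h a k _

lemma Rk_add (hΦ : Li Φ) (hΨ : Li Ψ) (a : Y → L → ι → ℝ) :
    ∀ k u, Rk f a (fun t => Φ t + Ψ t) k u = Rk f a Φ k u + Rk f a Ψ k u := by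
  intro k
  induction k with
  | zero => intro u; rfl
  | succ k ih =>
    intro u
    simp only [Rk, T, ih]
    exact integral_add (integrable_T hf hB (li_Rk hf hB hΦ a k) a u)
      (integrable_T hf hB (li_Rk hf hB hΨ a k) a u)

omit hf hB [Fintype Y] in
lemma Rk_cmul (c : ℝ) (Φ : (Y → ℝ) → ℝ) (a : Y → L → ι → ℝ) :
    ∀ k u, Rk f a (fun t => c * Φ t) k u = c * Rk f a Φ k u := by
  intro k
  induction k with
  | zero => intro u; rfl
  | succ k ih => intro u; simp only [Rk, T, ih, integral_const_mul]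

omit hf hB [Fintype Y] in
lemma Rk_const (c : ℝ) (a : Y → L → ι → ℝ) :
    ∀ k u, Rk f a (fun _ => c) k u = c := by
  intro k
  induction k with
  | zero => intro u; rfl
  | succ k ih => intro u; simp [Rk, T, ih]

omit hf hB [Fintype Y] in
lemma Rk_T (Φ : (Y → ℝ) → ℝ) (a : Y → L → ι → ℝ) :
    ∀ k u, Rk f a (T f a Φ) k u = Rk f a Φ (k + 1) u := by
  intro k
  induction k with
  | zero => intro u; rfl
  | succ k ih => intro u; simp only [Rk, T] at ih ⊢; simp only [ih]

lemma T_fld (hΦ : Li Φ) (a : Y → L → ι → ℝ) (z : Y → κ → ℝ) (v : ℝ) :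
    T f a (fld z v Φ) = fld z v (T f a Φ) := by
  funext u
  simp only [T, fld]
  have hc : Continuous fun p : (ι → ℝ) × (κ → ℝ) =>
      Φ (fun y => u y + rowInc f a p.1 y + √v * dot (z y) p.2) :=
    hΦ.continuous.comp (continuous_pi fun y =>
      (((continuous_apply y).comp ((continuous_row hf a u).comp continuous_fst))).add
        ((continuous_apply y).comp ((continuous_field z v).comp continuous_snd)))
  obtain ⟨C, hC, h⟩ := hΦ
  have hi : Integrable (Function.uncurry fun (g : ι → ℝ) (g' : κ → ℝ) =>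
      Φ (fun y => u y + rowInc f a g y + √v * dot (z y) g')) ((gauss ι).prod (gauss κ)) := by
    have hb : Integrable (fun g' : κ → ℝ => |Φ u| + C * (Fintype.card Y * (Fintype.card L * B))
        + C * (√v * ∑ y, ∑ i, |z y i|) * ∑ i, |g' i|) (gauss κ) :=
      (integrable_const _).add ((integrable_finsetSum _ fun i _ =>
        (Vale.Agent.P150.integrable_eval i).abs).const_mul _)
    refine (hb.comp_snd (gauss ι)).mono' hc.aestronglyMeasurable (ae_of_all _ fun p => ?_)
    rw [Real.norm_eq_abs]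
    simp only [Function.uncurry]
    have h1 := h (fun y => u y + rowInc f a p.1 y + √v * dot (z y) p.2) u
    have h2 : ∑ y, |u y + rowInc f a p.1 y + √v * dot (z y) p.2 - u y|
        ≤ Fintype.card Y * (Fintype.card L * B) + (√v * ∑ y, ∑ i, |z y i|) * ∑ i, |p.2 i| := by
      refine le_trans (Finset.sum_le_sum fun y _ => ?_)
        ((Finset.sum_add_distrib).trans_le (add_le_add (sum_row_le hB a p.1) (abs_field_le z v p.2)))
      rw [add_assoc, add_sub_cancel_left]
      exact abs_add_le _ _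
    have h3 := mul_le_mul_of_nonneg_left h2 hC
    have h4 := abs_sub_abs_le_abs_sub (Φ fun y => u y + rowInc f a p.1 y + √v * dot (z y) p.2) (Φ u)
    rw [mul_add, ← mul_assoc C (√v * _)] at h3
    linarith
  rw [integral_integral_swap hi]
  simp only [add_right_comm]

end Rows

omit [Fintype Y] [Fintype κ] [Fintype L] [Fintype ι] in
lemma Em_add {w : ℝ} : ∀ (M : ℕ) (φ ψ : ℕ → ℝ),
    Em w M (fun k => φ k + ψ k) = Em w M φ + Em w M ψ
  | 0, _, _ => rfl
  | M + 1, φ, ψ => by simp only [Em, Em_add M]; ring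

omit [Fintype Y] [Fintype κ] [Fintype L] [Fintype ι] in
lemma Em_const {w : ℝ} (c : ℝ) : ∀ M : ℕ, Em w M (fun _ => c) = c
  | 0 => rfl
  | M + 1 => by simp only [Em, Em_const c M]; ring

end Fld

open Fld

variable {Y L ι κ κ' μ : Type*} [Fintype Y] [Nonempty Y] [Fintype L] [Fintype ι] [Fintype κ]
  [Fintype κ'] [Fintype μ] {f : ℝ → ℝ} {B : ℝ}

omit [Nonempty Y] in
theorem fld_zero (z : Y → κ → ℝ) (u : Y → ℝ) : fld z 0 lse u = lse u := by
  simp [fld]

/-- Two fields make one field with the combined Gram matrix. -/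
theorem fld_comb (z : Y → κ → ℝ) (z' : Y → κ' → ℝ) (z'' : Y → μ → ℝ) {a b c : ℝ}
    (ha : 0 ≤ a) (hb : 0 ≤ b) (hc : 0 ≤ c)
    (h : ∀ x y, c * dot (z'' x) (z'' y) = a * dot (z x) (z y) + b * dot (z' x) (z' y))
    (u : Y → ℝ) : fld z a (fld z' b lse) u = fld z'' c lse u := by
  classical
  set e : Y → κ ⊕ κ' → ℝ := fun y => Sum.elim (fun i => √a * z y i) (fun i => √b * z' y i)
  set e' : Y → μ → ℝ := fun y i => √c * z'' y i
  obtain ⟨C, hC, hlse⟩ := li_lse (Y := Y)
  have hH : Continuous fun t : Y → ℝ => lse (fun y => u y + t y) :=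
    li_lse.continuous.comp (continuous_pi fun y => continuous_const.add (continuous_apply y))
  have hlip : ∀ t t' : Y → ℝ, |lse (fun y => u y + t y) - lse (fun y => u y + t' y)|
      ≤ C * ∑ y, |t y - t' y| := fun t t' => by
    simpa using hlse (fun y => u y + t y) (fun y => u y + t' y)
  have key := P157.Conc.integral_lin_eq e e' (fun x y => by
    simp only [e, e', Fintype.sum_sum_type, Sum.elim_inl, Sum.elim_inr]
    have h' := h x y
    simp only [dot, Finset.mul_sum] at h'
    have q : ∀ {t : ℝ}, 0 ≤ t → ∀ p r : ℝ, √t * p * (√t * r) = t * (p * r) := fun ht p r => by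
      rw [mul_mul_mul_comm, Real.mul_self_sqrt ht]
    simp only [q ha, q hb, q hc]
    exact h'.symm) hH
  rw [P157.Conc.integral_split (P157.Conc.integrable_H hH hlip e)] at key
  refine Eq.trans ?_ (key.trans ?_)
  · refine integral_congr_ae (ae_of_all _ fun g => integral_congr_ae (ae_of_all _ fun g' => ?_))
    simp only [e, P157.Conc.lin, dot, Fintype.sum_sum_type, Sum.elim_inl, Sum.elim_inr, Finset.mul_sum,
      mul_assoc, add_assoc]
  · refine integral_congr_ae (ae_of_all _ fun g => ?_)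
    simp only [e', P157.Conc.lin, dot, Finset.mul_sum, mul_assoc]

/-- Second order expansion of a small field, with its constant. -/
theorem fld_small_aux (z : Y → κ → ℝ) {v : ℝ} (hv : 0 ≤ v) (u : Y → ℝ) :
    |fld z v lse u - lse u
      - v / 2 * (avgI u (fun y => dot (z y) (z y)) - avgC u fun x y => dot (z x) (z y))|
      ≤ ((∑ y, |dot (z y) (z y)|) + 2 * ∑ x, ∑ y, |dot (z x) (z y)|) * (∑ y, ∑ i, |z y i|)
        * (∫ g, ∑ i, |g i| ∂gauss κ) * (v * √v) := by
  classical
  set m1 : ℝ := ∫ g, ∑ i, |g i| ∂gauss κ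
  set G : Y → Y → ℝ := fun x y => dot (z x) (z y)
  set K : ℝ := (∑ y, |G y y|) + 2 * ∑ x, ∑ y, |G x y|
  set A : ℝ := ∑ y, ∑ i, |z y i|
  have hK : 0 ≤ K := add_nonneg (Finset.sum_nonneg fun y _ => abs_nonneg _)
    (mul_nonneg two_pos.le (Finset.sum_nonneg fun x _ => Finset.sum_nonneg fun y _ => abs_nonneg _))
  set Q : (Y → ℝ) → ℝ := fun t => avgI t (fun y => G y y) - avgC t G
  have hQlip : ∀ t t' : Y → ℝ, |Q t - Q t'| ≤ K * ∑ y, |t y - t' y| := fun t t' => by
    have h1 := avgI_lip (fun y => G y y) t t'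
    have h2 := avgC_lip G t t'
    have h3 := abs_sub (avgI t (fun y => G y y) - avgI t' (fun y => G y y)) (avgC t G - avgC t' G)
    simp only [Q, K, add_mul]
    rw [sub_sub_sub_comm]
    linarith
  have hQc : Continuous Q := Li.continuous ⟨K, hK, hQlip⟩
  set P : κ → ℝ := 0
  set R : κ → ℝ := fun _ => v
  have hP : ∀ i, 0 ≤ P i := fun i => le_rfl
  have hR : ∀ i, 0 ≤ R i := fun i => hv
  have hadd : Continuous fun w : Y → ℝ => fun y => u y + w y :=
    continuous_pi fun y => continuous_const.add (continuous_apply y)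
  have hgc : ∀ x, Continuous fun t : Y → ℝ => gw t x := fun x =>
    Li.continuous ⟨1, zero_le_one, fun a b => by rw [one_mul]; exact abs_gw_sub_le a b x⟩
  set H : (Y → ℝ) → ℝ := fun w => lse (fun y => u y + w y)
  set H1 : (Y → ℝ) → Y → ℝ := fun w x => gw (fun y => u y + w y) x
  set H2 : (Y → ℝ) → Y → Y → ℝ := fun w x y =>
    (if x = y then gw (fun y => u y + w y) x else 0)
      - gw (fun y => u y + w y) x * gw (fun y => u y + w y) y
  have hg1 : P157.Conc.Grad H H1 := fun p w s hp =>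
    grad_lse (fun r y => u y + p r y) w s fun y => (hp y).const_add (u y)
  have hg2 : ∀ x, P157.Conc.Grad (fun w => H1 w x) (fun w => H2 w x) := fun x p w s hp =>
    grad_gw x (fun r y => u y + p r y) w s fun y => (hp y).const_add (u y)
  have hHc : Continuous H := li_lse.continuous.comp hadd
  have hc2 : ∀ x y, Continuous fun w => H2 w x y := fun x y => by
    simp only [H2]
    refine Continuous.sub ?_ (((hgc x).comp hadd).mul ((hgc y).comp hadd))
    split_ifs
    · exact (hgc x).comp hadd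
    · exact continuous_const
  have hb1 : ∀ w x, |H1 w x| ≤ 1 := fun w x => by
    rw [abs_of_nonneg (gw_nonneg _ _)]; exact gw_le_one _ _
  have hb2 : ∀ w x y, |H2 w x y| ≤ 1 := fun w x y => by
    simp only [H2]
    generalize (fun y => u y + w y) = t
    have := gw_nonneg t x
    have := gw_le_one t x
    have := mul_nonneg (gw_nonneg t x) (gw_nonneg t y)
    have := mul_le_of_le_one_right (gw_nonneg t x) (gw_le_one t y)
    rw [abs_le]
    split_ifs <;> constructor <;> linarith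
  have hD : ∀ x y, P157.Conc.Dmat z P R x y = v * G x y := fun x y => by
    simp [P157.Conc.Dmat, P, R, G, dot, Finset.mul_sum]
  have hDH : ∀ w, ∑ x, ∑ y, P157.Conc.Dmat z P R x y * H2 w x y = v * Q (fun y => u y + w y) := by
    intro w
    simp only [hD, H2, Q, avgI, avgC, mul_sub, Finset.sum_sub_distrib, mul_ite, mul_zero,
      Finset.sum_ite_eq, Finset.mem_univ, if_true, Finset.mul_sum]
    congr 1
    · exact Finset.sum_congr rfl fun x _ => by ring
    · exact Finset.sum_congr rfl fun x _ => Finset.sum_congr rfl fun y _ => by ring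
  have hiQ : ∀ t, Integrable (fun g => Q (fun y => u y + P157.Conc.Sp z P R t g y)) (gauss κ) :=
    fun t => P157.Conc.integrable_H (H := fun w => Q (fun y => u y + w y)) (hQc.comp hadd)
      (fun w w' => by simpa using hQlip (fun y => u y + w y) (fun y => u y + w' y)) _
  obtain ⟨t, ht, he⟩ := exists_hasDerivAt_eq_slope
    (fun s => ∫ g, H (P157.Conc.Sp z P R s g) ∂gauss κ)
    (fun t => 1 / 2 * (v * ∫ g, Q (fun y => u y + P157.Conc.Sp z P R t g y) ∂gauss κ)) zero_lt_one
    (P157.Conc.continuousOn_path hP hR hHc (hg1.lip hb1))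
    fun t ht => (P157.Conc.hasDerivAt_path hP hR hg1 hg2 hHc (fun x => (hgc x).comp hadd) hc2
      hb1 hb2 ht).congr_deriv (by simp only [hDH, integral_const_mul])
  have hS1 : ∀ g : κ → ℝ, P157.Conc.Sp z P R 1 g = fun y => √v * dot (z y) g := fun g => by
    funext y
    simp [P157.Conc.Sp_eq, P157.Conc.coef, P, R, dot, Finset.mul_sum, mul_assoc]
  have hS0 : ∀ g : κ → ℝ, P157.Conc.Sp z P R 0 g = fun _ => 0 := fun g => by
    funext y
    simp [P157.Conc.Sp_eq, P157.Conc.coef, P]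
  have e1 : ∫ g, H (P157.Conc.Sp z P R 1 g) ∂gauss κ = fld z v lse u := by
    simp only [H, hS1]; rfl
  have e0 : ∫ g, H (P157.Conc.Sp z P R 0 g) ∂gauss κ = lse u := by
    simp [H, hS0]
  rw [e1, e0] at he
  simp only [sub_zero, div_one] at he
  have hm : Integrable (fun g : κ → ℝ => ∑ i, |g i|) (gauss κ) :=
    integrable_finsetSum _ fun i _ => (Vale.Agent.P150.integrable_eval i).abs
  have hb : |(∫ g, Q (fun y => u y + P157.Conc.Sp z P R t g y) ∂gauss κ) - Q u| ≤ K * (√v * A * m1) := by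
    have e : Q u = ∫ _g : κ → ℝ, Q u ∂gauss κ := by simp
    rw [e, ← integral_sub (hiQ t) (integrable_const _)]
    refine (abs_integral_le_integral_abs).trans ((integral_mono ((hiQ t).sub (integrable_const _)).abs
      ((hm.const_mul (√v * A)).const_mul K) fun g => ?_).trans_eq ?_)
    · refine (hQlip _ u).trans (mul_le_mul_of_nonneg_left ?_ hK)
      simp only [add_sub_cancel_left, A]
      rw [mul_assoc, Finset.sum_mul, Finset.mul_sum]
      refine Finset.sum_le_sum fun y _ => ?_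
      rw [P157.Conc.Sp_eq]
      refine (Finset.abs_sum_le_sum_abs _ _).trans ?_
      rw [Finset.sum_mul, Finset.mul_sum]
      refine Finset.sum_le_sum fun i _ => ?_
      rw [← mul_assoc]
      rw [abs_mul, abs_mul]
      refine mul_le_mul (mul_le_mul_of_nonneg_right ?_ (abs_nonneg _))
        (Finset.single_le_sum (f := fun j => |g j|) (fun j _ => abs_nonneg _) (Finset.mem_univ i))
        (abs_nonneg _) (mul_nonneg (Real.sqrt_nonneg v) (abs_nonneg _))
      calc |P157.Conc.coef P R t i| ≤ √(P i + R i) := P157.Conc.coef_le hP hR ⟨ht.1.le, ht.2.le⟩ i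
        _ = √v := by simp [P, R]
    · simp only [integral_const_mul, m1]
  change |fld z v lse u - lse u - v / 2 * Q u| ≤ _
  rw [← he, show (1 / 2 : ℝ) * (v * ∫ g, Q (fun y => u y + P157.Conc.Sp z P R t g y) ∂gauss κ)
      - v / 2 * Q u = v / 2 * ((∫ g, Q (fun y => u y + P157.Conc.Sp z P R t g y) ∂gauss κ) - Q u) by ring,
    abs_mul, abs_of_nonneg (by positivity : 0 ≤ v / 2)]
  refine (mul_le_mul_of_nonneg_left hb (by positivity)).trans ?_
  have : 0 ≤ v * (K * (√v * A * m1)) := mul_nonneg hv ((abs_nonneg _).trans hb)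
  linarith

/-- Second order expansion of a small field. -/
theorem fld_small (z : Y → κ → ℝ) : ∃ C, ∀ v : ℝ, 0 ≤ v → ∀ u : Y → ℝ,
    |fld z v lse u - lse u
      - v / 2 * (avgI u (fun y => dot (z y) (z y)) - avgC u fun x y => dot (z x) (z y))|
      ≤ C * (v * √v) :=
  ⟨_, fun _ hv u => fld_small_aux z hv u⟩

/-- The constant of `fld_small` depends only on a bound for the coordinates. -/
theorem fld_small_unif (c : ℝ) : ∃ C, ∀ z : Y → κ → ℝ, (∀ y i, |z y i| ≤ c) →
    ∀ v : ℝ, 0 ≤ v → ∀ u : Y → ℝ,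
    |fld z v lse u - lse u
      - v / 2 * (avgI u (fun y => dot (z y) (z y)) - avgC u fun x y => dot (z x) (z y))|
      ≤ C * (v * √v) := by
  refine ⟨((∑ _y : Y, ∑ _i : κ, c * c) + 2 * ∑ _x : Y, ∑ _y : Y, ∑ _i : κ, c * c)
    * (∑ _y : Y, ∑ _i : κ, c) * ∫ g, ∑ i, |g i| ∂gauss κ,
    fun z hz v hv u => (fld_small_aux z hv u).trans ?_⟩
  have hG : ∀ x y, |dot (z x) (z y)| ≤ ∑ _i : κ, c * c := fun x y =>
    (Finset.abs_sum_le_sum_abs _ _).trans <| Finset.sum_le_sum fun i _ => by
      rw [abs_mul]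
      exact mul_le_mul (hz x i) (hz y i) (abs_nonneg _) ((abs_nonneg _).trans (hz x i))
  have h1 : (∑ y, |dot (z y) (z y)|) + 2 * ∑ x, ∑ y, |dot (z x) (z y)| ≤
      (∑ _y : Y, ∑ _i : κ, c * c) + 2 * ∑ _x : Y, ∑ _y : Y, ∑ _i : κ, c * c :=
    add_le_add (Finset.sum_le_sum fun y _ => hG y y) (mul_le_mul_of_nonneg_left
      (Finset.sum_le_sum fun x _ => Finset.sum_le_sum fun y _ => hG x y) two_pos.le)
  refine mul_le_mul_of_nonneg_right (mul_le_mul_of_nonneg_right (mul_le_mul h1
    (Finset.sum_le_sum fun y _ => Finset.sum_le_sum fun i _ => hz y i) (by positivity)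
    ((by positivity : (0 : ℝ) ≤ _).trans h1)) (integral_nonneg fun g => by positivity)) (by positivity)

/-- Replacing slots of rows by fields, from above, behind an additional field. -/
theorem slots_upper (hf : Continuous f) (hB : ∀ s, |f s| ≤ B) (a : Y → L → ι → ℝ)
    (z : Y → κ → ℝ) (z' : Y → κ' → ℝ) {w v d b : ℝ} (h0 : 0 ≤ w) (h1 : w ≤ 1) (hv : 0 ≤ v)
    (hb : 0 ≤ b) (one : ∀ u, w * T f a lse u + (1 - w) * lse u ≤ fld z v lse u + d)
    (j : ℕ) (u : Y → ℝ) :
    Em w j (fun k => Rk f a (fld z' b lse) k u) ≤ fld z' b (fld z (j * v) lse) u + j * d := by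
  induction j generalizing u with
  | zero =>
    have := hb
    have e : fld z (0 : ℝ) lse = lse (Y := Y) := funext fun t => fld_zero z t
    simp [Em, Rk, e]
  | succ j ih =>
    have hlse := li_lse (Y := Y)
    have hjv : 0 ≤ (j : ℝ) * v := mul_nonneg (Nat.cast_nonneg j) hv
    have hA := li_fld (li_fld hlse z ((j : ℝ) * v)) z' b
    have hR : ∀ k, Integrable (fun g => Rk f a (fld z' b lse) k (fun y => u y + rowInc f a g y))
        (gauss ι) := fun k => integrable_T hf hB (li_Rk hf hB (li_fld hlse z' b) a k) a u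
    have e1 : Em w j (fun k => Rk f a (fld z' b lse) (k + 1) u)
        = ∫ g, Em w j (fun k => Rk f a (fld z' b lse) k (fun y => u y + rowInc f a g y)) ∂gauss ι := by
      rw [integral_Em hR]; rfl
    have i1 := integrable_T hf hB hA a u
    have h2 : Em w j (fun k => Rk f a (fld z' b lse) (k + 1) u)
        ≤ fld z' b (fld z (j * v) (T f a lse)) u + j * d := by
      rw [e1]
      refine (integral_mono (integrable_Em hR) (i1.add (integrable_const _)) fun g => ih _).trans_eq ?_
      rw [integral_add' i1 (integrable_const _), integral_const, probReal_univ, one_smul]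
      congr 1
      change T f a (fld z' b (fld z ((j : ℝ) * v) lse)) u = _
      rw [T_fld hf hB (li_fld hlse z _) a z' b, T_fld hf hB hlse a z _]
    have hT := li_T hf hB hlse a
    have hM := (hT.cmul w).add (hlse.cmul (1 - w))
    have hF := (li_fld hlse z v).add (Li.const d)
    have hmix := fld_mono (li_fld hM z ((j : ℝ) * v)) (li_fld hF z ((j : ℝ) * v))
      (fun t => fld_mono hM hF one z ((j : ℝ) * v) t) z' b u
    have el : fld z' b (fld z ((j : ℝ) * v) (fun t => w * T f a lse t + (1 - w) * lse t)) u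
        = w * fld z' b (fld z ((j : ℝ) * v) (T f a lse)) u
          + (1 - w) * fld z' b (fld z ((j : ℝ) * v) lse) u := by
      have : fld z ((j : ℝ) * v) (fun t => w * T f a lse t + (1 - w) * lse t) = fun t =>
          w * fld z ((j : ℝ) * v) (T f a lse) t + (1 - w) * fld z ((j : ℝ) * v) lse t := funext fun t => by
        rw [Fld.fld_add (hT.cmul w) (hlse.cmul (1 - w)), fld_cmul, fld_cmul]
      rw [this, Fld.fld_add ((li_fld hT z _).cmul w) ((li_fld hlse z _).cmul (1 - w)), fld_cmul, fld_cmul]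
    have er : fld z' b (fld z ((j : ℝ) * v) (fun t => fld z v lse t + d)) u
        = fld z' b (fld z (((j + 1 : ℕ) : ℝ) * v) lse) u + d := by
      have : fld z ((j : ℝ) * v) (fun t => fld z v lse t + d)
          = fun t => fld z (((j + 1 : ℕ) : ℝ) * v) lse t + d := funext fun t => by
        rw [Fld.fld_add (li_fld hlse z v) (Li.const d), fld_const,
          fld_comb z z z (c := ((j + 1 : ℕ) : ℝ) * v) hjv hv (by positivity)
            (fun x y => by push_cast; ring)]
      rw [this, Fld.fld_add (li_fld hlse z _) (Li.const d), fld_const]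
    rw [el, er] at hmix
    have a1 := mul_le_mul_of_nonneg_left h2 h0
    have a2 := mul_le_mul_of_nonneg_left (ih u) (sub_nonneg.2 h1)
    simp only [Em]
    push_cast at hmix ⊢
    linarith

/-- One slot from below, the error averaged over the hybrid system. -/
theorem slot_lower (hf : Continuous f) (hB : ∀ s, |f s| ≤ B) (a : Y → L → ι → ℝ)
    (z : Y → κ → ℝ) (G : Y → Y → ℝ) {w v d K : ℝ} (h0 : 0 ≤ w) (h1 : w ≤ 1) (hv : 0 ≤ v)
    (one : ∀ u, fld z v lse u + d ≤ w * T f a lse u + (1 - w) * lse u + w * K * avgC u G)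
    (j m : ℕ) (u : Y → ℝ) :
    Em w j (fun k => Rk f a (fld z ((m + 1 : ℕ) * v) lse) k u) + d ≤
      Em w (j + 1) (fun k => Rk f a (fld z (m * v) lse) k u)
        + w * K * Em w j (fun k => Rk f a (fld z (m * v) fun t => avgC t G) k u) := by
  have hlse := li_lse (Y := Y)
  have hmv : 0 ≤ (m : ℝ) * v := mul_nonneg (Nat.cast_nonneg m) hv
  set Φ := fld z ((m : ℝ) * v) (lse (Y := Y))
  set A := fld z ((m : ℝ) * v) fun t : Y → ℝ => avgC t G
  have hΦ : Li Φ := li_fld hlse z _
  have hA : Li A := li_fld (li_avgC G) z _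
  have hT := li_T hf hB hlse a
  have e0 : ∀ t, fld z (((m + 1 : ℕ) : ℝ) * v) lse t + d
      ≤ w * T f a Φ t + (1 - w) * Φ t + w * K * A t := by
    intro t
    have hF := (li_fld hlse z v).add (Li.const d)
    have hM := ((hT.cmul w).add (hlse.cmul (1 - w))).add ((li_avgC G).cmul (w * K))
    have h := fld_mono hF hM one z ((m : ℝ) * v) t
    rw [Fld.fld_add (li_fld hlse z v) (Li.const d), fld_const,
      fld_comb z z z (c := ((m + 1 : ℕ) : ℝ) * v) hmv hv (by positivity) (fun x y => by push_cast; ring),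
      Fld.fld_add ((hT.cmul w).add (hlse.cmul (1 - w))) ((li_avgC G).cmul (w * K)),
      Fld.fld_add (hT.cmul w) (hlse.cmul (1 - w)), fld_cmul, fld_cmul, fld_cmul,
      ← T_fld hf hB hlse a z] at h
    exact h
  have e1 : ∀ k, Rk f a (fld z (((m + 1 : ℕ) : ℝ) * v) lse) k u + d
      ≤ w * Rk f a Φ (k + 1) u + (1 - w) * Rk f a Φ k u + w * K * Rk f a A k u := by
    intro k
    have hTΦ := li_T hf hB hΦ a
    have h := Rk_mono hf hB ((li_fld hlse z (((m + 1 : ℕ) : ℝ) * v)).add (Li.const d))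
      (((hTΦ.cmul w).add (hΦ.cmul (1 - w))).add (hA.cmul (w * K))) e0 a k u
    rw [Fld.Rk_add hf hB (li_fld hlse z _) (Li.const d), Rk_const,
      Fld.Rk_add hf hB ((hTΦ.cmul w).add (hΦ.cmul (1 - w))) (hA.cmul (w * K)),
      Fld.Rk_add hf hB (hTΦ.cmul w) (hΦ.cmul (1 - w)), Rk_cmul, Rk_cmul, Rk_cmul, Rk_T] at h
    exact h
  have h := Em_mono (M := j) h0 h1 fun k _ => e1 k
  have hlin : ∀ (c : ℝ) (φ : ℕ → ℝ), Em w j (fun k => c * φ k) = c * Em w j φ := fun c φ => by
    simpa using Em_affine (w := w) (M := j) 0 c φ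
  rw [Fld.Em_add, Fld.Em_const, Fld.Em_add, Fld.Em_add, hlin, hlin, hlin] at h
  simp only [Em, Φ, A] at h ⊢
  linarith

end P157.RS

end
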