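import Vale.Agent.P157.RS.Defs
import Vale.Agent.P157.Sphere.Field

/-!
# P157, RS: one sphere and two coupled spheres in Gaussian fields

The sphere is compared with a standard Gaussian vector through polar coordinates: from above on a
window of the squared radius, from below by tilting the Gaussian vector to the field.
-/

noncomputable section

open MeasureTheory ProbabilityTheory Real Filter Topology Set
open scoped BigOperators

namespace P157.RS

open Vale.Agent.P150 (gauss)
open P157.Sphere (sph rad dir rlaw measurable_rad measurable_dir map_dir_rad)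

/-- Mean free energy of one sphere in a field. -/
def sph1 (N : ℕ) (r : ℝ) : ℝ :=
  ∫ h, log (∫ θ, exp (√(r * N) * dot θ h) ∂sph (Fin N)) ∂gauss (Fin N)

/-- Mean free energy of two coupled spheres in correlated fields. -/
def sph2 (N : ℕ) (r ρ ν : ℝ) : ℝ :=
  ∫ h, log (∫ p, exp (√(r * N) * (dot p.1 (fun i => h (Sum.inl i))
      + dot p.2 (fun i => ρ * h (Sum.inl i) + √(1 - ρ ^ 2) * h (Sum.inr i)))
      + ν * N * dot p.1 p.2) ∂(sph (Fin N)).prod (sph (Fin N))) ∂gauss (Fin N ⊕ Fin N)

section Basic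

variable {ι : Type*} [Fintype ι]

lemma gM_eq_gauss : gM ι = gauss ι := rfl

/-- Euclidean norm. -/
def nrm (a : ι → ℝ) : ℝ := √(dot a a)

lemma dot_self_nonneg (a : ι → ℝ) : 0 ≤ dot a a :=
  Finset.sum_nonneg fun i _ => mul_self_nonneg _

lemma nrm_sq (a : ι → ℝ) : nrm a ^ 2 = dot a a := sq_sqrt (dot_self_nonneg a)

lemma rad_eq (z : ι → ℝ) : rad z = dot z z := Finset.sum_congr rfl fun i _ => sq (z i)

lemma dot_le (a b : ι → ℝ) : dot a b ≤ nrm a * nrm b := by
  have := Real.sum_mul_le_sqrt_mul_sqrt Finset.univ a b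
  simpa [dot, nrm, sq] using this

lemma abs_dot_le (a b : ι → ℝ) : |dot a b| ≤ nrm a * nrm b := by
  refine abs_le.2 ⟨?_, dot_le a b⟩
  have := dot_le (fun i => -a i) b
  have e : dot (fun i => -a i) b = -dot a b := by simp [dot]
  have e' : nrm (fun i => -a i) = nrm a := by simp [nrm, dot]
  rw [e, e'] at this
  linarith

lemma dot_smul_left (c : ℝ) (a b : ι → ℝ) : dot (fun i => c * a i) b = c * dot a b := by
  simp [dot, Finset.mul_sum, mul_assoc]

lemma dot_smul_right (c : ℝ) (a b : ι → ℝ) : dot a (fun i => c * b i) = c * dot a b := by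
  simp [dot, Finset.mul_sum, mul_left_comm]

lemma dir_eq (z : ι → ℝ) : dir z = fun i => (nrm z)⁻¹ * z i := by
  funext i; simp [dir, rad_eq, nrm, div_eq_inv_mul]

lemma nrm_dir_le (z : ι → ℝ) : nrm (dir z) ≤ 1 := by
  refine Real.sqrt_le_one.2 ?_
  rw [dir_eq, dot_smul_left, dot_smul_right, ← mul_assoc, ← sq, inv_pow, nrm_sq]
  exact inv_mul_le_one

lemma dot_dir (z a : ι → ℝ) : nrm z * dot (dir z) a = dot z a := by
  rw [dir_eq, dot_smul_left, ← mul_assoc]
  rcases eq_or_ne (nrm z) 0 with h | h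
  · have h0 : z = 0 := by
      have : dot z z = 0 := le_antisymm (Real.sqrt_eq_zero'.1 h) (dot_self_nonneg z)
      funext i
      exact mul_self_eq_zero.1
        ((Finset.sum_eq_zero_iff_of_nonneg fun i _ => mul_self_nonneg (z i)).1 this i (Finset.mem_univ i))
    simp [h0, dot, nrm]
  · rw [mul_inv_cancel₀ h, one_mul]

lemma abs_dot_dir_le (z a : ι → ℝ) : |dot (dir z) a| ≤ nrm a :=
  (abs_dot_le _ _).trans (mul_le_of_le_one_left (Real.sqrt_nonneg _) (nrm_dir_le z))

@[fun_prop]
lemma measurable_dot : Measurable fun p : (ι → ℝ) × (ι → ℝ) => dot p.1 p.2 := by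
  unfold dot; fun_prop

@[fun_prop]
lemma continuous_dot : Continuous fun p : (ι → ℝ) × (ι → ℝ) => dot p.1 p.2 := by
  unfold dot; fun_prop

/-! ## Gaussian integrals -/

lemma quad_complete {c a : ℝ} (hc : 0 < 1 + c) (x : ℝ) :
    gaussianPDFReal 0 1 x * exp (a * x - c * x ^ 2 / 2)
      = exp (a ^ 2 / (2 * (1 + c))) / √(2 * π) *
        exp (-((1 + c) / 2) * (x - a / (1 + c)) ^ 2) := by
  have e : -x ^ 2 / 2 + (a * x - c * x ^ 2 / 2)
      = a ^ 2 / (2 * (1 + c)) + -((1 + c) / 2) * (x - a / (1 + c)) ^ 2 := by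
    field_simp
    ring
  simp only [gaussianPDFReal, NNReal.coe_one, mul_one, sub_zero]
  rw [mul_assoc, ← exp_add, e, exp_add, div_eq_inv_mul _ (√(2 * π)), mul_assoc]

lemma integral_tilt {c : ℝ} (hc : 0 < 1 + c) (a : ℝ) :
    ∫ x, exp (a * x - c * x ^ 2 / 2) ∂gaussianReal 0 1
      = exp (a ^ 2 / (2 * (1 + c))) / √(1 + c) := by
  rw [integral_gaussianReal_eq_integral_smul one_ne_zero]
  simp only [smul_eq_mul, quad_complete hc, integral_const_mul]
  rw [integral_sub_right_eq_self (fun x => exp (-((1 + c) / 2) * x ^ 2)) (a / (1 + c)),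
    integral_gaussian]
  have h2 : π / ((1 + c) / 2) = 2 * π / (1 + c) := by field_simp
  rw [h2, Real.sqrt_div' _ hc.le]
  have h3 : √(2 * π) ≠ 0 := by positivity
  field_simp

lemma integrable_tilt {c : ℝ} (hc : 0 < 1 + c) (a : ℝ) :
    Integrable (fun x => exp (a * x - c * x ^ 2 / 2)) (gaussianReal 0 1) := by
  by_contra h
  have := integral_tilt hc a
  rw [integral_undef h] at this
  exact absurd this.symm (by positivity)

/-- Exponent of a tilt of the standard Gaussian vector. -/
def tilt (c : ℝ) (a z : ι → ℝ) : ℝ := dot a z - c / 2 * rad z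

lemma exp_tilt (c : ℝ) (a z : ι → ℝ) :
    exp (tilt c a z) = ∏ i, exp (a i * z i - c * z i ^ 2 / 2) := by
  rw [← exp_sum, tilt, dot, rad, Finset.mul_sum, ← Finset.sum_sub_distrib]
  congr 1
  exact Finset.sum_congr rfl fun i _ => by ring

/-- The normalising constant of a tilt. -/
def tiltK (c : ℝ) (a : ι → ℝ) : ℝ :=
  dot a a / (2 * (1 + c)) - (Fintype.card ι : ℝ) / 2 * log (1 + c)

lemma integrable_exp_tilt {c : ℝ} (hc : 0 < 1 + c) (a : ι → ℝ) :
    Integrable (fun z => exp (tilt c a z)) (gauss ι) := by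
  simp only [exp_tilt]
  exact Integrable.fintype_prod fun i => integrable_tilt hc (a i)

lemma integral_exp_tilt {c : ℝ} (hc : 0 < 1 + c) (a : ι → ℝ) :
    ∫ z, exp (tilt c a z) ∂gauss ι = exp (tiltK c a) := by
  simp only [exp_tilt, gauss]
  rw [integral_fintype_prod_eq_prod (f := fun i x => exp (a i * x - c * x ^ 2 / 2))]
  have h : ∀ i, ∫ x, exp (a i * x - c * x ^ 2 / 2) ∂gaussianReal 0 1
      = exp (a i ^ 2 / (2 * (1 + c)) - log (1 + c) / 2) := fun i => by
    rw [integral_tilt hc, exp_sub, ← Real.log_sqrt hc.le, exp_log (sqrt_pos.2 hc)]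
  rw [Finset.prod_congr rfl fun i _ => h i, ← exp_sum]
  simp only [tiltK, Finset.sum_sub_distrib, Finset.sum_const, Finset.card_univ,
    nsmul_eq_mul, ← Finset.sum_div, dot, sq]
  ring_nf

lemma integral_eval (i : ι) : ∫ z, z i ∂gauss ι = 0 := by
  exact (Vale.Agent.P150.integral_comp_mp
    (measurePreserving_eval (fun _ : ι => gaussianReal 0 1) i) (F := fun x : ℝ => x)
    (by fun_prop)).trans integral_id_gaussianReal

lemma integral_sq_eval (i : ι) : ∫ z, z i ^ 2 ∂gauss ι = 1 := by
  refine (Vale.Agent.P150.integral_comp_mp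
    (measurePreserving_eval (fun _ : ι => gaussianReal 0 1) i) (F := fun x : ℝ => x ^ 2)
    (by fun_prop)).trans ?_
  have h := variance_id_gaussianReal (μ := 0) (v := 1)
  rw [variance_eq_integral measurable_id.aemeasurable] at h
  simpa [integral_id_gaussianReal] using h

lemma integrable_sq_eval (i : ι) : Integrable (fun z : ι → ℝ => z i ^ 2) (gauss ι) :=
  (measurePreserving_eval (fun _ : ι => gaussianReal 0 1) i).integrable_comp_of_integrable
    ((memLp_id_gaussianReal 2).integrable_sq)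

lemma integrable_rad : Integrable (rad : (ι → ℝ) → ℝ) (gauss ι) :=
  integrable_finsetSum _ fun i _ => integrable_sq_eval i

lemma integral_rad : ∫ z, rad z ∂gauss ι = Fintype.card ι := by
  simp only [rad]
  rw [integral_finsetSum _ fun i _ => integrable_sq_eval i]
  simp [integral_sq_eval]

lemma integrable_dot (a : ι → ℝ) : Integrable (fun z => dot a z) (gauss ι) :=
  integrable_finsetSum _ fun i _ => (Vale.Agent.P150.integrable_eval i).const_mul (a i)

lemma integral_dot (a : ι → ℝ) : ∫ z, dot a z ∂gauss ι = 0 := by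
  simp only [dot]
  rw [integral_finsetSum _ fun i _ => (Vale.Agent.P150.integrable_eval i).const_mul (a i)]
  simp [integral_const_mul, integral_eval]

/-! ## The window -/

/-- The window of the squared radius. -/
def win (ι : Type*) [Fintype ι] (η : ℝ) : Set ℝ :=
  Icc ((Fintype.card ι : ℝ) * (1 - η)) (Fintype.card ι * (1 + η))

/-- The indicator of the window. -/
def ind (η : ℝ) (z : ι → ℝ) : ℝ := (win ι η).indicator (fun _ => 1) (rad z)

/-- The probability of the window. -/
def pwin (ι : Type*) [Fintype ι] (η : ℝ) : ℝ := ∫ z, ind η z ∂gauss ι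

lemma ind_nonneg (η : ℝ) (z : ι → ℝ) : 0 ≤ ind η z := indicator_nonneg (fun _ _ => zero_le_one) _

lemma ind_le_one (η : ℝ) (z : ι → ℝ) : ind η z ≤ 1 := by
  unfold ind
  by_cases h : rad z ∈ win ι η
  · rw [indicator_of_mem h]
  · rw [indicator_of_notMem h]; exact zero_le_one

lemma measurable_ind (η : ℝ) : Measurable (ind η : (ι → ℝ) → ℝ) :=
  (measurable_const.indicator measurableSet_Icc).comp measurable_rad

lemma integrable_ind (η : ℝ) : Integrable (ind η : (ι → ℝ) → ℝ) (gauss ι) :=
  Integrable.of_bound (measurable_ind η).aestronglyMeasurable 1 (ae_of_all _ fun z => by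
    rw [norm_eq_abs, abs_of_nonneg (ind_nonneg η z)]; exact ind_le_one η z)

/-- The direction is independent of the window. -/
lemma integral_ind_dir [Nonempty ι] (η : ℝ) {F : (ι → ℝ) → ℝ} (hF : Measurable F) :
    ∫ z, ind η z * F (dir z) ∂gauss ι = pwin ι η * ∫ z, F (dir z) ∂gauss ι := by
  have hI : Measurable fun R : ℝ => (win ι η).indicator (fun _ => (1 : ℝ)) R :=
    measurable_const.indicator measurableSet_Icc
  have e1 : ∫ z, ind η z * F (dir z) ∂gauss ι
      = ∫ p, F p.1 * (win ι η).indicator (fun _ => (1 : ℝ)) p.2 ∂((sph ι).prod (rlaw ι)) := by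
    rw [← map_dir_rad, integral_map (measurable_dir.prodMk measurable_rad).aemeasurable
      (by exact (hF.comp measurable_fst).mul (hI.comp measurable_snd) |>.aestronglyMeasurable)]
    exact integral_congr_ae (ae_of_all _ fun z => mul_comm _ _)
  rw [e1, integral_prod_mul (μ := sph ι) (ν := rlaw ι) F
      (fun R => (win ι η).indicator (fun _ => (1 : ℝ)) R), mul_comm, sph, rlaw,
    integral_map measurable_dir.aemeasurable hF.aestronglyMeasurable,
    integral_map measurable_rad.aemeasurable hI.aestronglyMeasurable]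
  rfl

lemma one_sub_pwin_le {η : ℝ} (h0 : 0 < η) (h1 : η ≤ 1) :
    1 - pwin ι η ≤ 2 * exp (-(η ^ 2 / 16) * Fintype.card ι) := by
  set n : ℝ := (Fintype.card ι : ℝ) with hn
  have key : ∀ t : ℝ, |t| ≤ 1 / 4 → ∫ z, exp (tilt (-(2 * t)) (fun _ : ι => (0 : ℝ)) z) ∂gauss ι
      ≤ exp (n * t + 4 * n * t ^ 2) := by
    intro t ht
    have ht' := abs_le.1 ht
    have hp : 0 < 1 + -(2 * t) := by linarith
    rw [integral_exp_tilt hp]
    refine exp_le_exp.2 ?_
    have hd : dot (fun _ : ι => (0 : ℝ)) (fun _ => 0) = 0 := by simp [dot]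
    have hl := Real.one_sub_inv_le_log_of_pos hp
    have h2 : -(log (1 + -(2 * t))) / 2 ≤ t + 4 * t ^ 2 := by
      have : (1 + -(2 * t))⁻¹ - 1 ≤ 2 * t + 8 * t ^ 2 := by
        rw [sub_le_iff_le_add, inv_le_iff_one_le_mul₀ hp]
        nlinarith [sq_nonneg t]
      linarith
    rw [tiltK, hd, zero_div, zero_sub, ← hn]
    have hn0 : 0 ≤ n := Nat.cast_nonneg _
    nlinarith [mul_le_mul_of_nonneg_left h2 hn0]
  have ht : |η / 8| ≤ 1 / 4 := by rw [abs_le]; constructor <;> linarith
  have ht' : |-(η / 8)| ≤ 1 / 4 := by rwa [abs_neg]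
  have hp1 : 0 < 1 + -(2 * (η / 8)) := by linarith
  have hp2 : 0 < 1 + -(2 * -(η / 8)) := by linarith
  have hi1 := (integrable_exp_tilt hp1 (fun _ : ι => (0 : ℝ))).const_mul (exp (-(n * (1 + η)) * (η / 8)))
  have hi2 := (integrable_exp_tilt hp2 (fun _ : ι => (0 : ℝ))).const_mul (exp (n * (1 - η) * (η / 8)))
  have hmono : ∀ z : ι → ℝ, 1 - ind η z ≤
      exp (-(n * (1 + η)) * (η / 8)) * exp (tilt (-(2 * (η / 8))) (fun _ : ι => (0 : ℝ)) z)
        + exp (n * (1 - η) * (η / 8)) * exp (tilt (-(2 * -(η / 8))) (fun _ : ι => (0 : ℝ)) z) := by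
    intro z
    have hd : dot (fun _ : ι => (0 : ℝ)) z = 0 := by simp [dot]
    simp only [tilt, hd, ← exp_add]
    by_cases hz : rad z ∈ win ι η
    · rw [ind, indicator_of_mem hz, sub_self]; positivity
    · rw [ind, indicator_of_notMem hz, sub_zero]
      have hz' : rad z < n * (1 - η) ∨ n * (1 + η) < rad z := by
        by_contra hc
        push_neg at hc
        exact hz ⟨hc.1, hc.2⟩
      rcases hz' with hz' | hz'
      · refine le_add_of_nonneg_of_le (exp_pos _).le (one_le_exp ?_)
        nlinarith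
      · refine le_add_of_le_of_nonneg (one_le_exp ?_) (exp_pos _).le
        nlinarith
  have h := integral_mono (μ := gauss ι) ((integrable_const (1 : ℝ)).sub (integrable_ind η))
    (hi1.add hi2) hmono
  simp only [Pi.sub_apply, Pi.add_apply] at h
  rw [integral_sub (integrable_const _) (integrable_ind η), integral_add hi1 hi2, integral_const_mul,
    integral_const_mul] at h
  simp only [integral_const, probReal_univ, one_smul] at h
  refine h.trans ?_
  refine le_of_le_of_eq (add_le_add ((mul_le_mul_of_nonneg_left (key _ ht) (exp_pos _).le).trans_eq ?_)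
    ((mul_le_mul_of_nonneg_left (key _ ht') (exp_pos _).le).trans_eq ?_))
    (two_mul (exp (-(η ^ 2 / 16) * n))).symm <;>
  · rw [← exp_add]; congr 1; ring

/-! ## Tilted Gaussian vectors -/

lemma tilt_real {c : ℝ} (hc : 0 < 1 + c) (a : ℝ) :
    (gaussianReal 0 1).withDensity
        (fun x => ENNReal.ofReal (exp (a * x - c * x ^ 2 / 2) * (√(1 + c) / exp (a ^ 2 / (2 * (1 + c))))))
      = gaussianReal (a / (1 + c)) (Real.toNNReal (1 / (1 + c))) := by
  have hv : Real.toNNReal (1 / (1 + c)) ≠ 0 := by simpa using hc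
  rw [gaussianReal_of_var_ne_zero _ one_ne_zero, gaussianReal_of_var_ne_zero _ hv,
    ← withDensity_mul _ (measurable_gaussianPDF _ _) (by fun_prop)]
  congr 1
  funext x
  simp only [Pi.mul_apply, gaussianPDF]
  rw [← ENNReal.ofReal_mul (gaussianPDFReal_nonneg _ _ _)]
  congr 1
  rw [← mul_assoc, quad_complete hc]
  simp only [gaussianPDFReal, Real.coe_toNNReal _ (by positivity : (0 : ℝ) ≤ 1 / (1 + c))]
  have h1 : √(2 * π * (1 / (1 + c))) = √(2 * π) / √(1 + c) := by
    rw [mul_one_div, Real.sqrt_div' _ hc.le]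
  have h2 : -((1 + c) / 2) * (x - a / (1 + c)) ^ 2
      = -(x - a / (1 + c)) ^ 2 / (2 * (1 / (1 + c))) := by
    field_simp
  rw [h1, h2]
  have h3 : √(2 * π) ≠ 0 := by positivity
  have h4 : √(1 + c) ≠ 0 := (sqrt_pos.2 hc).ne'
  have h5 := (exp_pos (a ^ 2 / (2 * (1 + c)))).ne'
  field_simp

/-- The tilted Gaussian vector. -/
def tz (c : ℝ) (a ξ : ι → ℝ) (i : ι) : ℝ := a i / (1 + c) + √(1 / (1 + c)) * ξ i

@[fun_prop]
lemma measurable_tz (c : ℝ) (a : ι → ℝ) : Measurable (tz c a) := by unfold tz; fun_prop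

lemma map_tz {c : ℝ} (hc : 0 < 1 + c) (a : ι → ℝ) :
    (gauss ι).map (tz c a) = (gauss ι).withDensity
      fun z => ENNReal.ofReal (exp (tilt c a z - tiltK c a)) := by
  set d : ι → ℝ → ℝ := fun i x =>
    exp (a i * x - c * x ^ 2 / 2) * (√(1 + c) / exp (a i ^ 2 / (2 * (1 + c)))) with hd
  have hdz : ∀ z : ι → ℝ, exp (tilt c a z - tiltK c a) = ∏ i, d i (z i) := by
    intro z
    simp only [hd, Finset.prod_mul_distrib]
    rw [← exp_tilt, exp_sub, div_eq_mul_inv]
    congr 1
    have h : ∀ i, √(1 + c) / exp (a i ^ 2 / (2 * (1 + c)))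
        = (exp (a i ^ 2 / (2 * (1 + c)) - log (1 + c) / 2))⁻¹ := fun i => by
      rw [exp_sub, ← Real.log_sqrt hc.le, exp_log (sqrt_pos.2 hc), inv_div]
    rw [Finset.prod_congr rfl fun i _ => h i, Finset.prod_inv_distrib, ← exp_sum]
    simp only [tiltK, Finset.sum_sub_distrib,
      Finset.sum_const, Finset.card_univ, nsmul_eq_mul, ← Finset.sum_div, dot, sq]
    ring_nf
  have hm : (gauss ι).map (tz c a)
      = Measure.pi fun i => gaussianReal (a i / (1 + c)) (Real.toNNReal (1 / (1 + c))) := by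
    have h1 : ∀ i, (gaussianReal 0 1).map (fun x => a i / (1 + c) + √(1 / (1 + c)) * x)
        = gaussianReal (a i / (1 + c)) (Real.toNNReal (1 / (1 + c))) := fun i => by
      rw [show (fun x : ℝ => a i / (1 + c) + √(1 / (1 + c)) * x)
          = (fun x => a i / (1 + c) + x) ∘ (fun x => √(1 / (1 + c)) * x) from rfl,
        ← Measure.map_map (by fun_prop) (by fun_prop), gaussianReal_map_const_mul,
        gaussianReal_map_const_add]
      congr 1
      · simp
      · ext
        simp [Real.sq_sqrt, Real.coe_toNNReal, hc.le]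
    simp only [← h1]
    exact Measure.pi_map_pi (μ := fun _ : ι => gaussianReal 0 1)
      (f := fun i x => a i / (1 + c) + √(1 / (1 + c)) * x) fun i => by fun_prop
  rw [hm]
  refine Measure.pi_eq fun s hs => ?_
  have hint : ∀ i, Integrable (d i) ((gaussianReal 0 1).restrict (s i)) :=
    fun i => ((integrable_tilt hc (a i)).mul_const _).restrict
  have hnn : ∀ i x, 0 ≤ d i x := fun i x => by positivity
  rw [withDensity_apply _ (MeasurableSet.univ_pi hs), gauss, Measure.restrict_pi_pi]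
  simp only [hdz]
  rw [← ofReal_integral_eq_lintegral_ofReal (Integrable.fintype_prod hint)
      (ae_of_all _ fun g => Finset.prod_nonneg fun i _ => hnn i _),
    integral_fintype_prod_eq_prod (f := fun i x => d i x),
    ENNReal.ofReal_prod_of_nonneg fun i _ => integral_nonneg fun x => hnn i x]
  refine Finset.prod_congr rfl fun i _ => ?_
  rw [ofReal_integral_eq_lintegral_ofReal (hint i) (ae_of_all _ fun x => hnn i x),
    ← withDensity_apply _ (hs i), tilt_real hc]

end Basic

/-! ## One sphere and two spheres, pointwise in the field -/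

section Pointwise

variable {ι : Type*} [Fintype ι]

/-- Free energy of one sphere. -/
def L1 (a : ι → ℝ) : ℝ := log (∫ z, exp (dot (dir z) a) ∂gauss ι)

/-- Free energy of two coupled spheres. -/
def L2 (μ : ℝ) (a b : ι → ℝ) : ℝ :=
  log (∫ p, exp (dot (dir p.1) a + dot (dir p.2) b + μ * dot (dir p.1) (dir p.2))
    ∂(gauss ι).prod (gauss ι))

lemma abs_log_integral_exp_le {X : Type*} [MeasurableSpace X] (P : Measure X)
    [IsProbabilityMeasure P] {u : X → ℝ} (hm : Measurable u) {C : ℝ} (hC : ∀ x, |u x| ≤ C) :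
    |log (∫ x, exp (u x) ∂P)| ≤ C :=
  P157.Sphere.abs_lz_le P hm hC

lemma L2_arg_le (μ : ℝ) (a b : ι → ℝ) (p : (ι → ℝ) × (ι → ℝ)) :
    |dot (dir p.1) a + dot (dir p.2) b + μ * dot (dir p.1) (dir p.2)| ≤ nrm a + nrm b + |μ| := by
  refine (abs_add_le _ _).trans (add_le_add ((abs_add_le _ _).trans
    (add_le_add (abs_dot_dir_le _ _) (abs_dot_dir_le _ _))) ?_)
  rw [abs_mul]
  exact mul_le_of_le_one_right (abs_nonneg _)
    ((abs_dot_dir_le _ _).trans (nrm_dir_le _))

lemma sqrt_sub_le {n R η : ℝ} (hn : 0 < n) (hR : 0 ≤ R) (h : |R - n| ≤ η * n) :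
    |√n - √R| ≤ η * √n := by
  have e : |√n - √R| * (√n + √R) = |R - n| := by
    rw [← abs_of_nonneg (by positivity : 0 ≤ √n + √R), ← abs_mul, abs_sub_comm R n]
    congr 1
    rw [← sq_sqrt hn.le, ← sq_sqrt hR, sqrt_sq (sqrt_nonneg _), sqrt_sq (sqrt_nonneg _)]
    ring
  have h2 : |√n - √R| * √n ≤ |√n - √R| * (√n + √R) :=
    mul_le_mul_of_nonneg_left (by linarith [sqrt_nonneg R]) (abs_nonneg _)
  have h3 : η * n = η * √n * √n := by rw [mul_assoc, mul_self_sqrt hn.le]
  have hs : 0 < √n := sqrt_pos.2 hn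
  nlinarith

variable [Nonempty ι]

lemma card_pos' : (0 : ℝ) < Fintype.card ι := by exact_mod_cast Fintype.card_pos

/-- Comparison with the tilted Gaussian vector on the window. -/
lemma ind_exp_le {η c : ℝ} (a z : ι → ℝ) :
    ind η z * exp (√(Fintype.card ι) * dot (dir z) a) ≤
      exp (η * ((Fintype.card ι + dot a a) / 2 + |c| * Fintype.card ι / 2)
        + c / 2 * Fintype.card ι) * exp (tilt c a z) := by
  by_cases hz : rad z ∈ win ι η
  · rw [ind, indicator_of_mem hz, one_mul, ← exp_add]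
    refine exp_le_exp.2 ?_
    set n : ℝ := (Fintype.card ι : ℝ) with hn
    have hn0 : 0 < n := card_pos'
    have hR : |rad z - n| ≤ η * n := by
      obtain ⟨h1, h2⟩ := hz
      rw [← hn] at h1 h2
      rw [abs_le]; constructor <;> nlinarith
    have hη : 0 ≤ η := by nlinarith [abs_nonneg (rad z - n)]
    have hs := sqrt_sub_le hn0 (Finset.sum_nonneg fun i _ => sq_nonneg (z i)) hR
    have hz' : √(rad z) = nrm z := by rw [rad_eq]; rfl
    rw [show Real.sqrt (∑ i, z i ^ 2) = √(rad z) from rfl, hz'] at hs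
    have h1 : (√n - nrm z) * dot (dir z) a ≤ η * √n * nrm a := by
      refine (le_abs_self _).trans ?_
      rw [abs_mul]
      exact mul_le_mul hs (abs_dot_dir_le z a) (abs_nonneg _) (by positivity)
    have h2 : √n * nrm a ≤ (n + dot a a) / 2 := by
      have := two_mul_le_add_sq (√n) (nrm a)
      rw [sq_sqrt hn0.le, nrm_sq] at this
      linarith
    have h3 : c / 2 * rad z - c / 2 * n ≤ η * (|c| * n / 2) := by
      rw [← mul_sub]
      refine (le_abs_self _).trans ?_
      rw [abs_mul, abs_div, abs_two]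
      nlinarith [mul_le_mul_of_nonneg_left hR (by positivity : 0 ≤ |c| / 2)]
    have h4 : dot a z = dot z a := by simp [dot, mul_comm]
    rw [sub_mul, dot_dir] at h1
    rw [tilt, h4]
    nlinarith [mul_le_mul_of_nonneg_left h2 hη]
  · rw [ind, indicator_of_notMem hz, zero_mul]; positivity

lemma L1_upper {η c : ℝ} (hp : 0 < pwin ι η) (hc : 0 < 1 + c) (a : ι → ℝ) :
    L1 (fun i => √(Fintype.card ι) * a i) ≤
      -log (pwin ι η) + η * ((Fintype.card ι + dot a a) / 2 + |c| * Fintype.card ι / 2)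
        + c / 2 * Fintype.card ι + tiltK c a := by
  unfold L1
  simp only [dot_smul_right]
  set E := η * ((Fintype.card ι + dot a a) / 2 + |c| * Fintype.card ι / 2)
    + c / 2 * Fintype.card ι with hE
  have hF : Measurable fun θ : ι → ℝ => exp (√(Fintype.card ι) * dot θ a) := by unfold dot; fun_prop
  have hG : Measurable fun z : ι → ℝ => exp (√(Fintype.card ι) * dot (dir z) a) :=
    hF.comp measurable_dir
  have hle : pwin ι η * ∫ z, exp (√(Fintype.card ι) * dot (dir z) a) ∂gauss ι
      ≤ exp E * exp (tiltK c a) := by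
    rw [← integral_ind_dir η hF, ← integral_exp_tilt hc a, ← integral_const_mul]
    exact integral_mono_of_nonneg (ae_of_all _ fun z => mul_nonneg (ind_nonneg η z) (exp_pos _).le)
      ((integrable_exp_tilt hc a).const_mul _) (ae_of_all _ (ind_exp_le a))
  have hi : Integrable (fun z => exp (√(Fintype.card ι) * dot (dir z) a)) (gauss ι) :=
    Integrable.of_bound hG.aestronglyMeasurable (exp (√(Fintype.card ι) * nrm a))
      (ae_of_all _ fun z => by
        rw [norm_eq_abs, abs_of_pos (exp_pos _)]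
        exact exp_le_exp.2 (mul_le_mul_of_nonneg_left
          ((le_abs_self _).trans (abs_dot_dir_le z a)) (sqrt_nonneg _)))
  have hpos := integral_exp_pos hi
  have := log_le_log (mul_pos hp hpos) hle
  rw [log_mul hp.ne' hpos.ne', ← exp_add, log_exp] at this
  linarith

lemma L1_lower {c : ℝ} (hc : 0 < 1 + c) (a : ι → ℝ) {δ : ℝ} (hδ : 0 < δ) :
    tiltK c a + c / 2 * (∫ ξ, rad (tz c a ξ) ∂gauss ι) - δ / 2 * dot a a
      - (∫ ξ, (nrm (tz c a ξ) - √(Fintype.card ι)) ^ 2 ∂gauss ι) / (2 * δ)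
      ≤ L1 (fun i => √(Fintype.card ι) * a i) := by
  unfold L1
  simp only [dot_smul_right]
  set n : ℝ := (Fintype.card ι : ℝ)
  set A := fun z : ι → ℝ => √n * dot (dir z) a with hA
  have hAm : Measurable A :=
    ((by unfold dot; fun_prop : Measurable fun θ : ι → ℝ => √n * dot θ a)).comp measurable_dir
  have hrad : Integrable (fun ξ => rad (tz c a ξ)) (gauss ι) := by
    unfold rad tz
    refine integrable_finsetSum _ fun i _ => ?_
    refine (((integrable_const ((a i / (1 + c)) ^ 2)).add ((Vale.Agent.P150.integrable_eval i).const_mul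
      (2 * (a i / (1 + c)) * √(1 / (1 + c))))).add
      ((integrable_sq_eval i).const_mul (√(1 / (1 + c)) ^ 2))).congr (ae_of_all _ fun z => ?_)
    simp only [Pi.add_apply]
    ring
  have hnz : ∀ z : ι → ℝ, nrm z ^ 2 = rad z := fun z => by rw [nrm_sq, rad_eq]
  have hd : Integrable (fun ξ => (nrm (tz c a ξ) - √n) ^ 2) (gauss ι) := by
    refine Integrable.mono' ((hrad.const_mul 2).add (integrable_const (2 * n)))
      (by unfold nrm dot tz; fun_prop) (ae_of_all _ fun ξ => ?_)
    rw [norm_eq_abs, abs_of_nonneg (sq_nonneg _), Pi.add_apply, ← hnz]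
    nlinarith [sq_sqrt (Nat.cast_nonneg (α := ℝ) (Fintype.card ι)),
      sq_nonneg (nrm (tz c a ξ) + √n)]
  have hK : Integrable (fun _ : ι → ℝ => tiltK c a) (gauss ι) := integrable_const _
  set lo := fun ξ => tiltK c a + c / 2 * rad (tz c a ξ) - δ / 2 * dot a a
    - (nrm (tz c a ξ) - √n) ^ 2 / (2 * δ) with hlo
  have hloi : Integrable lo (gauss ι) :=
    ((hK.add (hrad.const_mul _)).sub (integrable_const _)).sub (hd.div_const _)
  have hlo_le : ∀ ξ, lo ξ ≤ A (tz c a ξ) - (tilt c a (tz c a ξ) - tiltK c a) := by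
    intro ξ
    set z := tz c a ξ with hz
    have h4 : dot a z = dot z a := by simp [dot, mul_comm]
    have h1 : |(√n - nrm z) * dot (dir z) a| ≤ δ / 2 * dot a a + (nrm z - √n) ^ 2 / (2 * δ) := by
      rw [abs_mul]
      refine (mul_le_mul_of_nonneg_left (abs_dot_dir_le z a) (abs_nonneg _)).trans ?_
      rw [← nrm_sq, ← sub_nonneg]
      have e : δ / 2 * nrm a ^ 2 + (nrm z - √n) ^ 2 / (2 * δ) - |√n - nrm z| * nrm a
          = (δ * nrm a - |√n - nrm z|) ^ 2 / (2 * δ) := by
        rw [sub_sq _ |√n - nrm z|, sq_abs, show (√n - nrm z) ^ 2 = (nrm z - √n) ^ 2 by ring]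
        field_simp
        ring
      rw [e]
      positivity
    have h2 := neg_le_of_abs_le h1
    rw [sub_mul, dot_dir] at h2
    simp only [hlo, hA, tilt, h4, ← hz]
    linarith
  set m := ∫ ξ, lo ξ ∂gauss ι with hm
  have hmv : m = tiltK c a + c / 2 * (∫ ξ, rad (tz c a ξ) ∂gauss ι) - δ / 2 * dot a a
      - (∫ ξ, (nrm (tz c a ξ) - √n) ^ 2 ∂gauss ι) / (2 * δ) := by
    simp only [hm, hlo]
    have i1 : Integrable (fun ξ => tiltK c a + c / 2 * rad (tz c a ξ)) (gauss ι) :=
      hK.add (hrad.const_mul _)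
    have i2 : Integrable (fun ξ => tiltK c a + c / 2 * rad (tz c a ξ) - δ / 2 * dot a a) (gauss ι) :=
      i1.sub (integrable_const _)
    rw [integral_sub i2 (hd.div_const _), integral_sub i1 (integrable_const _),
      integral_add hK (hrad.const_mul _), integral_div, integral_const_mul]
    simp
  rw [← hmv]
  have hbd : ∀ z, |A z| ≤ √n * nrm a := fun z => by
    rw [hA, abs_mul, abs_of_nonneg (sqrt_nonneg _)]
    exact mul_le_mul_of_nonneg_left (abs_dot_dir_le z a) (sqrt_nonneg _)
  have hiA : Integrable (fun z => exp (A z)) (gauss ι) :=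
    Integrable.of_bound hAm.exp.aestronglyMeasurable (exp (√n * nrm a)) (ae_of_all _ fun z => by
      rw [norm_eq_abs, abs_of_pos (exp_pos _)]
      exact exp_le_exp.2 (le_of_abs_le (hbd z)))
  have hW : Measurable fun z : ι → ℝ => tilt c a z - tiltK c a := by
    unfold tilt dot rad; fun_prop
  have hiW : Integrable (fun z => exp (tilt c a z - tiltK c a) * exp (A z - (tilt c a z - tiltK c a)))
      (gauss ι) := hiA.congr (ae_of_all _ fun z => by
        show exp (A z) = exp (tilt c a z - tiltK c a) * exp (A z - (tilt c a z - tiltK c a))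
        rw [← exp_add]; ring_nf)
  have heq : ∫ ξ, exp (A (tz c a ξ) - (tilt c a (tz c a ξ) - tiltK c a)) ∂gauss ι
      = ∫ z, exp (A z) ∂gauss ι := by
    rw [← integral_map (f := fun z => exp (A z - (tilt c a z - tiltK c a)))
        (measurable_tz c a).aemeasurable (hAm.sub hW).exp.aestronglyMeasurable, map_tz hc,
      integral_withDensity_eq_integral_toReal_smul hW.exp.ennreal_ofReal
        (ae_of_all _ fun _ => ENNReal.ofReal_lt_top)]
    refine integral_congr_ae (ae_of_all _ fun z => ?_)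
    simp only [smul_eq_mul, ENNReal.toReal_ofReal (exp_pos _).le, ← exp_add]
    ring_nf
  have hiT : Integrable (fun ξ => exp (A (tz c a ξ) - (tilt c a (tz c a ξ) - tiltK c a)))
      (gauss ι) := by
    have : Integrable (fun z => exp (A z - (tilt c a z - tiltK c a))) ((gauss ι).map (tz c a)) := by
      rw [map_tz hc, integrable_withDensity_iff_integrable_smul' hW.exp.ennreal_ofReal
        (ae_of_all _ fun _ => ENNReal.ofReal_lt_top)]
      simpa only [smul_eq_mul, ENNReal.toReal_ofReal (exp_pos _).le] using hiW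
    exact this.comp_measurable (measurable_tz c a)
  have hj : exp m ≤ ∫ z, exp (A z) ∂gauss ι := by
    have h1 : ∫ ξ, exp m * (lo ξ - m + 1) ∂gauss ι
        ≤ ∫ ξ, exp (A (tz c a ξ) - (tilt c a (tz c a ξ) - tiltK c a)) ∂gauss ι := by
      refine integral_mono (((hloi.sub (integrable_const _)).add (integrable_const _)).const_mul _)
        hiT fun ξ => ?_
      refine le_trans ?_ (exp_le_exp.2 (hlo_le ξ))
      calc exp m * (lo ξ - m + 1) ≤ exp m * exp (lo ξ - m) :=
            mul_le_mul_of_nonneg_left (add_one_le_exp _) (exp_pos _).le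
        _ = exp (lo ξ) := by rw [← exp_add]; ring_nf
    have i3 : Integrable (fun ξ => lo ξ - m) (gauss ι) := Integrable.sub hloi (integrable_const _)
    rw [heq, integral_const_mul, integral_add i3 (integrable_const _),
      integral_sub hloi (integrable_const _)] at h1
    simpa [← hm] using h1
  simpa using log_le_log (exp_pos m) hj

lemma integral_ind2_dir (η : ℝ) {F : (ι → ℝ) → (ι → ℝ) → ℝ}
    (hF : Measurable fun q : (ι → ℝ) × (ι → ℝ) => F q.1 q.2) :
    ∫ z, ind η z * (∫ z', ind η z' * F (dir z) (dir z') ∂gauss ι) ∂gauss ι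
      = pwin ι η * (pwin ι η * ∫ z, (∫ z', F (dir z) (dir z') ∂gauss ι) ∂gauss ι) := by
  have h : ∀ z, ∫ z', ind η z' * F (dir z) (dir z') ∂gauss ι
      = pwin ι η * ∫ z', F (dir z) (dir z') ∂gauss ι := fun z =>
    integral_ind_dir η (hF.comp (measurable_const.prodMk measurable_id))
  simp only [h, mul_left_comm _ (pwin ι η), integral_const_mul]
  congr 1
  have hJ : StronglyMeasurable fun q : (ι → ℝ) × (ι → ℝ) => F q.1 (dir q.2) :=
    (hF.comp (measurable_fst.prodMk (measurable_dir.comp measurable_snd))).stronglyMeasurable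
  exact integral_ind_dir η (F := fun θ => ∫ z', F θ (dir z') ∂gauss ι)
    hJ.integral_prod_right'.measurable

/-- The quadratic form of two coupled tilts. -/
def quad2 (lam ν : ℝ) (a b : ι → ℝ) : ℝ :=
  (lam * dot a a + 2 * ν * dot a b + lam * dot b b) / (2 * (lam ^ 2 - ν ^ 2))
    - (Fintype.card ι : ℝ) / 2 * log (lam ^ 2 - ν ^ 2)

omit [Nonempty ι] in
lemma tilt_pair {lam ν : ℝ} (h : |ν| < lam) (a b z : ι → ℝ) :
    tilt (lam - 1) a z + tiltK (lam - 1) (fun i => b i + ν * z i)
      = tilt (lam - ν ^ 2 / lam - 1) (fun i => a i + ν / lam * b i) z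
        + (dot b b / (2 * lam) - (Fintype.card ι : ℝ) / 2 * log lam) := by
  have hl : lam ≠ 0 := (lt_of_le_of_lt (abs_nonneg ν) h).ne'
  have e1 : dot (fun i => b i + ν * z i) (fun i => b i + ν * z i)
      = dot b b + 2 * ν * dot b z + ν ^ 2 * rad z := by
    simp only [dot, rad, Finset.mul_sum, ← Finset.sum_add_distrib]
    exact Finset.sum_congr rfl fun i _ => by ring
  have e2 : dot (fun i => a i + ν / lam * b i) z = dot a z + ν / lam * dot b z := by
    simp only [dot, Finset.mul_sum, ← Finset.sum_add_distrib]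
    exact Finset.sum_congr rfl fun i _ => by ring
  simp only [tilt, tiltK, e1, e2]
  rw [show 1 + (lam - 1) = lam by ring]
  field_simp
  ring

omit [Nonempty ι] in
lemma tiltK_pair {lam ν : ℝ} (h : |ν| < lam) (a b : ι → ℝ) :
    tiltK (lam - ν ^ 2 / lam - 1) (fun i => a i + ν / lam * b i)
      + (dot b b / (2 * lam) - (Fintype.card ι : ℝ) / 2 * log lam) = quad2 lam ν a b := by
  have hl : 0 < lam := lt_of_le_of_lt (abs_nonneg ν) h
  have h2 : 0 < lam ^ 2 - ν ^ 2 := by nlinarith [sq_abs ν, abs_nonneg ν]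
  have e1 : dot (fun i => a i + ν / lam * b i) (fun i => a i + ν / lam * b i)
      = dot a a + 2 * (ν / lam) * dot a b + (ν / lam) ^ 2 * dot b b := by
    simp only [dot, Finset.mul_sum, ← Finset.sum_add_distrib]
    exact Finset.sum_congr rfl fun i _ => by ring
  have e2 : 1 + (lam - ν ^ 2 / lam - 1) = (lam ^ 2 - ν ^ 2) / lam := by field_simp; ring
  simp only [tiltK, quad2, e1, e2]
  rw [log_div h2.ne' hl.ne']
  field_simp
  ring

lemma ind_exp_le2 {η lam ν : ℝ} (a b z z' : ι → ℝ) :
    ind η z * ind η z' * exp (dot (dir z) (fun i => √(Fintype.card ι) * a i)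
        + dot (dir z') (fun i => √(Fintype.card ι) * b i)
        + ν * Fintype.card ι * dot (dir z) (dir z')) ≤
      exp (η * ((Fintype.card ι + dot a a) / 2 + (Fintype.card ι + dot b b) / 2
          + |lam - 1| * Fintype.card ι + |ν| * Fintype.card ι) + (lam - 1) * Fintype.card ι) *
        exp (tilt (lam - 1) a z + tilt (lam - 1) (fun i => b i + ν * z i) z') := by
  set n : ℝ := (Fintype.card ι : ℝ) with hn
  by_cases hz : rad z ∈ win ι η ∧ rad z' ∈ win ι η
  · obtain ⟨hz, hz'⟩ := hz
    have i1 : ind η z = 1 := indicator_of_mem hz _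
    have i2 : ind η z' = 1 := indicator_of_mem hz' _
    have h1 := ind_exp_le (η := η) (c := lam - 1) a z
    have h2 := ind_exp_le (η := η) (c := lam - 1) b z'
    rw [i1, one_mul, ← exp_add, exp_le_exp] at h1
    rw [i2, one_mul, ← exp_add, exp_le_exp] at h2
    rw [i1, i2, one_mul, one_mul, ← exp_add, exp_le_exp]
    simp only [dot_smul_right]
    have e : tilt (lam - 1) (fun i => b i + ν * z i) z'
        = tilt (lam - 1) b z' + ν * (nrm z * nrm z' * dot (dir z) (dir z')) := by
      have : dot z z' = nrm z * nrm z' * dot (dir z) (dir z') := by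
        have e1 : dot (dir z) (dir z') * nrm z' = dot (dir z) z' := by
          have := dot_dir z' (dir z)
          simp only [dot, mul_comm _ (dir z _)] at this ⊢
          linarith
        rw [mul_assoc, mul_comm (nrm z') (dot _ _), e1, dot_dir]
      rw [← this]
      simp only [tilt, dot, Finset.mul_sum, add_mul, Finset.sum_add_distrib, mul_assoc]
      ring
    have hn0 : 0 < n := card_pos'
    obtain ⟨hl, hu⟩ := hz
    obtain ⟨hl', hu'⟩ := hz'
    rw [rad_eq, ← nrm_sq] at hl hu hl' hu'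
    rw [← hn] at hl hu hl' hu' h1 h2
    have hη : 0 ≤ η := by nlinarith
    have hp : 0 ≤ nrm z * nrm z' := mul_nonneg (sqrt_nonneg _) (sqrt_nonneg _)
    have hw : |n - nrm z * nrm z'| ≤ η * n := by
      rw [abs_le]
      constructor
      · nlinarith [two_mul_le_add_sq (nrm z) (nrm z')]
      · rcases le_total η 1 with h | h
        · have hq : (n * (1 - η)) ^ 2 ≤ (nrm z * nrm z') ^ 2 := by
            rw [sq, mul_pow]
            exact mul_le_mul hl hl' (by nlinarith) (sq_nonneg _)
          nlinarith [(pow_le_pow_iff_left₀ (by nlinarith) hp two_ne_zero).1 hq]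
        · nlinarith
    have hd : |dot (dir z) (dir z')| ≤ 1 := (abs_dot_dir_le _ _).trans (nrm_dir_le _)
    have hx : ν * (n - nrm z * nrm z') * dot (dir z) (dir z') ≤ |ν| * (η * n) := by
      refine (le_abs_self _).trans ?_
      rw [abs_mul, abs_mul]
      exact (mul_le_of_le_one_right (by positivity) hd).trans
        (mul_le_mul_of_nonneg_left hw (abs_nonneg _))
    rw [e]
    nlinarith
  · have : ind η z * ind η z' = 0 := by
      rcases not_and_or.1 hz with h | h <;> simp [ind, h]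
    rw [this, zero_mul]; positivity

lemma L2_upper {η lam ν : ℝ} (hp : 0 < pwin ι η) (h : |ν| < lam) (a b : ι → ℝ) :
    L2 (ν * Fintype.card ι) (fun i => √(Fintype.card ι) * a i)
        (fun i => √(Fintype.card ι) * b i) ≤
      -(2 * log (pwin ι η)) + η * ((Fintype.card ι + dot a a) / 2 + (Fintype.card ι + dot b b) / 2
          + |lam - 1| * Fintype.card ι + |ν| * Fintype.card ι) + (lam - 1) * Fintype.card ι
        + quad2 lam ν a b := by
  unfold L2
  set μ := ν * (Fintype.card ι : ℝ) with hμ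
  set a' := fun i => √(Fintype.card ι) * a i
  set b' := fun i => √(Fintype.card ι) * b i
  set E := η * ((Fintype.card ι + dot a a) / 2 + (Fintype.card ι + dot b b) / 2
          + |lam - 1| * Fintype.card ι + |ν| * Fintype.card ι) + (lam - 1) * Fintype.card ι with hE
  set F := fun θ θ' : ι → ℝ => exp (dot θ a' + dot θ' b' + μ * dot θ θ') with hF
  have hFm : Measurable fun q : (ι → ℝ) × (ι → ℝ) => F q.1 q.2 := by
    simp only [hF]; unfold dot; fun_prop
  have hl : 0 < lam := lt_of_le_of_lt (abs_nonneg ν) h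
  have hc : 0 < 1 + (lam - 1) := by linarith
  have hc' : 0 < 1 + (lam - ν ^ 2 / lam - 1) := by
    have : ν ^ 2 / lam < lam := by
      rw [div_lt_iff₀ hl]; nlinarith [sq_abs ν, abs_nonneg ν]
    linarith
  set K := dot b b / (2 * lam) - (Fintype.card ι : ℝ) / 2 * log lam with hK
  have hin : ∀ z : ι → ℝ, ind η z * (∫ z', ind η z' * F (dir z) (dir z') ∂gauss ι)
      ≤ exp E * exp K * exp (tilt (lam - ν ^ 2 / lam - 1) (fun i => a i + ν / lam * b i) z) := by
    intro z
    calc ind η z * (∫ z', ind η z' * F (dir z) (dir z') ∂gauss ι)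
        = ∫ z', ind η z * ind η z' * F (dir z) (dir z') ∂gauss ι := by
          simp only [mul_assoc, integral_const_mul]
      _ ≤ ∫ z', exp E * exp (tilt (lam - 1) a z) *
            exp (tilt (lam - 1) (fun i => b i + ν * z i) z') ∂gauss ι := by
          refine integral_mono_of_nonneg
            (ae_of_all _ fun z' => mul_nonneg (mul_nonneg (ind_nonneg η z) (ind_nonneg η z'))
              (exp_pos _).le)
            ((integrable_exp_tilt hc _).const_mul _) (ae_of_all _ fun z' => ?_)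
          refine (ind_exp_le2 (lam := lam) a b z z').trans_eq ?_
          show _ = exp E * exp (tilt (lam - 1) a z) * exp (tilt (lam - 1) (fun i => b i + ν * z i) z')
          rw [exp_add (tilt _ _ _) (tilt _ _ _), mul_assoc]
      _ = _ := by
          rw [integral_const_mul, integral_exp_tilt hc, mul_assoc, ← exp_add, tilt_pair h,
            exp_add (tilt _ _ _), hK]
          ring
  have hle : pwin ι η * (pwin ι η * ∫ z, (∫ z', F (dir z) (dir z') ∂gauss ι) ∂gauss ι)
      ≤ exp E * exp K * exp (tiltK (lam - ν ^ 2 / lam - 1) (fun i => a i + ν / lam * b i)) := by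
    rw [← integral_ind2_dir η hFm, ← integral_exp_tilt hc', ← integral_const_mul]
    refine integral_mono_of_nonneg (ae_of_all _ fun z => ?_)
      ((integrable_exp_tilt hc' _).const_mul _) (ae_of_all _ hin)
    exact mul_nonneg (ind_nonneg η z)
      (integral_nonneg fun z' => mul_nonneg (ind_nonneg η z') (exp_pos _).le)
  have hG : Measurable fun q : (ι → ℝ) × (ι → ℝ) => F (dir q.1) (dir q.2) :=
    hFm.comp ((measurable_dir.comp measurable_fst).prodMk (measurable_dir.comp measurable_snd))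
  have hi : Integrable (fun q : (ι → ℝ) × (ι → ℝ) => F (dir q.1) (dir q.2))
      ((gauss ι).prod (gauss ι)) :=
    Integrable.of_bound hG.aestronglyMeasurable (exp (nrm a' + nrm b' + |μ|))
      (ae_of_all _ fun q => by
        rw [norm_eq_abs, hF, abs_of_pos (exp_pos _)]
        exact exp_le_exp.2 (le_of_abs_le (L2_arg_le μ a' b' q)))
  have hpos := integral_exp_pos hi
  rw [← integral_prod (fun q : (ι → ℝ) × (ι → ℝ) => F (dir q.1) (dir q.2)) hi] at hle
  have := log_le_log (mul_pos hp (mul_pos hp hpos)) hle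
  rw [log_mul hp.ne' (mul_pos hp hpos).ne', log_mul hp.ne' hpos.ne', ← exp_add, ← exp_add,
    log_exp] at this
  have hq := tiltK_pair h a b
  linarith

/-! ## Averages over the field -/

/-- First component. -/
def fx (h : ι ⊕ ι → ℝ) (i : ι) : ℝ := h (Sum.inl i)

/-- Second component. -/
def fy (h : ι ⊕ ι → ℝ) (i : ι) : ℝ := h (Sum.inr i)

omit [Nonempty ι] in
lemma integral_two (F : (ι → ℝ) × (ι → ℝ) → ℝ) (hF : AEStronglyMeasurable F ((gauss ι).prod (gauss ι))) :
    ∫ h, F (fx h, fy h) ∂gauss (ι ⊕ ι) = ∫ q, F q ∂(gauss ι).prod (gauss ι) :=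
  Vale.Agent.P150.integral_comp_mp
    (measurePreserving_sumPiEquivProdPi fun _ : ι ⊕ ι => gaussianReal 0 1) hF

omit [Nonempty ι] in
lemma integrable_two (F : (ι → ℝ) × (ι → ℝ) → ℝ) (hF : Integrable F ((gauss ι).prod (gauss ι))) :
    Integrable (fun h => F (fx h, fy h)) (gauss (ι ⊕ ι)) :=
  (measurePreserving_sumPiEquivProdPi fun _ : ι ⊕ ι => gaussianReal 0 1).integrable_comp_of_integrable hF

omit [Nonempty ι] in
lemma integrable_dot2 :
    Integrable (fun q : (ι → ℝ) × (ι → ℝ) => dot q.1 q.2) ((gauss ι).prod (gauss ι)) := by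
  refine Integrable.mono' (((integrable_rad (ι := ι)).comp_fst (gauss ι)).add
    ((integrable_rad (ι := ι)).comp_snd (gauss ι))) measurable_dot.aestronglyMeasurable
    (ae_of_all _ fun q => ?_)
  rw [norm_eq_abs, Pi.add_apply]
  refine (abs_dot_le _ _).trans ?_
  rw [rad_eq, rad_eq, ← nrm_sq, ← nrm_sq]
  nlinarith [two_mul_le_add_sq (nrm q.1) (nrm q.2), sq_nonneg (nrm q.1), sq_nonneg (nrm q.2)]

omit [Nonempty ι] in
lemma integral_quad2 (A B C : ℝ) :
    ∫ h, (A * rad (fx h) + B * dot (fx h) (fy h) + C * rad (fy h) : ℝ) ∂gauss (ι ⊕ ι)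
      = (A + C) * Fintype.card ι := by
  have i1 := (integrable_rad (ι := ι)).comp_fst (gauss ι)
  have i2 := (integrable_rad (ι := ι)).comp_snd (gauss ι)
  have hm : AEStronglyMeasurable (fun q : (ι → ℝ) × (ι → ℝ) =>
      A * rad q.1 + B * dot q.1 q.2 + C * rad q.2) ((gauss ι).prod (gauss ι)) :=
    (((i1.const_mul A).add (integrable_dot2.const_mul B)).add (i2.const_mul C)).aestronglyMeasurable
  have i12 : Integrable (fun q : (ι → ℝ) × (ι → ℝ) => A * rad q.1 + B * dot q.1 q.2)
      ((gauss ι).prod (gauss ι)) := (i1.const_mul A).add (integrable_dot2.const_mul B)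
  rw [integral_two _ hm, integral_add i12 (i2.const_mul C),
    integral_add (i1.const_mul A) (integrable_dot2.const_mul B), integral_const_mul,
    integral_const_mul, integral_const_mul, integral_fun_fst, integral_fun_snd,
    integral_prod _ integrable_dot2]
  simp [integral_dot, integral_rad, add_mul]

/-- The field of the second sphere. -/
def fb (ρ : ℝ) (h : ι ⊕ ι → ℝ) (i : ι) : ℝ := ρ * fx h i + √(1 - ρ ^ 2) * fy h i

omit [Nonempty ι] in
lemma quad_fields {r : ℝ} (hr : 0 ≤ r) (ρ A B C : ℝ) (h : ι ⊕ ι → ℝ) :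
    A * dot (fun i => √r * fx h i) (fun i => √r * fx h i)
        + B * dot (fun i => √r * fx h i) (fun i => √r * fb ρ h i)
        + C * dot (fun i => √r * fb ρ h i) (fun i => √r * fb ρ h i)
      = r * (A + B * ρ + C * ρ ^ 2) * rad (fx h)
        + r * √(1 - ρ ^ 2) * (B + 2 * C * ρ) * dot (fx h) (fy h)
        + r * C * √(1 - ρ ^ 2) ^ 2 * rad (fy h) := by
  obtain ⟨t, ht, rfl⟩ : ∃ t, 0 ≤ t ∧ r = t ^ 2 := ⟨√r, sqrt_nonneg r, (sq_sqrt hr).symm⟩
  rw [sqrt_sq ht]
  simp only [dot, rad, fb, Finset.mul_sum, ← Finset.sum_add_distrib]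
  exact Finset.sum_congr rfl fun i _ => by ring

omit [Nonempty ι] in
lemma integral_fields {r ρ : ℝ} (hr : 0 ≤ r) (hρ : ρ ∈ Icc (-1 : ℝ) 1) (D A B C : ℝ) :
    Integrable (fun h : ι ⊕ ι → ℝ => D + (A * dot (fun i => √r * fx h i) (fun i => √r * fx h i)
        + B * dot (fun i => √r * fx h i) (fun i => √r * fb ρ h i)
        + C * dot (fun i => √r * fb ρ h i) (fun i => √r * fb ρ h i))) (gauss (ι ⊕ ι)) ∧
    ∫ h : ι ⊕ ι → ℝ, D + (A * dot (fun i => √r * fx h i) (fun i => √r * fx h i)
        + B * dot (fun i => √r * fx h i) (fun i => √r * fb ρ h i)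
        + C * dot (fun i => √r * fb ρ h i) (fun i => √r * fb ρ h i)) ∂gauss (ι ⊕ ι)
      = D + r * (A + B * ρ + C) * Fintype.card ι := by
  simp only [quad_fields hr]
  set A' := r * (A + B * ρ + C * ρ ^ 2)
  set B' := r * √(1 - ρ ^ 2) * (B + 2 * C * ρ)
  set C' := r * C * √(1 - ρ ^ 2) ^ 2 with hC'
  have i1 := integrable_two _ (((((integrable_rad (ι := ι)).comp_fst (gauss ι)).const_mul A').add
    (integrable_dot2.const_mul B')).add
    (((integrable_rad (ι := ι)).comp_snd (gauss ι)).const_mul C'))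
  simp only [Pi.add_apply] at i1
  refine ⟨(integrable_const D).add i1, ?_⟩
  rw [integral_add (integrable_const D) i1, integral_quad2]
  have hs : √(1 - ρ ^ 2) ^ 2 = 1 - ρ ^ 2 := sq_sqrt (by nlinarith [hρ.1, hρ.2])
  simp only [integral_const, probReal_univ, one_smul, A', hC', hs]
  ring

omit [Nonempty ι] in
lemma integrable_dom {Ω : Type*} [MeasurableSpace Ω] {P : Measure Ω} [IsFiniteMeasure P]
    {Φ : Ω → ℝ} (hΦ : Measurable Φ) {a : Ω → ι → ℝ}
    (ha : Integrable (fun h => dot (a h) (a h)) P) {C : ℝ}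
    (hb : ∀ h, |Φ h| ≤ C * (1 + dot (a h) (a h))) : Integrable Φ P :=
  Integrable.mono' (((integrable_const 1).add ha).const_mul C) hΦ.aestronglyMeasurable
    (ae_of_all _ hb)

omit [Nonempty ι] in
lemma nrm_le (a : ι → ℝ) : nrm a ≤ 1 + dot a a := by
  rw [← nrm_sq]; nlinarith [sq_nonneg (nrm a - 1), sqrt_nonneg (dot a a)]

omit [Nonempty ι] in
lemma integrable_L1 (s : ℝ) :
    Integrable (fun h : ι → ℝ => L1 (fun i => s * h i)) (gauss ι) := by
  refine integrable_dom (a := fun h => h) (C := |s|) ?_ ?_ fun h => ?_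
  · have h1 : Measurable fun q : (ι → ℝ) × (ι → ℝ) => exp (dot (dir q.2) (fun i => s * q.1 i)) := by
      refine Measurable.exp ?_
      exact measurable_dot.comp ((measurable_dir.comp measurable_snd).prodMk (by fun_prop))
    exact measurable_log.comp h1.stronglyMeasurable.integral_prod_right'.measurable
  · simp only [← rad_eq]; exact integrable_rad
  · have hm : Measurable fun z : ι → ℝ => dot (dir z) (fun i => s * h i) :=
      measurable_dot.comp (measurable_dir.prodMk measurable_const)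
    refine (abs_log_integral_exp_le (gauss ι) hm (C := |s| * nrm h) fun z => ?_).trans
      (mul_le_mul_of_nonneg_left (nrm_le h) (abs_nonneg s))
    rw [dot_smul_right, abs_mul]
    exact mul_le_mul_of_nonneg_left (abs_dot_dir_le _ _) (abs_nonneg s)

omit [Nonempty ι] in
lemma integrable_L2 (μ s ρ : ℝ) :
    Integrable (fun h : ι ⊕ ι → ℝ => L2 μ (fun i => s * fx h i) (fun i => s * fb ρ h i))
      (gauss (ι ⊕ ι)) := by
  refine integrable_dom (a := fun h => h) (C := |s| * (1 + |ρ| + √(1 - ρ ^ 2)) + |μ|) ?_ ?_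
    fun h => ?_
  · have h1 : Measurable fun q : (ι ⊕ ι → ℝ) × ((ι → ℝ) × (ι → ℝ)) =>
        exp (dot (dir q.2.1) (fun i => s * fx q.1 i) + dot (dir q.2.2) (fun i => s * fb ρ q.1 i)
          + μ * dot (dir q.2.1) (dir q.2.2)) := by
      have M : ∀ {u v : (ι ⊕ ι → ℝ) × ((ι → ℝ) × (ι → ℝ)) → ι → ℝ}, Measurable u → Measurable v →
          Measurable fun q => dot (u q) (v q) := fun hu hv =>
        measurable_dot.comp (hu.prodMk hv)
      refine Measurable.exp (Measurable.add (Measurable.add (M ?_ ?_) (M ?_ ?_))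
        (Measurable.const_mul (M ?_ ?_) μ))
      · exact measurable_dir.comp (measurable_fst.comp measurable_snd)
      · unfold fx; fun_prop
      · exact measurable_dir.comp (measurable_snd.comp measurable_snd)
      · unfold fb fx fy; fun_prop
      · exact measurable_dir.comp (measurable_fst.comp measurable_snd)
      · exact measurable_dir.comp (measurable_snd.comp measurable_snd)
    exact measurable_log.comp h1.stronglyMeasurable.integral_prod_right'.measurable
  · simp only [← rad_eq]; exact integrable_rad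
  · have hm : Measurable fun q : (ι → ℝ) × (ι → ℝ) => dot (dir q.1) (fun i => s * fx h i)
        + dot (dir q.2) (fun i => s * fb ρ h i) + μ * dot (dir q.1) (dir q.2) :=
      ((measurable_dot.comp ((measurable_dir.comp measurable_fst).prodMk measurable_const)).add
        (measurable_dot.comp ((measurable_dir.comp measurable_snd).prodMk measurable_const))).add
        ((measurable_dot.comp ((measurable_dir.comp measurable_fst).prodMk
          (measurable_dir.comp measurable_snd))).const_mul μ)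
    have hd : dot (fx h) (fx h) ≤ dot h h ∧ dot (fy h) (fy h) ≤ dot h h := by
      have : dot h h = dot (fx h) (fx h) + dot (fy h) (fy h) := Fintype.sum_sum_type _
      exact ⟨by linarith [dot_self_nonneg (fy h)], by linarith [dot_self_nonneg (fx h)]⟩
    have h1 : (1 : ℝ) ≤ 1 + dot h h := by linarith [dot_self_nonneg h]
    refine (abs_log_integral_exp_le _ hm (C := |s| * (1 + |ρ| + √(1 - ρ ^ 2)) * (1 + dot h h) + |μ|)
      fun q => ?_).trans ?_
    · refine (abs_add_le _ _).trans (add_le_add ((abs_add_le _ _).trans ?_) ?_)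
      · have e : dot (dir q.2) (fb ρ h)
            = ρ * dot (dir q.2) (fx h) + √(1 - ρ ^ 2) * dot (dir q.2) (fy h) := by
          simp only [dot, fb, Finset.mul_sum, ← Finset.sum_add_distrib]
          exact Finset.sum_congr rfl fun i _ => by ring
        have hx : ∀ z, |dot (dir z) (fx h)| ≤ 1 + dot h h := fun z =>
          ((abs_dot_dir_le z _).trans (nrm_le _)).trans (by linarith [hd.1])
        have hy : |dot (dir q.2) (fy h)| ≤ 1 + dot h h :=
          ((abs_dot_dir_le q.2 _).trans (nrm_le _)).trans (by linarith [hd.2])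
        have hb : |dot (dir q.2) (fb ρ h)| ≤ (|ρ| + √(1 - ρ ^ 2)) * (1 + dot h h) := by
          rw [e]
          refine (abs_add_le _ _).trans ?_
          rw [abs_mul, abs_mul, abs_of_nonneg (sqrt_nonneg (1 - ρ ^ 2))]
          nlinarith [mul_le_mul_of_nonneg_left (hx q.2) (abs_nonneg ρ),
            mul_le_mul_of_nonneg_left hy (sqrt_nonneg (1 - ρ ^ 2))]
        rw [dot_smul_right, dot_smul_right, abs_mul, abs_mul]
        nlinarith [mul_le_mul_of_nonneg_left (add_le_add (hx q.1) hb) (abs_nonneg s)]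
      · rw [abs_mul]
        exact mul_le_of_le_one_right (abs_nonneg _) ((abs_dot_dir_le _ _).trans (nrm_dir_le _))
    · nlinarith [abs_nonneg μ]

lemma sph1_mean_upper {η c r : ℝ} (hp : 0 < pwin ι η) (hc : 0 < 1 + c) (hr : 0 ≤ r) :
    ∫ h, L1 (fun i => √(Fintype.card ι) * √r * h i) ∂gauss ι ≤
      -log (pwin ι η) + Fintype.card ι *
        (η * ((1 + r) / 2 + |c| / 2) + c / 2 + r / (2 * (1 + c)) - log (1 + c) / 2) := by
  set n : ℝ := (Fintype.card ι : ℝ) with hn
  have hd : ∀ h : ι → ℝ, dot (fun i => √r * h i) (fun i => √r * h i) = r * rad h := fun h => by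
    rw [dot_smul_left, dot_smul_right, ← mul_assoc, mul_self_sqrt hr, rad_eq]
  have hb : ∀ h : ι → ℝ, L1 (fun i => √n * √r * h i) ≤
      (-log (pwin ι η) + η * (n / 2 + |c| * n / 2) + c / 2 * n - n / 2 * log (1 + c))
        + r * (η / 2 + 1 / (2 * (1 + c))) * rad h := by
    intro h
    have := L1_upper hp hc (fun i => √r * h i)
    simp only [← mul_assoc, tiltK, hd] at this
    refine this.trans (le_of_eq ?_)
    rw [← hn]
    field_simp
    ring
  refine (integral_mono (integrable_L1 _) ((integrable_const _).add (integrable_rad.const_mul _))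
    hb).trans (le_of_eq ?_)
  simp only [Pi.add_apply]
  rw [integral_add (integrable_const _) (integrable_rad.const_mul _), integral_const_mul, integral_rad]
  simp only [integral_const, probReal_univ, one_smul, ← hn]
  ring

lemma sph2_mean_upper {η lam ν r ρ : ℝ} (hp : 0 < pwin ι η) (h : |ν| < lam) (hr : 0 ≤ r)
    (hρ : ρ ∈ Icc (-1 : ℝ) 1) :
    ∫ g, L2 (ν * Fintype.card ι) (fun i => √(Fintype.card ι) * √r * fx g i)
        (fun i => √(Fintype.card ι) * √r * fb ρ g i) ∂gauss (ι ⊕ ι) ≤
      -(2 * log (pwin ι η)) + Fintype.card ι *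
        (η * (1 + r + |lam - 1| + |ν|) + site2 r ρ lam ν) := by
  set n : ℝ := (Fintype.card ι : ℝ) with hn
  have hD : 0 < lam ^ 2 - ν ^ 2 := by nlinarith [sq_abs ν, abs_nonneg ν]
  obtain ⟨hi, he⟩ := integral_fields (ι := ι) hr hρ
    (-(2 * log (pwin ι η)) + η * (n + |lam - 1| * n + |ν| * n) + (lam - 1) * n
      - n / 2 * log (lam ^ 2 - ν ^ 2))
    (η / 2 + lam / (2 * (lam ^ 2 - ν ^ 2))) (ν / (lam ^ 2 - ν ^ 2))
    (η / 2 + lam / (2 * (lam ^ 2 - ν ^ 2)))
  refine ((integral_mono (integrable_L2 _ _ _) hi fun g => ?_).trans_eq he).trans (le_of_eq ?_)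
  · have := L2_upper hp h (fun i => √r * fx g i) (fun i => √r * fb ρ g i)
    simp only [← mul_assoc, quad2] at this
    refine this.trans (le_of_eq ?_)
    rw [← hn]
    field_simp
    ring
  · rw [← hn, site2]
    field_simp
    ring

omit [Nonempty ι] in
lemma integral_joint {κ s σ : ℝ} (hσ : σ ^ 2 = κ ^ 2 + s ^ 2) {G : (ι → ℝ) → ℝ}
    (hG : Continuous G) :
    ∫ h, G (fun i => κ * fx h i + s * fy h i) ∂gauss (ι ⊕ ι)
      = ∫ g, G (fun i => σ * g i) ∂gauss ι := by
  classical
  let e : ι → ι ⊕ ι → ℝ := fun i =>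
    Sum.elim (fun j => if i = j then κ else 0) (fun j => if i = j then s else 0)
  let e' : ι → ι → ℝ := fun i j => if i = j then σ else 0
  have h1 : ∀ h, P157.Conc.lin e h = fun i => κ * fx h i + s * fy h i := fun h => by
    funext i; simp [P157.Conc.lin, e, fx, fy, Fintype.sum_sum_type]
  have h2 : ∀ g, P157.Conc.lin e' g = fun i => σ * g i := fun g => by
    funext i; simp [P157.Conc.lin, e']
  have := P157.Conc.integral_lin_eq e e' (fun x y => by
    simp only [e, e', Fintype.sum_sum_type, Sum.elim_inl, Sum.elim_inr, ite_mul, zero_mul,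
      Finset.sum_ite_eq, Finset.mem_univ, if_true]
    rcases eq_or_ne y x with rfl | hxy
    · simp only [if_true]; linear_combination -hσ
    · simp [hxy]) hG
  simpa only [h1, h2] using this

omit [Nonempty ι] in
lemma nrm_smul {σ : ℝ} (hσ : 0 ≤ σ) (g : ι → ℝ) : nrm (fun i => σ * g i) = σ * nrm g := by
  rw [nrm, dot_smul_left, dot_smul_right, ← mul_assoc, sqrt_mul (mul_self_nonneg σ),
    sqrt_mul_self hσ, nrm]

lemma dist_radius {η : ℝ} (hη : η ∈ Icc (0 : ℝ) 1) {σ : ℝ} (hσ : 0 ≤ σ) :
    ∫ g, (nrm (fun i => σ * g i) - √(Fintype.card ι)) ^ 2 ∂gauss ι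
      ≤ Fintype.card ι * (2 * (σ - 1) ^ 2 + 4 * (1 - (1 - η) * pwin ι η)) := by
  set n : ℝ := (Fintype.card ι : ℝ) with hn
  have hn0 : 0 < n := card_pos'
  have hb : ∀ g : ι → ℝ, (nrm (fun i => σ * g i) - √n) ^ 2 ≤
      (2 * (σ - 1) ^ 2 + 2) * rad g + 2 * n - 4 * n * (1 - η) * ind η g := by
    intro g
    rw [nrm_smul hσ, rad_eq, ← nrm_sq]
    have h1 : n * (1 - η) * ind η g ≤ √n * nrm g := by
      by_cases hz : rad g ∈ win ι η
      · rw [ind, indicator_of_mem hz, mul_one]
        have h2 := hz.1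
        rw [rad_eq, ← nrm_sq, ← hn] at h2
        have hq : (n * (1 - η)) ^ 2 ≤ (√n * nrm g) ^ 2 := by
          rw [mul_pow (√n), sq_sqrt hn0.le, sq, mul_assoc]
          refine mul_le_mul_of_nonneg_left (le_trans ?_ h2) hn0.le
          nlinarith [mul_nonneg hn0.le (mul_nonneg hη.1 (sub_nonneg.2 hη.2))]
        exact (pow_le_pow_iff_left₀ (by nlinarith [hη.2])
          (mul_nonneg (sqrt_nonneg _) (sqrt_nonneg _)) two_ne_zero).1 hq
      · rw [ind, indicator_of_notMem hz, mul_zero]
        exact mul_nonneg (sqrt_nonneg _) (sqrt_nonneg _)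
    nlinarith [sq_nonneg ((σ - 1) * nrm g - (nrm g - √n)), sq_sqrt hn0.le]
  have hi : Integrable (fun g => (nrm (fun i => σ * g i) - √n) ^ 2) (gauss ι) := by
    refine Integrable.mono' ((integrable_rad.const_mul (2 * σ ^ 2)).add (integrable_const (2 * n)))
      (by unfold nrm dot; fun_prop) (ae_of_all _ fun g => ?_)
    rw [norm_eq_abs, abs_of_nonneg (sq_nonneg _), Pi.add_apply, nrm_smul hσ, rad_eq, ← nrm_sq]
    nlinarith [sq_nonneg (σ * nrm g + √n), sq_sqrt hn0.le]
  have i1 : Integrable (fun g : ι → ℝ => (2 * (σ - 1) ^ 2 + 2) * rad g + 2 * n) (gauss ι) :=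
    (integrable_rad.const_mul _).add (integrable_const _)
  have i2 : Integrable (fun g : ι → ℝ => 4 * n * (1 - η) * ind η g) (gauss ι) :=
    (integrable_ind η).const_mul _
  refine (integral_mono hi (i1.sub i2) hb).trans (le_of_eq ?_)
  simp only [Pi.sub_apply]
  rw [integral_sub i1 i2, integral_add (integrable_rad.const_mul _) (integrable_const _),
    integral_const_mul (4 * n * (1 - η)) (ind η), integral_const_mul (2 * (σ - 1) ^ 2 + 2) rad,
    integral_rad]
  simp only [integral_const, probReal_univ, one_smul, ← hn, pwin]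
  ring

lemma sph1_mean_lower {η c r δ : ℝ} (hη : η ∈ Icc (0 : ℝ) 1) (hc : 0 < 1 + c) (hr : 0 ≤ r)
    (hδ : 0 < δ) :
    Fintype.card ι * (r / (2 * (1 + c)) - log (1 + c) / 2 + c / 2 * (1 / (1 + c) + r / (1 + c) ^ 2)
        - δ / 2 * r
        - (2 * (√(1 / (1 + c) + r / (1 + c) ^ 2) - 1) ^ 2 + 4 * (1 - (1 - η) * pwin ι η)) / (2 * δ))
      ≤ ∫ h, L1 (fun i => √(Fintype.card ι) * √r * h i) ∂gauss ι := by
  set n : ℝ := (Fintype.card ι : ℝ) with hn
  set s := √(1 / (1 + c))
  set κ := √r / (1 + c) with hκ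
  set σ := √(1 / (1 + c) + r / (1 + c) ^ 2) with hσ
  have hσ2 : σ ^ 2 = κ ^ 2 + s ^ 2 := by
    rw [hσ, hκ, div_pow, sq_sqrt hr, sq_sqrt (by positivity : (0:ℝ) ≤ 1 / (1 + c)),
      sq_sqrt (by positivity : (0:ℝ) ≤ 1 / (1 + c) + r / (1 + c) ^ 2)]
    ring
  have htz : ∀ h ξ : ι → ℝ, tz c (fun i => √r * h i) ξ = fun i => κ * h i + s * ξ i := fun h ξ => by
    funext i; simp [tz, hκ, s]; ring
  have hd : ∀ h : ι → ℝ, dot (fun i => √r * h i) (fun i => √r * h i) = r * rad h := fun h => by
    rw [dot_smul_left, dot_smul_right, ← mul_assoc, mul_self_sqrt hr, rad_eq]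
  have hp : Continuous fun q : (ι → ℝ) × (ι → ℝ) => fun i => κ * q.1 i + s * q.2 i := by fun_prop
  have hrc : Continuous (rad : (ι → ℝ) → ℝ) := by unfold rad; fun_prop
  have hdc : Continuous fun z : ι → ℝ => (nrm z - √n) ^ 2 := by unfold nrm dot; fun_prop
  have i1 := (integrable_rad (ι := ι)).comp_fst (gauss ι)
  have i2 := (integrable_rad (ι := ι)).comp_snd (gauss ι)
  have iR : Integrable (fun q : (ι → ℝ) × (ι → ℝ) => rad (fun i => κ * q.1 i + s * q.2 i))
      ((gauss ι).prod (gauss ι)) := by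
    refine Integrable.mono' ((i1.const_mul (2 * κ ^ 2)).add (i2.const_mul (2 * s ^ 2)))
      (hrc.comp hp).aestronglyMeasurable (ae_of_all _ fun q => ?_)
    rw [norm_eq_abs, abs_of_nonneg (Finset.sum_nonneg fun i _ => sq_nonneg _), Pi.add_apply, rad,
      rad, rad, Finset.mul_sum, Finset.mul_sum, ← Finset.sum_add_distrib]
    exact Finset.sum_le_sum fun i _ => by nlinarith [sq_nonneg (κ * q.1 i - s * q.2 i)]
  have iD : Integrable (fun q : (ι → ℝ) × (ι → ℝ) =>
      (nrm (fun i => κ * q.1 i + s * q.2 i) - √n) ^ 2) ((gauss ι).prod (gauss ι)) := by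
    refine Integrable.mono' ((iR.const_mul 2).add (integrable_const (2 * n)))
      (hdc.comp hp).aestronglyMeasurable (ae_of_all _ fun q => ?_)
    rw [norm_eq_abs, abs_of_nonneg (sq_nonneg _), Pi.add_apply, rad_eq, ← nrm_sq]
    nlinarith [sq_nonneg (nrm (fun i => κ * q.1 i + s * q.2 i) + √n),
      sq_sqrt (Nat.cast_nonneg (α := ℝ) (Fintype.card ι))]
  have eR : ∫ h, (∫ ξ, rad (fun i => κ * h i + s * ξ i) ∂gauss ι) ∂gauss ι = σ ^ 2 * n := by
    rw [← integral_prod _ iR, ← integral_two (fun q => rad (fun i => κ * q.1 i + s * q.2 i))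
      iR.aestronglyMeasurable, integral_joint hσ2 hrc]
    have : ∀ g : ι → ℝ, rad (fun i => σ * g i) = σ ^ 2 * rad g := fun g => by
      simp [rad, mul_pow, Finset.mul_sum]
    simp only [this, integral_const_mul, integral_rad, ← hn]
  have eD : ∫ h, (∫ ξ, (nrm (fun i => κ * h i + s * ξ i) - √n) ^ 2 ∂gauss ι) ∂gauss ι
      ≤ n * (2 * (σ - 1) ^ 2 + 4 * (1 - (1 - η) * pwin ι η)) := by
    rw [← integral_prod _ iD, ← integral_two (fun q => (nrm (fun i => κ * q.1 i + s * q.2 i) - √n) ^ 2)
      iD.aestronglyMeasurable, integral_joint hσ2 hdc]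
    exact dist_radius hη (sqrt_nonneg _)
  have hb : ∀ h : ι → ℝ,
      ((-(n / 2 * log (1 + c)) + (r / (2 * (1 + c)) - δ / 2 * r) * rad h)
        + c / 2 * ∫ ξ, rad (fun i => κ * h i + s * ξ i) ∂gauss ι)
        - (∫ ξ, (nrm (fun i => κ * h i + s * ξ i) - √n) ^ 2 ∂gauss ι) / (2 * δ)
      ≤ L1 (fun i => √n * √r * h i) := by
    intro h
    have := L1_lower hc (fun i => √r * h i) hδ
    simp only [← mul_assoc, tiltK, hd, htz, ← hn] at this
    refine le_trans (le_of_eq ?_) this
    ring
  have j1 : Integrable (fun h : ι → ℝ => -(n / 2 * log (1 + c)) + (r / (2 * (1 + c)) - δ / 2 * r) * rad h)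
      (gauss ι) := (integrable_const _).add (integrable_rad.const_mul _)
  have j2 : Integrable (fun h : ι → ℝ => c / 2 * ∫ ξ, rad (fun i => κ * h i + s * ξ i) ∂gauss ι)
      (gauss ι) := iR.integral_prod_left.const_mul _
  have j3 : Integrable (fun h : ι → ℝ =>
      (∫ ξ, (nrm (fun i => κ * h i + s * ξ i) - √n) ^ 2 ∂gauss ι) / (2 * δ)) (gauss ι) :=
    iD.integral_prod_left.div_const _
  have j12 : Integrable (fun h : ι → ℝ =>
      (-(n / 2 * log (1 + c)) + (r / (2 * (1 + c)) - δ / 2 * r) * rad h)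
        + c / 2 * ∫ ξ, rad (fun i => κ * h i + s * ξ i) ∂gauss ι) (gauss ι) := j1.add j2
  refine le_trans ?_ (integral_mono (j12.sub j3) (integrable_L1 _) hb)
  simp only [Pi.sub_apply]
  rw [integral_sub j12 j3, integral_add j1 j2,
    integral_add (integrable_const _) (integrable_rad.const_mul _), integral_const_mul,
    integral_div, integral_const_mul, integral_rad, eR]
  simp only [integral_const, probReal_univ, one_smul, ← hn]
  have hσ3 : σ ^ 2 = 1 / (1 + c) + r / (1 + c) ^ 2 := sq_sqrt (by positivity)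
  have := div_le_div_of_nonneg_right eD (by positivity : (0:ℝ) ≤ 2 * δ)
  rw [hσ3]
  rw [mul_div_assoc] at this
  nlinarith [this]

end Pointwise

/-! ## Limits -/

lemma sph1_eq (N : ℕ) {r : ℝ} (hr : 0 ≤ r) :
    sph1 N r = ∫ h, L1 (fun i : Fin N => √N * √r * h i) ∂gauss (Fin N) := by
  unfold sph1 L1 sph
  refine integral_congr_ae (ae_of_all _ fun h => ?_)
  simp only [dot_smul_right]
  rw [integral_map measurable_dir.aemeasurable
    (by unfold dot; exact (Measurable.aestronglyMeasurable (by fun_prop))), gM_eq_gauss,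
    sqrt_mul hr, mul_comm (√r) (√(N : ℝ))]

lemma sph2_eq (N : ℕ) {r : ℝ} (hr : 0 ≤ r) (ρ ν : ℝ) :
    sph2 N r ρ ν = ∫ h, L2 (ν * N) (fun i : Fin N => √N * √r * fx h i)
      (fun i : Fin N => √N * √r * fb ρ h i) ∂gauss (Fin N ⊕ Fin N) := by
  unfold sph2 L2 sph
  refine integral_congr_ae (ae_of_all _ fun h => ?_)
  simp only [dot_smul_right, Measure.map_prod_map _ _ measurable_dir measurable_dir]
  rw [integral_map (measurable_dir.prodMap measurable_dir).aemeasurable
    (by unfold dot; exact (Measurable.aestronglyMeasurable (by fun_prop))), gM_eq_gauss,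
    sqrt_mul hr, mul_comm (√r) (√(N : ℝ))]
  simp only [Prod.map_fst, Prod.map_snd, mul_add]
  rfl

lemma pwin_tendsto {η : ℝ} (h0 : 0 < η) (h1 : η ≤ 1) :
    Tendsto (fun N : ℕ => pwin (Fin N) η) atTop (𝓝 1) := by
  have hz : Tendsto (fun N : ℕ => 1 - 2 * exp (-(η ^ 2 / 16)) ^ N) atTop (𝓝 1) := by
    simpa using (((tendsto_pow_atTop_nhds_zero_of_lt_one (exp_pos _).le
      (exp_lt_one_iff.2 (by linarith [pow_pos h0 2]))).const_mul (2 : ℝ)).const_sub (1 : ℝ))
  refine tendsto_of_tendsto_of_tendsto_of_le_of_le hz tendsto_const_nhds (fun N => ?_) fun N => ?_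
  · have := one_sub_pwin_le (ι := Fin N) h0 h1
    rw [Fintype.card_fin, mul_comm _ (N : ℝ), exp_nat_mul] at this
    linarith
  · exact (integral_mono (integrable_ind η) (integrable_const 1) (ind_le_one η)).trans_eq (by simp)

theorem sph1_lim {q : ℝ} (hq : q ∈ Ico (0 : ℝ) 1) {r : ℕ → ℝ} (hr0 : ∀ N, 0 ≤ r N)
    (hr : Tendsto r atTop (𝓝 (q / (1 - q) ^ 2))) :
    Tendsto (fun N => sph1 N (r N) / N) atTop (𝓝 (siteS q)) := by
  set R := q / (1 - q) ^ 2 with hR
  have hq1 : 0 < 1 - q := by linarith [hq.2]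
  have hR0 : 0 ≤ R := div_nonneg hq.1 (sq_nonneg _)
  set c := q / (1 - q) with hc
  have hlam : 1 + c = 1 / (1 - q) := by rw [hc]; field_simp; ring
  have hc0 : 0 < 1 + c := by rw [hlam]; positivity
  have hl : log (1 + c) = -log (1 - q) := by rw [hlam, one_div, log_inv]
  have hσ : 1 / (1 + c) + R / (1 + c) ^ 2 = 1 := by
    rw [hlam, hR]; field_simp; ring
  have hS : siteS q = c / 2 + R / (2 * (1 + c)) - log (1 + c) / 2 := by
    rw [hl, hlam, siteS, ← hR, ← hc]; field_simp; ring
  refine (tendsto_order.2 ⟨fun a ha => ?_, fun a ha => ?_⟩)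
  · obtain ⟨δ, hδ, hδ1, hδa⟩ : ∃ δ : ℝ, 0 < δ ∧ δ ≤ 1 ∧ a < siteS q - δ * (R / 2 + 2) := by
      refine ⟨min 1 ((siteS q - a) / (R / 2 + 3)), lt_min one_pos (div_pos (by linarith) (by linarith)),
        min_le_left _ _, ?_⟩
      have := mul_le_mul_of_nonneg_right (min_le_right 1 ((siteS q - a) / (R / 2 + 3)))
        (by linarith : (0 : ℝ) ≤ R / 2 + 2)
      have h3 : (siteS q - a) / (R / 2 + 3) * (R / 2 + 2) < siteS q - a := by
        rw [div_mul_eq_mul_div, div_lt_iff₀ (by linarith)]; nlinarith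
      linarith
    have hη : δ ^ 2 ∈ Icc (0 : ℝ) 1 := ⟨sq_nonneg _, pow_le_one₀ hδ.le hδ1⟩
    have ht : Tendsto (fun N : ℕ => r N / (2 * (1 + c)) - log (1 + c) / 2
        + c / 2 * (1 / (1 + c) + r N / (1 + c) ^ 2) - δ / 2 * r N
        - (2 * (√(1 / (1 + c) + r N / (1 + c) ^ 2) - 1) ^ 2
            + 4 * (1 - (1 - δ ^ 2) * pwin (Fin N) (δ ^ 2))) / (2 * δ)) atTop
        (𝓝 (siteS q - δ * (R / 2 + 2))) := by
      have hs : Tendsto (fun N : ℕ => 1 / (1 + c) + r N / (1 + c) ^ 2) atTop (𝓝 1) := by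
        have := (hr.div_const ((1 + c) ^ 2)).const_add (1 / (1 + c))
        rwa [hσ] at this
      have h := ((((hr.div_const (2 * (1 + c))).sub_const (log (1 + c) / 2)).add
        (hs.const_mul (c / 2))).sub (hr.const_mul (δ / 2))).sub
        ((((((continuous_sqrt.tendsto _).comp hs).sub_const 1).pow 2).const_mul 2).add
          (((((pwin_tendsto (pow_pos hδ 2) hη.2).const_mul (1 - δ ^ 2)).const_sub 1).const_mul 4))
          |>.div_const (2 * δ))
      convert h using 2 <;>
        first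
          | rfl
          | (rw [hS, sqrt_one]; field_simp; ring)
    filter_upwards [ht.eventually (lt_mem_nhds hδa), eventually_ge_atTop 1] with N h1 hN
    have : Nonempty (Fin N) := ⟨⟨0, hN⟩⟩
    have h2 := sph1_mean_lower (ι := Fin N) hη hc0 (hr0 N) hδ
    rw [Fintype.card_fin, ← sph1_eq N (hr0 N)] at h2
    have hN0 : (0 : ℝ) < N := by exact_mod_cast hN
    rw [lt_div_iff₀ hN0]
    nlinarith
  · obtain ⟨η, hη, hη1, hηa⟩ : ∃ η : ℝ, 0 < η ∧ η ≤ 1 ∧ siteS q + η * ((1 + R) / 2 + |c| / 2) < a := by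
      set M := (1 + R) / 2 + |c| / 2
      have hM : 0 < M := by positivity
      refine ⟨min 1 ((a - siteS q) / (M + 1)), lt_min one_pos (div_pos (by linarith) (by linarith)),
        min_le_left _ _, ?_⟩
      have := mul_le_mul_of_nonneg_right (min_le_right 1 ((a - siteS q) / (M + 1))) hM.le
      have h3 : (a - siteS q) / (M + 1) * M < a - siteS q := by
        rw [div_mul_eq_mul_div, div_lt_iff₀ (by linarith)]; nlinarith
      linarith
    have ht : Tendsto (fun N : ℕ => -log (pwin (Fin N) η) / N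
        + (η * ((1 + r N) / 2 + |c| / 2) + c / 2 + r N / (2 * (1 + c)) - log (1 + c) / 2)) atTop
        (𝓝 (siteS q + η * ((1 + R) / 2 + |c| / 2))) := by
      have hl0 : Tendsto (fun N : ℕ => -log (pwin (Fin N) η) / N) atTop (𝓝 0) :=
        (((pwin_tendsto hη hη1).log one_ne_zero).neg).div_atTop tendsto_natCast_atTop_atTop
      have h := hl0.add ((((((hr.const_add 1).div_const 2).add_const (|c| / 2)).const_mul η).add_const
        (c / 2)).add (hr.div_const (2 * (1 + c))) |>.sub_const (log (1 + c) / 2))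
      convert h using 2
      · rw [hS]; ring
    filter_upwards [ht.eventually (gt_mem_nhds hηa), eventually_ge_atTop 1,
      (pwin_tendsto hη hη1).eventually (lt_mem_nhds (zero_lt_one' ℝ))] with N h1 hN hp
    have : Nonempty (Fin N) := ⟨⟨0, hN⟩⟩
    have h2 := sph1_mean_upper hp hc0 (hr0 N)
    rw [Fintype.card_fin, ← sph1_eq N (hr0 N)] at h2
    have hN0 : (0 : ℝ) < N := by exact_mod_cast hN
    refine lt_of_le_of_lt ?_ h1
    rw [div_add' _ _ _ hN0.ne']
    exact div_le_div_of_nonneg_right (by linarith) hN0.le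

theorem sph2_upper {r : ℝ} (hr0 : 0 ≤ r) {rN : ℕ → ℝ} (hrN : ∀ N, 0 ≤ rN N)
    (hr : Tendsto rN atTop (𝓝 r)) {Λ c ε : ℝ} (hc : 0 < c) (hε : 0 < ε) :
    ∀ᶠ N : ℕ in atTop, ∀ ρ ∈ Icc (-1 : ℝ) 1, ∀ lam ν : ℝ, lam ≤ Λ → c ≤ lam - |ν| →
      sph2 N (rN N) ρ ν ≤ N * (site2 r ρ lam ν + ε) := by
  set M := r + 3 + 2 * |Λ| with hMd
  have hM : 0 < M := by positivity
  set η := min 1 (ε / (3 * M)) with hηd
  have hη : 0 < η := lt_min one_pos (by positivity)
  have hηM : η * M ≤ ε / 3 := by
    calc η * M ≤ ε / (3 * M) * M := mul_le_mul_of_nonneg_right (min_le_right _ _) hM.le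
      _ = ε / 3 := by field_simp
  have hl : Tendsto (fun N : ℕ => -(2 * log (pwin (Fin N) η)) / N) atTop (𝓝 0) :=
    (((((pwin_tendsto hη (min_le_left _ _)).log one_ne_zero)).const_mul 2).neg).div_atTop
      tendsto_natCast_atTop_atTop
  have hd : Tendsto (fun N => |rN N - r| / c) atTop (𝓝 0) := by
    simpa using ((hr.sub_const r).abs.div_const c)
  filter_upwards [hl.eventually (gt_mem_nhds (by linarith : (0 : ℝ) < ε / 3)),
    hd.eventually (gt_mem_nhds (by linarith : (0 : ℝ) < ε / 3)),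
    hr.eventually (gt_mem_nhds (by linarith : r < r + 1)),
    (pwin_tendsto hη (min_le_left _ _)).eventually (lt_mem_nhds (zero_lt_one' ℝ)),
    eventually_ge_atTop 1] with N h1 h2 h3 hp hN ρ hρ lam ν hlam hcν
  have : Nonempty (Fin N) := ⟨⟨0, hN⟩⟩
  have hν : |ν| < lam := by linarith
  have h4 := sph2_mean_upper (ι := Fin N) hp hν (hrN N) hρ
  rw [Fintype.card_fin, ← sph2_eq N (hrN N) ρ ν] at h4
  have hN0 : (0 : ℝ) < N := by exact_mod_cast hN
  have hu : η * (1 + rN N + |lam - 1| + |ν|) ≤ ε / 3 := by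
    refine le_trans (mul_le_mul_of_nonneg_left ?_ hη.le) hηM
    have : |lam - 1| ≤ lam + 1 := by rw [abs_le]; constructor <;> linarith [abs_nonneg ν]
    linarith [le_abs_self Λ, abs_nonneg ν]
  have hs : site2 (rN N) ρ lam ν ≤ site2 r ρ lam ν + |rN N - r| / c := by
    have hD : 0 < lam ^ 2 - ν ^ 2 := by nlinarith [sq_abs ν, abs_nonneg ν]
    have hb : |(lam + ν * ρ) / (lam ^ 2 - ν ^ 2)| ≤ 1 / c := by
      rw [abs_div, abs_of_pos hD, div_le_div_iff₀ hD hc, one_mul]
      have hρ' : |ρ| ≤ 1 := abs_le.2 hρ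
      have : |lam + ν * ρ| ≤ lam + |ν| := by
        refine (abs_add_le _ _).trans ?_
        rw [abs_mul, abs_of_pos (lt_of_le_of_lt (abs_nonneg ν) hν)]
        linarith [mul_le_of_le_one_right (abs_nonneg ν) hρ']
      nlinarith [sq_abs ν, abs_nonneg ν]
    have h5 : (rN N - r) * ((lam + ν * ρ) / (lam ^ 2 - ν ^ 2)) ≤ |rN N - r| / c := by
      refine (le_abs_self _).trans ?_
      rw [abs_mul, div_eq_mul_one_div |rN N - r|]
      exact mul_le_mul_of_nonneg_left hb (abs_nonneg _)
    simp only [site2, mul_div_assoc]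
    linarith [h5]
  rw [div_lt_iff₀ hN0] at h1
  refine h4.trans ?_
  nlinarith [mul_le_mul_of_nonneg_left (add_le_add hu hs) hN0.le,
    mul_le_mul_of_nonneg_left h2.le hN0.le]

end P157.RS

end
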