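import Vale.Agent.P157.RS.RowZ

/-!
# P157, RS: the replica symmetric bounds for one row, one system and a pair of systems
-/

noncomputable section

open MeasureTheory ProbabilityTheory Real Filter Topology Set
open scoped BigOperators

namespace P157.RS

open Vale.Agent.P150 (gauss)
open P157.Conc (rsA rsTau)

variable {Y ι : Type*} [Fintype Y] [Nonempty Y] [Fintype ι] {f f1 f2 f3 : ℝ → ℝ}
  {U V W B κ q : ℝ}

namespace Row

open P157.Conc (Pot cav cav_exp_bounds cav_ratio_le integral_lin_eq lin pairG continuous_cav abs_f1exp_le)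

omit [Fintype Y] [Nonempty Y] [Fintype ι] in
/-- A normalised combination of standard Gaussians is standard. -/
lemma integral_dot {L : Type*} [Fintype L] {β : L → ℝ} (hβ : dot β β = 1) {F : ℝ → ℝ}
    (hF : Continuous F) : ∫ z, F (dot β z) ∂gauss L = ∫ t, F t ∂gaussianReal 0 1 := by
  rw [← P157.Conc.integral_unit F hF]
  have h := integral_lin_eq (fun (_ : Unit) => β) (fun (_ : Unit) (_ : Unit) => (1 : ℝ))
    (fun _ _ => by simpa [dot] using hβ) (H := fun v => F (v ())) (hF.comp (continuous_apply ()))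
  refine Eq.trans ?_ (h.trans ?_)
  · rfl
  · simp [lin]

omit [Fintype Y] [Nonempty Y] [Fintype ι] in
lemma logcav_props (hp : Pot f f1 f2 f3 U V W) (hB : ∀ s, |f s| ≤ B) (q : ℝ) :
    Continuous (fun t => log (cav (fun s => exp (f s)) q t)) ∧
      ∀ t, |log (cav (fun s => exp (f s)) q t)| ≤ B := by
  have hpos := fun t => (exp_pos _).trans_le (cav_exp_bounds hp hB q t).1
  refine ⟨(continuous_cav (by have := hp.cf; fun_prop) (exp_le_eB hB) q).log fun t => (hpos t).ne',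
    fun t => abs_le.2 ⟨(Real.le_log_iff_exp_le (hpos t)).2 (cav_exp_bounds hp hB q t).1,
      (Real.log_le_iff_le_exp (hpos t)).2 (cav_exp_bounds hp hB q t).2⟩⟩

omit [Fintype Y] [Nonempty Y] [Fintype ι] in
lemma continuous_Fz (hp : Pot f f1 f2 f3 U V W) (hB : ∀ s, |f s| ≤ B) (q : ℝ) :
    Continuous (Fz f f1 q) :=
  (continuous_cav (by have := hp.c1; have := hp.cf; fun_prop) (abs_f1exp_le hp hB) q).div
    (continuous_cav (by have := hp.cf; fun_prop) (exp_le_eB hB) q)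
    fun t => ((exp_pos _).trans_le (cav_exp_bounds hp hB q t).1).ne'

/-- The mixing for a single system. -/
def b1m : Fin 1 → Fin 1 → ℝ := fun _ _ => 1

omit [Nonempty Y] [Fintype Y] in
lemma ends1 {a : Y → Fin 1 → ι → ℝ} (ha : Unit1 a) (hq : q ∈ Ico (0 : ℝ) 1) :
    Ends q a b1m (fun _ : Y => b1m) where
  h0 := hq.1
  h1 := hq.2.le
  ha := ha
  hb l := by simp [b1m, dot]
  hc y l := by simp [b1m, dot]
  hin y l l' := by
    rw [Subsingleton.elim l' l, ha y l]
    simp [b1m, dot]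

omit [Fintype Y] [Nonempty Y] [Fintype ι] in
lemma bar_one {G : ℝ → ℝ} (hG : Continuous G) (z : Fin 1 → ℝ) :
    bar q b1m b1m (fun v => G (v 0)) z = cav G q (z 0) := by
  have hh := integral_dot (F := fun t => G (√q * z 0 + √(1 - q) * t))
    (β := fun _ : Fin 1 => (1 : ℝ)) (by simp [dot]) (hG.comp (by fun_prop))
  rw [bar, cav, ← hh]
  simp [site, b1m, dot]

/-- The bound of one system at both ends. -/
lemma mainE_one (hg : Good f f1 f2 f3 U V W B κ) (a : Y → Fin 1 → ι → ℝ) (μ : ℝ) (u : Y → ℝ) :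
    mainE f f1 q a b1m (fun _ => b1m) μ u = lse u + rsA f q
      + rsTau f f1 q / 2 * (q - avgC u fun y z => dot (a y 0) (a z 0))
      - μ * avgC u fun y z => (dot (a y 0) (a z 0) - q) ^ 2 := by
  have hp := hg.pot
  have hB := hg.bd
  have e0 : ∀ z : Fin 1 → ℝ, bar q b1m b1m (sE0 f) z = cav (fun s => exp (f s)) q (z 0) := fun z => by
    rw [show sE0 (L := Fin 1) f = fun v => exp (f (v 0)) by funext v; simp [sE0]]
    exact bar_one (G := fun s => exp (f s)) (by have := hp.cf; fun_prop) z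
  have e1 : ∀ (z : Fin 1 → ℝ) (l : Fin 1),
      bar q b1m b1m (sE1 f f1 l) z = cav (fun s => f1 s * exp (f s)) q (z 0) := fun z l => by
    rw [show sE1 (L := Fin 1) f f1 l = fun v => f1 (v 0) * exp (f (v 0)) by
      funext v; simp [sE1, sE0, Subsingleton.elim l 0]]
    exact bar_one (G := fun s => f1 s * exp (f s)) (by have := hp.cf; have := hp.c1; fun_prop) z
  have eZ : ∀ z : Fin 1 → ℝ, Zb f q b1m (fun _ : Y => b1m) u z = cav (fun s => exp (f s)) q (z 0) := fun z => by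
    simp only [Zb, e0, ← Finset.sum_mul, sum_gw, one_mul]
  have hD : ∀ y y', Dst q a b1m y 0 y' 0 = dot (a y 0) (a y' 0) - q := fun y y' => by
    simp [Dst, b1m, dot]
  set R := avgC u fun y z => dot (a y 0) (a z 0) with hR
  have hsub : avgC u (fun y z => dot (a y 0) (a z 0) - q) = R - q := by
    simp only [hR, avgC, mul_sub, Finset.sum_sub_distrib, ← Finset.sum_mul, ← Finset.mul_sum, sum_gw]
    simp
  have eQ : ∀ z : Fin 1 → ℝ, Qb f f1 q a b1m (fun _ : Y => b1m) u z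
      = Fz f f1 q (z 0) ^ 2 * (R - q) := fun z => by
    rw [← hsub]
    simp only [Qb, Fb, e1, eZ, Fin.sum_univ_one, hD, avgC, Finset.mul_sum, Fz]
    exact Finset.sum_congr rfl fun y _ => Finset.sum_congr rfl fun y' _ => by ring
  have hl := logcav_props hp hB q
  have hF2 : Continuous fun t => Fz f f1 q t ^ 2 := (continuous_Fz hp hB q).pow 2
  have hev : ∀ G : ℝ → ℝ, Continuous G → ∫ z : Fin 1 → ℝ, G (z 0) ∂gauss (Fin 1)
      = ∫ t, G t ∂gaussianReal 0 1 := fun G hG => by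
    rw [← integral_dot (β := fun _ : Fin 1 => (1 : ℝ)) (by simp [dot]) hG]
    simp [dot]
  have i1 : Integrable (fun z : Fin 1 → ℝ => log (cav (fun s => exp (f s)) q (z 0))) (gauss (Fin 1)) :=
    Vale.Agent.P150.integrable_gauss_bound (hl.1.comp (continuous_apply 0)) fun z => hl.2 _
  have i2 : Integrable (fun z : Fin 1 → ℝ => Fz f f1 q (z 0) ^ 2 * (R - q)) (gauss (Fin 1)) :=
    (Vale.Agent.P150.integrable_gauss_bound (hF2.comp (continuous_apply 0)) (B := U ^ 2) fun z => by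
      rw [Function.comp_apply, abs_pow]
      exact pow_le_pow_left₀ (abs_nonneg _) (cav_ratio_le hp hB q _) 2).mul_const _
  have hA : ∫ z : Fin 1 → ℝ, log (cav (fun s => exp (f s)) q (z 0)) ∂gauss (Fin 1) = rsA f q :=
    hev (fun t => log (cav (fun s => exp (f s)) q t)) hl.1
  have hτ : ∫ z : Fin 1 → ℝ, Fz f f1 q (z 0) ^ 2 ∂gauss (Fin 1) = rsTau f f1 q :=
    hev (fun t => Fz f f1 q t ^ 2) hF2
  simp only [mainE, eZ, eQ]
  rw [integral_sub i1 (i2.const_mul _), integral_const_mul, integral_mul_const, hA, hτ]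
  simp only [Fin.sum_univ_one, hD]
  ring

end Row

open Row
open P157.Conc (Pot cav cav_exp_bounds cav_ratio_le integral_lin_eq lin pairG continuous_cav abs_f1exp_le)

theorem row1_upper (hg : Good f f1 f2 f3 U V W B κ) (a : Y → Fin 1 → ι → ℝ) (ha : Unit1 a)
    (hq : q ∈ Ico (0 : ℝ) 1) (u : Y → ℝ) :
    T f a lse u ≤ lse u + rsA f q
      + rsTau f f1 q / 2 * (q - avgC u fun y z => dot (a y 0) (a z 0)) := by
  have he := ends1 ha hq
  refine (end_le he hg.pot hg.bd (4 * exp (8 * B) * (V * U ^ 2 + U ^ 4)) u fun K hK => ?_).trans ?_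
  · have : NeZero K := ⟨hK.ne'⟩
    exact vec_tangent hg (by simp) (cop_path he K) (fun p l l' => by simp [cop_D he]) _
  · rw [mainE_one hg]
    have hV : 0 ≤ V := (abs_nonneg _).trans (hg.pot.b2 0)
    have hS : 0 ≤ avgC u fun y z => (dot (a y 0) (a z 0) - q) ^ 2 := Finset.sum_nonneg fun y _ =>
      Finset.sum_nonneg fun z _ => mul_nonneg (mul_nonneg (gw_nonneg u y) (gw_nonneg u z)) (sq_nonneg _)
    linarith [mul_nonneg (by positivity : 0 ≤ 4 * exp (8 * B) * (V * U ^ 2 + U ^ 4)) hS]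

theorem row1_lower (hg : Good f f1 f2 f3 U V W B κ) (a : Y → Fin 1 → ι → ℝ) (ha : Unit1 a)
    (hq : q ∈ Ico (0 : ℝ) 1) (u : Y → ℝ) :
    lse u + rsA f q + rsTau f f1 q / 2 * (q - avgC u fun y z => dot (a y 0) (a z 0))
      - K1 U V B * avgC u (fun y z => (dot (a y 0) (a z 0) - q) ^ 2) ≤ T f a lse u := by
  have he := ends1 ha hq
  rw [← mainE_one hg]
  refine end_ge he hg.pot hg.bd _ u fun K hK => ?_
  have : NeZero K := ⟨hK.ne'⟩
  exact vec_second hg (by simp) (cop_path he K) (fun p l l' => by simp [cop_D he]) _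

/-- Pair of systems: cross overlaps compared with `q` and `ρ q`, the overlap inside a pair free. -/
theorem row2_upper (hg : Good f f1 f2 f3 U V W B κ) (a : Y → Fin 2 → ι → ℝ) (ha : Unit1 a)
    (hq : q ∈ Ico (0 : ℝ) 1) {ρ : ℝ} (hρ : ρ ∈ Icc (-1 : ℝ) 1)
    (hR : ∀ y, |dot (a y 0) (a y 1) - ρ * q| ≤ 1 - q) (u : Y → ℝ) :
    T f a lse u ≤ lse u + 2 * rsA f q
      + avgI u (fun y => tauP f f1 q ρ * (dot (a y 0) (a y 1) - ρ * q)
          + K2 U V B * (dot (a y 0) (a y 1) - ρ * q) ^ 2)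
      - rsTau f f1 q / 2 * (avgC u (fun y z => dot (a y 0) (a z 0)) - q)
      - rsTau f f1 q / 2 * (avgC u (fun y z => dot (a y 1) (a z 1)) - q)
      - tauP f f1 q ρ * (avgC u (fun y z => dot (a y 0) (a z 1)) - ρ * q) := by
  have hp := hg.pot
  have hB := hg.bd
  have he := ends2 ha hq hρ hR
  set μ := 4 * exp (8 * B) * (V * U ^ 2 + U ^ 4) with hμ
  refine (end_le he hp hB μ u fun K hK => ?_).trans ?_
  · have : NeZero K := ⟨hK.ne'⟩
    exact vec_tangent hg (by simp) (cop_path he K) (fun p l l' => by simp [cop_D he]) _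
  set S := avgC u fun y y' => ∑ l, ∑ l', Dst q a (b2m ρ) y l y' l' ^ 2 with hS
  set X : ℝ → ℝ → ℝ := fun x y => Fz f f1 q x * Fz f f1 q y
  set Ld : ℝ := avgI u fun y => dot (a y 0) (a y 1) - ρ * q with hLd
  set Q2 : ℝ := avgI u fun y => K2 U V B * (dot (a y 0) (a y 1) - ρ * q) ^ 2 with hQ2
  set C00 := avgC u (fun y z => dot (a y 0) (a z 0)) - q with h00
  set C11 := avgC u (fun y z => dot (a y 1) (a z 1)) - q with h11
  set C01 := avgC u (fun y z => dot (a y 0) (a z 1)) - ρ * q with h01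
  set l0 : (Fin 2 → ℝ) → ℝ := fun z => log (cav (fun s => exp (f s)) q (z 0))
  set l1 : (Fin 2 → ℝ) → ℝ := fun z => log (cav (fun s => exp (f s)) q (zsnd ρ z))
  set Ψ : (Fin 2 → ℝ) → ℝ := fun z => l0 z + l1 z
    + (Fz f f1 q (z 0) * Fz f f1 q (zsnd ρ z)) * (Ld - C01) - Fz f f1 q (z 0) ^ 2 * (C00 / 2)
    - Fz f f1 q (zsnd ρ z) ^ 2 * (C11 / 2) + Q2 with hΨ
  have hρ2 : ρ ^ 2 ≤ 1 := (sq_le_one_iff_abs_le_one _).2 (abs_le.2 hρ)
  have hpt : ∀ z, log (Zb f q (b2m ρ) (c2m q ρ a) u z)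
      - 1 / 2 * Qb f f1 q a (b2m ρ) (c2m q ρ a) u z - μ * S ≤ Ψ z := fun z => by
    refine (pair_at hp hB ha hq hρ hR u z).trans_eq ?_
    have hD : ∀ y y', Dst q a (b2m ρ) y 0 y' 0 = dot (a y 0) (a y' 0) - q ∧
        Dst q a (b2m ρ) y 0 y' 1 = dot (a y 0) (a y' 1) - ρ * q ∧
        Dst q a (b2m ρ) y 1 y' 0 = dot (a y' 0) (a y 1) - ρ * q ∧
        Dst q a (b2m ρ) y 1 y' 1 = dot (a y 1) (a y' 1) - q := fun y y' => by
      have hs := Real.mul_self_sqrt (sub_nonneg.2 hρ2)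
      refine ⟨?_, ?_, ?_, ?_⟩ <;> simp [Dst, b2m, dot, Fin.sum_univ_two, mul_comm]
      linear_combination q * hs
    have eI : avgI u (fun y => (dot (a y 0) (a y 1) - ρ * q) * (Fz f f1 q (z 0) * Fz f f1 q (zsnd ρ z))
        + K2 U V B * (dot (a y 0) (a y 1) - ρ * q) ^ 2)
        = Fz f f1 q (z 0) * Fz f f1 q (zsnd ρ z) * Ld + Q2 := by
      simp only [hLd, hQ2, avgI, Finset.mul_sum, ← Finset.sum_add_distrib]
      exact Finset.sum_congr rfl fun y _ => by ring
    have eC : avgC u (fun y y' => ∑ l, ∑ l', Dst q a (b2m ρ) y l y' l' * (F0 f f1 q ρ z l * F0 f f1 q ρ z l'))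
        = Fz f f1 q (z 0) ^ 2 * C00 + 2 * (Fz f f1 q (z 0) * Fz f f1 q (zsnd ρ z)) * C01
          + Fz f f1 q (zsnd ρ z) ^ 2 * C11 := by
      have hw : ∀ (x : ℝ) (G : Y → Y → ℝ), avgC u (fun y y' => G y y' - x) = avgC u G - x := fun x G => by
        simp only [avgC, mul_sub, Finset.sum_sub_distrib, ← Finset.sum_mul, ← Finset.mul_sum, sum_gw]
        simp
      have hT : avgC u (fun y y' => dot (a y' 0) (a y 1) - ρ * q) = C01 := by
        rw [hw, h01]
        congr 1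
        simp only [avgC]
        rw [Finset.sum_comm]
        exact Finset.sum_congr rfl fun y _ => Finset.sum_congr rfl fun y' _ => by ring
      have t00 := hw q fun y y' => dot (a y 0) (a y' 0)
      have t11 := hw q fun y y' => dot (a y 1) (a y' 1)
      have t01 := hw (ρ * q) fun y y' => dot (a y 0) (a y' 1)
      rw [h00, h11, ← t00, ← t11, two_mul, add_mul]
      conv_rhs => enter [1, 2, 2]; rw [← hT]
      rw [h01, ← t01]
      simp only [avgC, Fin.sum_univ_two, hD, F0, Matrix.cons_val_zero, Matrix.cons_val_one,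
        Finset.mul_sum, ← Finset.sum_add_distrib]
      exact Finset.sum_congr rfl fun y _ => Finset.sum_congr rfl fun y' _ => by ring
    simp only [hΨ, l0, l1, eI, eC]
    ring
  have hzc : Continuous (zsnd ρ) := by unfold zsnd; fun_prop
  have hl := logcav_props hp hB q
  have hFc := continuous_Fz hp hB q
  have hFb : ∀ t, |Fz f f1 q t| ≤ U := fun t => cav_ratio_le hp hB q t
  have hU : 0 ≤ U := (abs_nonneg _).trans (hFb 0)
  have hp2 : ∀ x y, |Fz f f1 q x * Fz f f1 q y| ≤ U * U := fun x y => by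
    rw [abs_mul]; exact mul_le_mul (hFb _) (hFb _) (abs_nonneg _) hU
  have i0 : Integrable l0 (gauss (Fin 2)) :=
    Vale.Agent.P150.integrable_gauss_bound (hl.1.comp (continuous_apply 0)) fun z => hl.2 _
  have i1 : Integrable l1 (gauss (Fin 2)) :=
    Vale.Agent.P150.integrable_gauss_bound (hl.1.comp hzc) fun z => hl.2 _
  have i01 : Integrable (fun z => Fz f f1 q (z 0) * Fz f f1 q (zsnd ρ z)) (gauss (Fin 2)) :=
    Vale.Agent.P150.integrable_gauss_bound ((hFc.comp (continuous_apply 0)).mul (hFc.comp hzc))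
      fun z => hp2 _ _
  have i00 : Integrable (fun z : Fin 2 → ℝ => Fz f f1 q (z 0) ^ 2) (gauss (Fin 2)) :=
    Vale.Agent.P150.integrable_gauss_bound ((hFc.comp (continuous_apply 0)).pow 2) fun z => by
      show |Fz f f1 q (z 0) ^ 2| ≤ U * U
      rw [sq]; exact hp2 _ _
  have i11 : Integrable (fun z => Fz f f1 q (zsnd ρ z) ^ 2) (gauss (Fin 2)) :=
    Vale.Agent.P150.integrable_gauss_bound ((hFc.comp hzc).pow 2) fun z => by
      show |Fz f f1 q (zsnd ρ z) ^ 2| ≤ U * U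
      rw [sq]; exact hp2 _ _
  have hza : ∀ G : ℝ → ℝ, Continuous G → ∫ z : Fin 2 → ℝ, G (z 0) ∂gauss (Fin 2)
      = ∫ t, G t ∂gaussianReal 0 1 := fun G hG => by
    rw [← integral_dot (β := ![(1 : ℝ), 0]) (by simp [dot, Fin.sum_univ_two]) hG]
    simp [dot, Fin.sum_univ_two]
  have hzb : ∀ G : ℝ → ℝ, Continuous G → ∫ z : Fin 2 → ℝ, G (zsnd ρ z) ∂gauss (Fin 2)
      = ∫ t, G t ∂gaussianReal 0 1 := fun G hG => by
    rw [← integral_dot (β := b2m ρ 1) (he.hb 1) hG]
    simp [dot, b2m, zsnd, Fin.sum_univ_two]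
  have eA0 : ∫ z, l0 z ∂gauss (Fin 2) = rsA f q :=
    hza (fun t => log (cav (fun s => exp (f s)) q t)) hl.1
  have eA1 : ∫ z, l1 z ∂gauss (Fin 2) = rsA f q :=
    hzb (fun t => log (cav (fun s => exp (f s)) q t)) hl.1
  have eT0 : ∫ z : Fin 2 → ℝ, Fz f f1 q (z 0) ^ 2 ∂gauss (Fin 2) = rsTau f f1 q :=
    hza (fun t => Fz f f1 q t ^ 2) (hFc.pow 2)
  have eT1 : ∫ z, Fz f f1 q (zsnd ρ z) ^ 2 ∂gauss (Fin 2) = rsTau f f1 q :=
    hzb (fun t => Fz f f1 q t ^ 2) (hFc.pow 2)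
  have eP : ∫ z, Fz f f1 q (z 0) * Fz f f1 q (zsnd ρ z) ∂gauss (Fin 2) = tauP f f1 q ρ := by
    simp only [zsnd]
    exact integral_two (F := fun x y => Fz f f1 q x * Fz f f1 q (ρ * x + √(1 - ρ ^ 2) * y))
  have j1 : Integrable (fun z => l0 z + l1 z) (gauss (Fin 2)) := i0.add i1
  have j2 := i01.mul_const (Ld - C01)
  have j3 := i00.mul_const (C00 / 2)
  have j4 := i11.mul_const (C11 / 2)
  have j5 : Integrable (fun z => l0 z + l1 z + Fz f f1 q (z 0) * Fz f f1 q (zsnd ρ z) * (Ld - C01))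
      (gauss (Fin 2)) := j1.add j2
  have j6 : Integrable (fun z => l0 z + l1 z + Fz f f1 q (z 0) * Fz f f1 q (zsnd ρ z) * (Ld - C01)
      - Fz f f1 q (z 0) ^ 2 * (C00 / 2)) (gauss (Fin 2)) := j5.sub j3
  have j7 : Integrable (fun z => l0 z + l1 z + Fz f f1 q (z 0) * Fz f f1 q (zsnd ρ z) * (Ld - C01)
      - Fz f f1 q (z 0) ^ 2 * (C00 / 2) - Fz f f1 q (zsnd ρ z) ^ 2 * (C11 / 2)) (gauss (Fin 2)) := j6.sub j4
  have iΨ : Integrable Ψ (gauss (Fin 2)) := j7.add (integrable_const Q2)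
  have eΨ : ∫ z, Ψ z ∂gauss (Fin 2) = 2 * rsA f q + tauP f f1 q ρ * (Ld - C01)
      - rsTau f f1 q * (C00 / 2) - rsTau f f1 q * (C11 / 2) + Q2 := by
    simp only [hΨ]
    rw [integral_add j7 (integrable_const _), integral_sub j6 j4, integral_sub j5 j3,
      integral_add j1 j2, integral_add i0 i1, integral_mul_const, integral_mul_const,
      integral_mul_const, eA0, eA1, eT0, eT1, eP]
    simp
    ring
  have hmain : ∫ z, (log (Zb f q (b2m ρ) (c2m q ρ a) u z)
      - 1 / 2 * Qb f f1 q a (b2m ρ) (c2m q ρ a) u z) ∂gauss (Fin 2) ≤ ∫ z, (Ψ z + μ * S) ∂gauss (Fin 2) := by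
    refine integral_mono ?_ (iΨ.add (integrable_const _)) fun z => ?_
    · exact integrable_main he hp hB u
    · have := hpt z; simp only; linarith
  rw [integral_add iΨ (integrable_const _), eΨ] at hmain
  simp only [integral_const, probReal_univ, one_smul] at hmain
  have eR : avgI u (fun y => tauP f f1 q ρ * (dot (a y 0) (a y 1) - ρ * q)
      + K2 U V B * (dot (a y 0) (a y 1) - ρ * q) ^ 2) = tauP f f1 q ρ * Ld + Q2 := by
    simp only [hLd, hQ2, avgI, Finset.mul_sum, ← Finset.sum_add_distrib]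
    exact Finset.sum_congr rfl fun y _ => by ring
  rw [mainE, eR]
  linarith

end P157.RS

end
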