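import Vale.Agent.P157.RS.Defs
import Vale.Agent.P157.Conc.RowBound

/-!
# P157, RS: the fixed point and the gain of the constrained pair bound
-/

noncomputable section

open MeasureTheory ProbabilityTheory Real Filter Topology Set
open scoped BigOperators

namespace P157.RS

open Vale.Agent.P150 (gauss)
open P157.Conc (rsTau lin cav pairG)

variable {f f1 f2 f3 : ℝ → ℝ} {U V W B κ α q : ℝ}

/-- The Lipschitz constant of the tilted cavity mean. -/
def V1 (U V B : ℝ) : ℝ := exp (2 * B) * (V + U ^ 2)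

namespace Good

variable (hg : Good f f1 f2 f3 U V W B κ)
include hg

lemma U_nonneg : 0 ≤ U := (abs_nonneg _).trans (hg.pot.b1 0)
lemma V_nonneg : 0 ≤ V := (abs_nonneg _).trans (hg.pot.b2 0)
lemma B_nonneg : 0 ≤ B := (abs_nonneg _).trans (hg.bd 0)
lemma V1_nonneg : 0 ≤ V1 U V B :=
  mul_nonneg (exp_pos _).le (add_nonneg hg.V_nonneg (sq_nonneg U))

lemma cont_f1exp : Continuous fun s => f1 s * exp (f s) := by
  have := hg.pot.cf; have := hg.pot.c1; fun_prop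

lemma cont_exp : Continuous fun s => exp (f s) := by
  have := hg.pot.cf; fun_prop

lemma abs_exp_le (s : ℝ) : |exp (f s)| ≤ exp B := by
  rw [abs_of_pos (exp_pos _)]; exact exp_le_exp.2 (abs_le.1 (hg.bd s)).2

lemma cav_pos (q z : ℝ) : 0 < cav (fun s => exp (f s)) q z :=
  (exp_pos _).trans_le (Conc.cav_exp_bounds hg.pot hg.bd q z).1

lemma abs_Fz_le (q z : ℝ) : |Fz f f1 q z| ≤ U := Conc.cav_ratio_le hg.pot hg.bd q z

lemma continuous_Fz (q : ℝ) : Continuous (Fz f f1 q) :=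
  (Conc.continuous_cav hg.cont_f1exp (fun s => Conc.abs_f1exp_le hg.pot hg.bd s) q).div
    (Conc.continuous_cav hg.cont_exp hg.abs_exp_le q) fun z => (hg.cav_pos q z).ne'

/-- Continuity of the conjugate overlap. -/
lemma continuous_rsTau : Continuous (rsTau f f1) := by
  have hc : ∀ (G : ℝ → ℝ), Continuous G → ∀ C, (∀ s, |G s| ≤ C) →
      Continuous fun x : ℝ × ℝ => cav G x.1 x.2 := fun G hG C hC =>
    continuous_of_dominated (fun x => (hG.comp (by fun_prop)).aestronglyMeasurable)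
      (fun x => ae_of_all _ fun ξ => hC _) (integrable_const C)
      (ae_of_all _ fun ξ => hG.comp (by fun_prop))
  have h2 : Continuous fun x : ℝ × ℝ => Fz f f1 x.1 x.2 :=
    (hc _ hg.cont_f1exp _ fun s => Conc.abs_f1exp_le hg.pot hg.bd s).div
      (hc _ hg.cont_exp _ hg.abs_exp_le) fun x => (hg.cav_pos _ _).ne'
  refine continuous_of_dominated (F := fun (q z : ℝ) => Fz f f1 q z ^ 2) (bound := fun _ => U ^ 2)
    (fun q => ((hg.continuous_Fz q).pow 2).aestronglyMeasurable)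
    (fun q => ae_of_all _ fun z => ?_) (integrable_const _)
    (ae_of_all _ fun z => (h2.comp (Continuous.prodMk continuous_id continuous_const)).pow 2)
  rw [norm_eq_abs, abs_pow]
  exact pow_le_pow_left₀ (abs_nonneg _) (hg.abs_Fz_le q z) 2

/-- The mean slope is nearly the mean of the tilted cavity mean. -/
lemma mean_Fz (hq : q ∈ Icc (0 : ℝ) 1) :
    |∫ s, f1 s ∂gaussianReal 0 1| - U * (exp (2 * B) - 1) ≤ |∫ z, Fz f f1 q z ∂gaussianReal 0 1| := by
  have hU := hg.U_nonneg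
  have hB := hg.B_nonneg
  have hc1 := hg.pot.c1
  have hi1 : ∀ z, Integrable (fun ξ => f1 (√q * z + √(1 - q) * ξ)) (gaussianReal 0 1) := fun z =>
    Integrable.of_bound (Continuous.aestronglyMeasurable (by fun_prop)) U (ae_of_all _ fun ξ => hg.pot.b1 _)
  -- the law of a cavity field is standard
  have hlaw : ∫ z, cav f1 q z ∂gaussianReal 0 1 = ∫ s, f1 s ∂gaussianReal 0 1 := by
    have h := Conc.integral_lin_eq (fun _ : Unit => ![√q, √(1 - q)]) (fun _ : Unit => fun _ : Unit => (1 : ℝ))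
      (fun _ _ => by simp [Fin.sum_univ_two, Real.mul_self_sqrt hq.1, Real.mul_self_sqrt (sub_nonneg.2 hq.2)])
      (H := fun v => f1 (v ())) (hc1.comp (continuous_apply ()))
    have h' : ∫ g, f1 (g ()) ∂gauss Unit = ∫ s, f1 s ∂gaussianReal 0 1 := Conc.integral_unit f1 hc1
    simp only [lin, Fin.sum_univ_two, Matrix.cons_val_zero, Matrix.cons_val_one, Fintype.sum_unique,
      one_mul] at h
    rw [h'] at h
    rw [← h]
    have hm := measurePreserving_finTwoArrow (gaussianReal 0 1)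
    have e : ∫ g, f1 (√q * g 0 + √(1 - q) * g 1) ∂gauss (Fin 2)
        = ∫ p : ℝ × ℝ, f1 (√q * p.1 + √(1 - q) * p.2) ∂(gaussianReal 0 1).prod (gaussianReal 0 1) := by
      rw [← hm.map_eq, integral_map_equiv]; rfl
    rw [e, integral_prod _ (Integrable.of_bound (Continuous.aestronglyMeasurable (by fun_prop)) U
      (ae_of_all _ fun p => hg.pot.b1 _))]
    rfl
  -- tilting moves the cavity mean by at most `U (e^{2B} - 1)`
  have hdiff : ∀ z, |Fz f f1 q z - cav f1 q z| ≤ U * (exp (2 * B) - 1) := by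
    intro z
    set P := cav (fun s => exp (f s)) q z
    have hP := Conc.cav_exp_bounds hg.pot hg.bd q z
    have hP0 : 0 < P := hg.cav_pos q z
    have hcf := hg.pot.cf
    have hi2 : Integrable (fun ξ => f1 (√q * z + √(1 - q) * ξ) * exp (f (√q * z + √(1 - q) * ξ)))
        (gaussianReal 0 1) :=
      Integrable.of_bound (Continuous.aestronglyMeasurable (by fun_prop)) (U * exp B)
        (ae_of_all _ fun ξ => Conc.abs_f1exp_le hg.pot hg.bd _)
    have e : cav (fun s => f1 s * exp (f s)) q z - cav f1 q z * P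
        = ∫ ξ, f1 (√q * z + √(1 - q) * ξ) * (exp (f (√q * z + √(1 - q) * ξ)) - P) ∂gaussianReal 0 1 := by
      simp only [mul_sub]
      rw [integral_sub hi2 ((hi1 z).mul_const P), integral_mul_const]
      rfl
    have hb : |cav (fun s => f1 s * exp (f s)) q z - cav f1 q z * P| ≤ U * (exp (2 * B) - 1) * P := by
      rw [e]
      rw [← Real.norm_eq_abs]
      refine (norm_integral_le_of_norm_le_const (C := U * (exp (2 * B) - 1) * P)
        (ae_of_all _ fun ξ => ?_)).trans_eq (by simp)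
      set s := √q * z + √(1 - q) * ξ
      rw [norm_eq_abs, abs_mul, mul_assoc]
      refine mul_le_mul (hg.pot.b1 _) ?_ (abs_nonneg _) hU
      have h1 : exp (-(2 * B)) * P ≤ exp (f s) := by
        calc exp (-(2 * B)) * P ≤ exp (-(2 * B)) * exp B := mul_le_mul_of_nonneg_left hP.2 (exp_pos _).le
          _ = exp (-B) := by rw [← exp_add]; ring_nf
          _ ≤ _ := exp_le_exp.2 (abs_le.1 (hg.bd s)).1
      have h2 : exp (f s) ≤ exp (2 * B) * P := by
        calc exp (f s) ≤ exp B := exp_le_exp.2 (abs_le.1 (hg.bd s)).2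
          _ = exp (2 * B) * exp (-B) := by rw [← exp_add]; ring_nf
          _ ≤ _ := mul_le_mul_of_nonneg_left hP.1 (exp_pos _).le
      have h3 : 1 - exp (-(2 * B)) ≤ exp (2 * B) - 1 := by
        have := add_one_le_exp (-(2 * B)); have := add_one_le_exp (2 * B); linarith
      rw [abs_le]
      constructor <;> nlinarith
    rw [show Fz f f1 q z - cav f1 q z
      = (cav (fun s => f1 s * exp (f s)) q z - cav f1 q z * P) / P by
        rw [Fz, sub_div, mul_div_cancel_right₀ _ hP0.ne'], abs_div, abs_of_pos hP0, div_le_iff₀ hP0]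
    exact hb
  have hiF : Integrable (Fz f f1 q) (gaussianReal 0 1) :=
    Integrable.of_bound (hg.continuous_Fz q).aestronglyMeasurable U (ae_of_all _ fun z => hg.abs_Fz_le q z)
  have hic : Integrable (cav f1 q) (gaussianReal 0 1) :=
    Integrable.of_bound (Conc.continuous_cav hc1 hg.pot.b1 q).aestronglyMeasurable U
      (ae_of_all _ fun z => (norm_integral_le_of_norm_le_const (ae_of_all _ fun ξ => hg.pot.b1 _)).trans_eq
        (by simp))
  have h3 : |(∫ z, Fz f f1 q z ∂gaussianReal 0 1) - ∫ z, cav f1 q z ∂gaussianReal 0 1|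
      ≤ U * (exp (2 * B) - 1) := by
    rw [← integral_sub hiF hic]
    rw [← Real.norm_eq_abs]
    refine (norm_integral_le_of_norm_le_const (C := U * (exp (2 * B) - 1))
      (ae_of_all _ fun z => ?_)).trans_eq (by simp)
    exact hdiff z
  rw [hlaw] at h3
  have := abs_sub_abs_le_abs_sub (∫ s, f1 s ∂gaussianReal 0 1) (∫ z, Fz f f1 q z ∂gaussianReal 0 1)
  rw [abs_sub_comm] at h3
  linarith

/-- The conjugate overlap dominates the curvature. -/
lemma rsTau_ge (hq : q ∈ Icc (0 : ℝ) 1) :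
    64 * V1 U V B ^ 2 ≤ rsTau f f1 q ∧ 0 < rsTau f f1 q := by
  have hU := hg.U_nonneg
  have hV := hg.V_nonneg
  have hm := hg.mean_Fz hq
  have hs := hg.slope
  set m := ∫ z, Fz f f1 q z ∂gaussianReal 0 1
  have hF : MemLp (Fz f f1 q) 2 (gaussianReal 0 1) :=
    MemLp.of_bound (hg.continuous_Fz q).aestronglyMeasurable U (ae_of_all _ fun z => hg.abs_Fz_le q z)
  have hsq : m ^ 2 ≤ rsTau f f1 q := by
    have := ProbabilityTheory.variance_eq_sub hF
    have h0 := ProbabilityTheory.variance_nonneg (Fz f f1 q) (gaussianReal 0 1)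
    simp only [Pi.pow_apply] at this
    have e : rsTau f f1 q = ∫ z, Fz f f1 q z ^ 2 ∂gaussianReal 0 1 := rfl
    rw [e]
    linarith
  have h8 : 8 * V1 U V B ≤ |m| := by
    simp only [V1]; linarith
  have hpos : 0 < |m| := by
    rcases eq_or_lt_of_le hg.V1_nonneg with h | h
    · by_contra hne
      have hm0 : |m| = 0 := le_antisymm (not_lt.1 hne) (abs_nonneg _)
      have hUV : V + U ^ 2 = 0 := (mul_eq_zero.1 h.symm).resolve_left (exp_pos _).ne'
      have hU0 : U = 0 := by nlinarith [sq_nonneg U]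
      have : |∫ s, f1 s ∂gaussianReal 0 1| ≤ 0 := by
        rw [hm0, hU0] at hm; linarith
      exact hg.slope0 (abs_nonpos_iff.1 this)
    · linarith
  have h9 : (8 * V1 U V B) ^ 2 ≤ m ^ 2 := by
    rw [← sq_abs m]; exact pow_le_pow_left₀ (by linarith [hg.V1_nonneg]) h8 2
  refine ⟨by linarith, lt_of_lt_of_le ?_ hsq⟩
  rw [← sq_abs m]; positivity

lemma lip_Fz (hq : q ∈ Icc (0 : ℝ) 1) (z z' : ℝ) :
    |Fz f f1 q z - Fz f f1 q z'| ≤ √q * V1 U V B * |z - z'| := by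
  have hU := hg.U_nonneg
  have key : ∀ (G : ℝ → ℝ) (C A : ℝ), Continuous G → (∀ s, |G s| ≤ A) →
      (∀ s t, |G s - G t| ≤ C * |s - t|) → |cav G q z - cav G q z'| ≤ C * (√q * |z - z'|) := by
    intro G C A hG hA hC
    have hi : ∀ z, Integrable (fun ξ => G (√q * z + √(1 - q) * ξ)) (gaussianReal 0 1) := fun z =>
      Integrable.of_bound (hG.comp (by fun_prop)).aestronglyMeasurable A (ae_of_all _ fun ξ => hA _)
    rw [cav, cav, ← integral_sub (hi z) (hi z')]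
    rw [← Real.norm_eq_abs]
    refine (norm_integral_le_of_norm_le_const (C := C * (√q * |z - z'|))
      (ae_of_all _ fun ξ => ?_)).trans_eq (by simp)
    rw [Real.norm_eq_abs]
    refine (hC _ _).trans_eq ?_
    rw [show √q * z + √(1 - q) * ξ - (√q * z' + √(1 - q) * ξ) = √q * (z - z') by ring, abs_mul,
      abs_of_nonneg (Real.sqrt_nonneg _)]
  have hA := key _ _ _ hg.cont_f1exp (fun s => Conc.abs_f1exp_le hg.pot hg.bd s)
    (Conc.lip_f1exp hg.pot hg.bd)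
  have hP := key _ _ _ hg.cont_exp hg.abs_exp_le (Conc.lip_exp hg.pot hg.bd)
  set A := cav (fun s => f1 s * exp (f s)) q z
  set A' := cav (fun s => f1 s * exp (f s)) q z'
  set P := cav (fun s => exp (f s)) q z
  set P' := cav (fun s => exp (f s)) q z'
  have hPp : 0 < P := hg.cav_pos q z
  have hPp' : 0 < P' := hg.cav_pos q z'
  have e : A / P - A' / P' = ((A - A') - A' / P' * (P - P')) / P := by field_simp; ring
  show |A / P - A' / P'| ≤ _
  rw [e, abs_div, abs_of_pos hPp, div_le_iff₀ hPp]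
  have h1 : |A - A' - A' / P' * (P - P')| ≤ (V + U * U) * exp B * (√q * |z - z'|) := by
    refine (abs_sub _ _).trans ?_
    rw [abs_mul]
    have := mul_le_mul (hg.abs_Fz_le q z') hP (abs_nonneg _) hU
    simp only [Fz] at this
    linarith
  refine h1.trans ?_
  have h2 : exp B ≤ exp (2 * B) * P := by
    calc exp B = exp (2 * B) * exp (-B) := by rw [← exp_add]; ring_nf
      _ ≤ _ := mul_le_mul_of_nonneg_left (Conc.cav_exp_bounds hg.pot hg.bd q z).1 (exp_pos _).le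
  have h3 : 0 ≤ (V + U * U) * (√q * |z - z'|) :=
    mul_nonneg (add_nonneg hg.V_nonneg (mul_self_nonneg U))
      (mul_nonneg (Real.sqrt_nonneg _) (abs_nonneg _))
  calc (V + U * U) * exp B * (√q * |z - z'|) = (V + U * U) * (√q * |z - z'|) * exp B := by ring
    _ ≤ (V + U * U) * (√q * |z - z'|) * (exp (2 * B) * P) := mul_le_mul_of_nonneg_left h2 h3
    _ = _ := by simp only [V1]; ring

omit hg in
lemma tauP_one : tauP f f1 q 1 = rsTau f f1 q := by
  simp only [tauP, pairG, one_mul, one_pow, sub_self, Real.sqrt_zero, zero_mul, add_zero]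
  rw [integral_fun_fst (f := fun s => Fz f f1 q s * Fz f f1 q s)]
  simp [rsTau, Fz, sq]

/-- Two cavity fields of correlation `ρ`. -/
lemma tauP_lower (hq : q ∈ Icc (0 : ℝ) 1) {ρ : ℝ} (hρ : ρ ∈ Icc (-1 : ℝ) 1) :
    rsTau f f1 q - q * V1 U V B ^ 2 * (1 - ρ) ≤ tauP f f1 q ρ ∧ |tauP f f1 q ρ| ≤ rsTau f f1 q := by
  set s := √(1 - ρ ^ 2)
  have hs : s ^ 2 = 1 - ρ ^ 2 := Real.sq_sqrt (by nlinarith [hρ.1, hρ.2])
  set γ2 := (gaussianReal 0 1).prod (gaussianReal 0 1)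
  set F := Fz f f1 q
  have hFc := hg.continuous_Fz q
  have hFb := hg.abs_Fz_le q
  have hU := hg.U_nonneg
  have hp : ∀ (a b : ℝ × ℝ → ℝ), Continuous a → Continuous b →
      Integrable (fun p => F (a p) * F (b p)) γ2 := fun a b ha hb =>
    Integrable.of_bound ((hFc.comp ha).mul (hFc.comp hb)).aestronglyMeasurable (U * U)
      (ae_of_all _ fun p => by
        rw [norm_eq_abs, abs_mul]; exact mul_le_mul (hFb _) (hFb _) (abs_nonneg _) hU)
  have hA : ∫ p, F p.1 * F p.1 ∂γ2 = rsTau f f1 q := by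
    rw [integral_fun_fst (f := fun s => F s * F s)]
    simp [rsTau, F, Fz, sq]
  have hBB : ∫ p, F (ρ * p.1 + s * p.2) * F (ρ * p.1 + s * p.2) ∂γ2 = rsTau f f1 q := by
    set b : Bool → Fin 2 → ℝ := fun _ => ![ρ, s]
    have hb : ∀ x, ∑ i, b x i ^ 2 = 1 := fun x => by simp [b, Fin.sum_univ_two, hs]
    have h := (Conc.integral_pair (G := fun x _ => F x * F x) ((hFc.comp continuous_fst).mul
      (hFc.comp continuous_fst)) b hb false false).2
    rw [integral_fun_fst (f := fun s => F s * F s)] at h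
    have hm := measurePreserving_finTwoArrow (gaussianReal 0 1)
    have e : ∫ g, F (lin b g false) * F (lin b g false) ∂gauss (Fin 2)
        = ∫ p : ℝ × ℝ, F (ρ * p.1 + s * p.2) * F (ρ * p.1 + s * p.2) ∂γ2 := by
      simp only [γ2]
      rw [← hm.map_eq, integral_map_equiv, show gauss (Fin 2) = Measure.pi fun _ : Fin 2 => gaussianReal 0 1
        from rfl]
      simp [lin, b, Fin.sum_univ_two, MeasurableEquiv.finTwoArrow]
    rw [e] at h
    rw [h]
    simp [rsTau, F, Fz, sq]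
  have i11 := hp (fun p => p.1) (fun p => p.1) continuous_fst continuous_fst
  have i22 := hp (fun p => ρ * p.1 + s * p.2) (fun p => ρ * p.1 + s * p.2) (by fun_prop) (by fun_prop)
  have i12 := hp (fun p => p.1) (fun p => ρ * p.1 + s * p.2) continuous_fst (by fun_prop)
  have hC : ∫ p, F p.1 * F (ρ * p.1 + s * p.2) ∂γ2 = tauP f f1 q ρ := rfl
  refine ⟨?_, abs_le.2 ⟨?_, ?_⟩⟩
  · have hsq1 : Integrable (fun x : ℝ => x ^ 2) (gaussianReal 0 1) :=
      (memLp_id_gaussianReal' 2 ENNReal.ofNat_ne_top).integrable_sq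
    have hid : Integrable (fun x : ℝ => x) (gaussianReal 0 1) :=
      (memLp_id_gaussianReal 1).integrable le_rfl
    have hone : ∫ x, x ^ 2 ∂gaussianReal 0 1 = 1 := by
      have := variance_eq_integral (μ := gaussianReal 0 1) measurable_id.aemeasurable
      simpa [variance_id_gaussianReal, integral_id_gaussianReal] using this.symm
    have j1 : Integrable (fun p : ℝ × ℝ => p.1 ^ 2) γ2 := hsq1.comp_fst _
    have j2 : Integrable (fun p : ℝ × ℝ => p.2 ^ 2) γ2 := hsq1.comp_snd _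
    have j12 : Integrable (fun p : ℝ × ℝ => p.1 * p.2) γ2 := hid.mul_prod hid
    have hd : Integrable (fun p : ℝ × ℝ => (1 - ρ) ^ 2 * p.1 ^ 2 + s ^ 2 * p.2 ^ 2
        - 2 * (1 - ρ) * s * (p.1 * p.2)) γ2 :=
      ((j1.const_mul _).add (j2.const_mul _)).sub (j12.const_mul _)
    have hkey : ∫ p, (F p.1 * F p.1 + F (ρ * p.1 + s * p.2) * F (ρ * p.1 + s * p.2)
          - 2 * (F p.1 * F (ρ * p.1 + s * p.2))) ∂γ2
        ≤ ∫ p, q * V1 U V B ^ 2 * ((1 - ρ) ^ 2 * p.1 ^ 2 + s ^ 2 * p.2 ^ 2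
          - 2 * (1 - ρ) * s * (p.1 * p.2)) ∂γ2 := by
      refine integral_mono ((i11.add i22).sub (i12.const_mul 2)) (hd.const_mul _) fun p => ?_
      have h := hg.lip_Fz hq p.1 (ρ * p.1 + s * p.2)
      have h2 := pow_le_pow_left₀ (abs_nonneg _) h 2
      rw [sq_abs, mul_pow, mul_pow, sq_abs, Real.sq_sqrt hq.1] at h2
      nlinarith
    have m1 : ∫ p, p.1 ^ 2 ∂γ2 = 1 := by
      simp only [γ2]; rw [integral_fun_fst (f := fun x : ℝ => x ^ 2)]; simp [hone]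
    have m2 : ∫ p, p.2 ^ 2 ∂γ2 = 1 := by
      simp only [γ2]; rw [integral_fun_snd (f := fun x : ℝ => x ^ 2)]; simp [hone]
    have m12 : ∫ p, p.1 * p.2 ∂γ2 = 0 := by
      simp only [γ2]
      rw [integral_prod_mul (fun x : ℝ => x) (fun x : ℝ => x)]
      simp [integral_id_gaussianReal]
    have hR : ∫ p, ((1 - ρ) ^ 2 * p.1 ^ 2 + s ^ 2 * p.2 ^ 2 - 2 * (1 - ρ) * s * (p.1 * p.2)) ∂γ2
        = (1 - ρ) ^ 2 + s ^ 2 := by
      have j3 : Integrable (fun p : ℝ × ℝ => (1 - ρ) ^ 2 * p.1 ^ 2 + s ^ 2 * p.2 ^ 2) γ2 :=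
        (j1.const_mul _).add (j2.const_mul _)
      rw [integral_sub j3 (j12.const_mul _), integral_add (j1.const_mul _) (j2.const_mul _),
        integral_const_mul, integral_const_mul, integral_const_mul, m1, m2, m12]
      ring
    have i3 : Integrable (fun p : ℝ × ℝ =>
        F p.1 * F p.1 + F (ρ * p.1 + s * p.2) * F (ρ * p.1 + s * p.2)) γ2 := i11.add i22
    rw [integral_const_mul, hR, hs, integral_sub i3 (i12.const_mul 2),
      integral_add i11 i22, integral_const_mul, hA, hBB, hC] at hkey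
    linarith
  · have : 0 ≤ ∫ p, (F p.1 * F p.1 + F (ρ * p.1 + s * p.2) * F (ρ * p.1 + s * p.2)
        + 2 * (F p.1 * F (ρ * p.1 + s * p.2))) ∂γ2 := integral_nonneg fun p => by
      show (0 : ℝ) ≤ _
      nlinarith [sq_nonneg (F p.1 + F (ρ * p.1 + s * p.2))]
    have i3 : Integrable (fun p : ℝ × ℝ =>
        F p.1 * F p.1 + F (ρ * p.1 + s * p.2) * F (ρ * p.1 + s * p.2)) γ2 := i11.add i22
    rw [integral_add i3 (i12.const_mul 2), integral_add i11 i22, integral_const_mul, hA, hBB,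
      hC] at this
    linarith
  · have : 0 ≤ ∫ p, (F p.1 * F p.1 + F (ρ * p.1 + s * p.2) * F (ρ * p.1 + s * p.2)
        - 2 * (F p.1 * F (ρ * p.1 + s * p.2))) ∂γ2 := integral_nonneg fun p => by
      show (0 : ℝ) ≤ _
      nlinarith [sq_nonneg (F p.1 - F (ρ * p.1 + s * p.2))]
    have i3 : Integrable (fun p : ℝ × ℝ =>
        F p.1 * F p.1 + F (ρ * p.1 + s * p.2) * F (ρ * p.1 + s * p.2)) γ2 := i11.add i22
    rw [integral_sub i3 (i12.const_mul 2), integral_add i11 i22, integral_const_mul, hA, hBB,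
      hC] at this
    linarith

lemma V_sq_ge : 32 * exp (8 * B) * (V * U ^ 2 + U ^ 4) ≤ V ^ 2 := by
  have hV := hg.V_nonneg
  have hk := hg.low 0 (by constructor <;> norm_num)
  have hb : Conc.pairK f1 f2 0 ≤ V ^ 2 := by
    refine (le_abs_self _).trans ?_
    rw [← Real.norm_eq_abs]
    refine (norm_integral_le_of_norm_le_const (C := V ^ 2) (ae_of_all _ fun p => ?_)).trans_eq (by simp)
    rw [norm_eq_abs, abs_mul]
    exact (mul_le_mul (hg.pot.b2 _) (hg.pot.b2 _) (abs_nonneg _) hV).trans_eq (sq V).symm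
  have he : 0 ≤ (exp (8 * B) - 1) * V ^ 2 :=
    mul_nonneg (sub_nonneg.2 (one_le_exp (by linarith [hg.B_nonneg]))) (sq_nonneg V)
  linarith [hg.crit]

lemma K2_le (hq : q ∈ Icc (0 : ℝ) 1) : 0 ≤ K2 U V B ∧ 64 * K2 U V B ≤ rsTau f f1 q := by
  have h := (hg.rsTau_ge hq).1
  have hV := hg.V_nonneg
  have h1 : (exp (2 * B) * V) ^ 2 ≤ V1 U V B ^ 2 :=
    pow_le_pow_left₀ (mul_nonneg (exp_pos _).le hV)
      (mul_le_mul_of_nonneg_left (le_add_of_nonneg_right (sq_nonneg U)) (exp_pos _).le) 2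
  have e : exp (4 * B) * V ^ 2 = (exp (2 * B) * V) ^ 2 := by
    rw [mul_pow, sq (exp (2 * B)), ← exp_add]; ring_nf
  have h2 := hg.V_sq_ge
  have h3 : V ^ 2 ≤ exp (4 * B) * V ^ 2 :=
    le_mul_of_one_le_left (sq_nonneg V) (one_le_exp (by linarith [hg.B_nonneg]))
  have h4 : 0 ≤ exp (8 * B) * U ^ 2 * (V + U ^ 2) := by positivity
  have h5 : 0 ≤ exp (4 * B) * V ^ 2 := by positivity
  constructor
  · unfold K2; linarith
  · simp only [K2]; linarith

end Good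

theorem exists_fixed (hg : Good f f1 f2 f3 U V W B κ) (hα : 0 < α) :
    ∃ q ∈ Ioo (0 : ℝ) 1, q / (1 - q) ^ 2 = α * rsTau f f1 q := by
  have hc := hg.continuous_rsTau
  have h0 := (hg.rsTau_ge (q := 0) ⟨le_rfl, zero_le_one⟩).2
  obtain ⟨q, hq, he⟩ := intermediate_value_Ioo (zero_le_one' ℝ)
    (f := fun q => q - α * rsTau f f1 q * (1 - q) ^ 2) (by fun_prop)
    (show (0 : ℝ) ∈ Ioo _ _ by
      constructor
      · simp only [sub_zero, one_pow, mul_one, zero_sub, Left.neg_neg_iff]; positivity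
      · simp)
  refine ⟨q, hq, ?_⟩
  rw [div_eq_iff (pow_ne_zero _ (sub_pos.2 hq.2).ne')]
  linarith

/-- The Gaussian bound near its critical multiplier. -/
lemma site2_expand {lam ν ρ : ℝ} (hq : q ∈ Ico (0 : ℝ) 1) (hlam : lam = 1 / (1 - q))
    (hν : |ν| ≤ lam / 2) (hρ : ρ ∈ Icc (-1 : ℝ) 1) :
    site2 (q / (1 - q) ^ 2) ρ lam ν ≤ 2 * siteS q + ν * ρ * q + 3 * ν ^ 2 / lam := by
  have h1q : 0 < 1 - q := sub_pos.2 hq.2
  have hl1 : 1 ≤ lam := by rw [hlam, le_div_iff₀ h1q]; linarith [hq.1]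
  have hl0 : 0 < lam := by linarith
  have hr : q / (1 - q) ^ 2 = q * lam ^ 2 := by rw [hlam]; field_simp
  have hlm : lam - 1 = q * lam := by rw [hlam]; field_simp; ring
  have hS : 2 * siteS q = q * lam + q * lam - log lam := by
    simp only [siteS, hlam, one_div, Real.log_inv]
    field_simp
    ring
  obtain ⟨x, rfl⟩ : ∃ x, ν = lam * x := ⟨ν / lam, by field_simp⟩
  have hx : |x| ≤ 1 / 2 := by
    rw [abs_mul, abs_of_pos hl0] at hν
    exact le_of_mul_le_mul_left (by linarith) hl0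
  have hx2 : x ^ 2 ≤ 1 / 4 := by nlinarith [sq_abs x, abs_nonneg x]
  have hD : 0 < 1 - x ^ 2 := by linarith
  have e : lam ^ 2 - (lam * x) ^ 2 = lam ^ 2 * (1 - x ^ 2) := by ring
  rw [site2, hr, e, Real.log_mul (by positivity) hD.ne', Real.log_pow]
  have e2 : q * lam ^ 2 * (lam + lam * x * ρ) / (lam ^ 2 * (1 - x ^ 2))
      = q * lam * ((1 + x * ρ) / (1 - x ^ 2)) := by field_simp
  have hlog : -log (1 - x ^ 2) ≤ 4 / 3 * x ^ 2 := by
    rw [← Real.log_inv]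
    refine (Real.log_le_sub_one_of_pos (inv_pos.2 hD)).trans ?_
    rw [sub_le_iff_le_add, inv_le_iff_one_le_mul₀ hD]
    nlinarith [mul_nonneg (sq_nonneg x) (show (0 : ℝ) ≤ 1 / 4 - x ^ 2 by linarith)]
  have hfr : (1 + x * ρ) / (1 - x ^ 2) ≤ 1 + x * ρ + 2 * x ^ 2 := by
    rw [div_le_iff₀ hD]
    have hxr : x * ρ ≤ 1 / 2 := by
      calc x * ρ ≤ |x| * |ρ| := by rw [← abs_mul]; exact le_abs_self _
        _ ≤ 1 / 2 * 1 := mul_le_mul hx (abs_le.2 hρ) (abs_nonneg _) (by norm_num)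
        _ = 1 / 2 := mul_one _
    nlinarith [mul_nonneg (sq_nonneg x) (show (0 : ℝ) ≤ 1 - x * ρ - 2 * x ^ 2 by linarith)]
  rw [e2]
  have h4 := mul_le_mul_of_nonneg_left hfr (mul_nonneg hq.1 hl0.le)
  have e3 : 3 * (lam * x) ^ 2 / lam = 3 * lam * x ^ 2 := by field_simp
  rw [e3, hS]
  have h5 : q * lam * x ^ 2 ≤ (lam - 1) * x ^ 2 := by rw [hlm]
  push_cast
  nlinarith [sq_nonneg x]

/-- The Gaussian bound for fields of correlation one. -/
lemma site2_one {lam ν : ℝ} (hq : q ∈ Ico (0 : ℝ) 1) (hlam : lam = 1 / (1 - q)) (hν : 0 ≤ ν) :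
    site2 (q / (1 - q) ^ 2) 1 (lam + ν) ν ≤ 2 * siteS q + ν * q + (ν / lam) ^ 2 := by
  have h1q : 0 < 1 - q := sub_pos.2 hq.2
  have hl0 : 0 < lam := by rw [hlam]; positivity
  have hr : q / (1 - q) ^ 2 = q * lam ^ 2 := by rw [hlam]; field_simp
  have hlm : lam - 1 = q * lam := by rw [hlam]; field_simp; ring
  have hS : 2 * siteS q = q * lam + q * lam - log lam := by
    simp only [siteS, hlam, one_div, Real.log_inv]
    field_simp
    ring
  obtain ⟨x, hx0, rfl⟩ : ∃ x, 0 ≤ x ∧ ν = lam * x := ⟨ν / lam, by positivity, by field_simp⟩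
  have e : (lam + lam * x) ^ 2 - (lam * x) ^ 2 = lam ^ 2 * (1 + 2 * x) := by ring
  rw [site2, e, Real.log_mul (by positivity) (by positivity), Real.log_pow, hr, hS]
  have e2 : q * lam ^ 2 * (lam + lam * x + lam * x * 1) / (lam ^ 2 * (1 + 2 * x)) = q * lam := by
    field_simp; ring
  have hlog : x - x ^ 2 ≤ log (1 + 2 * x) / 2 := by
    have h := Real.le_log_one_add_of_nonneg (show (0 : ℝ) ≤ 2 * x by linarith)
    have : 2 * x - 2 * x ^ 2 ≤ 2 * (2 * x) / (2 * x + 2) := by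
      rw [le_div_iff₀ (by positivity)]
      nlinarith [mul_nonneg (mul_nonneg hx0 hx0) hx0]
    linarith
  rw [e2, show lam * x / lam = x by field_simp]
  push_cast
  nlinarith

theorem tauP_bounds (hg : Good f f1 f2 f3 U V W B κ) (hq : q ∈ Ico (0 : ℝ) 1) {ρ : ℝ}
    (hρ : ρ ∈ Icc (-1 : ℝ) 1) :
    |tauP f f1 q ρ| ≤ rsTau f f1 q ∧ tauP f f1 q 1 = rsTau f f1 q :=
  ⟨(hg.tauP_lower ⟨hq.1, hq.2.le⟩ hρ).2, Good.tauP_one⟩

/-- The facts shared by the three cases of the gain. -/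
structure Facts (f f1 : ℝ → ℝ) (U V B α q lam : ℝ) : Prop where
  hα : 0 < α
  hq : q ∈ Ioo (0 : ℝ) 1
  hfix : q / (1 - q) ^ 2 = α * rsTau f f1 q
  hT : 0 < rsTau f f1 q
  hlam : lam = 1 / (1 - q)
  hl1 : 1 ≤ lam
  hlq : lam * (1 - q) = 1
  hK0 : 0 ≤ K2 U V B
  hαk : α * K2 U V B * 64 ≤ q * lam ^ 2

/-- Moving `R` away from the centre of its window. -/
lemma gain_move {lam k : ℝ} (hak : 0 ≤ α * k) {R R₀ ρ' s ν' p c X : ℝ} (hR : R ∈ Icc (-1 : ℝ) 1)
    (hR0 : R₀ ∈ Icc (-1 : ℝ) 1) (hp : |p| ≤ 1) (hs : s ∈ Icc (0 : ℝ) 1) (hν : |ν'| ≤ lam)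
    {τ : ℝ} (h : site2 (α * τ) ρ' X ν' - 2 * siteS q - ν' * R₀ + s * α * k * (R₀ - p) ^ 2
      ≤ -c * (R₀ - q) ^ 2) :
    s * α * k * (R - p) ^ 2 + site2 (α * τ) ρ' X ν' - 2 * siteS q - ν' * R
      ≤ -c * (R₀ - q) ^ 2 + (2 * lam + 4 * (α * k)) * |R - R₀| := by
  have hp' := abs_le.1 hp
  have h1 : (R - p) ^ 2 - (R₀ - p) ^ 2 ≤ 4 * |R - R₀| := by
    rw [show (R - p) ^ 2 - (R₀ - p) ^ 2 = (R + R₀ - 2 * p) * (R - R₀) by ring]
    refine (le_abs_self _).trans ?_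
    rw [abs_mul]
    exact mul_le_mul_of_nonneg_right
      (abs_le.2 ⟨by linarith [hR.1, hR0.1], by linarith [hR.2, hR0.2]⟩) (abs_nonneg _)
  have h2 : -(ν' * (R - R₀)) ≤ lam * |R - R₀| := by
    refine (neg_le_abs _).trans ?_
    rw [abs_mul]; exact mul_le_mul_of_nonneg_right hν (abs_nonneg _)
  have h3 := mul_le_mul_of_nonneg_left h1 (mul_nonneg hs.1 hak)
  have h4 := mul_le_mul_of_nonneg_right hs.2 (mul_nonneg hak (abs_nonneg (R - R₀)))
  have h5 : 0 ≤ lam * |R - R₀| := mul_nonneg ((abs_nonneg _).trans hν) (abs_nonneg _)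
  linarith

lemma neg_margin {q lam Δ dev : ℝ} (hq : q ∈ Ioo (0 : ℝ) 1) (hl1 : 1 ≤ lam)
    (hlq : lam * (1 - q) = 1) (hΔ : 0 ≤ Δ) (hΔ1 : Δ ≤ 1 - q) (hdev : Δ + q ≤ dev) :
    3 * q ^ 2 / 1024 + q * lam ^ 2 * Δ ^ 2 / 64 ≤ 5 / 64 * (lam * dev ^ 2) := by
  have hd : dev ^ 2 ≤ lam * dev ^ 2 := le_mul_of_one_le_left (sq_nonneg _) hl1
  have h2 : Δ ^ 2 + q ^ 2 ≤ dev ^ 2 := by
    have := pow_le_pow_left₀ (by linarith [hq.1] : (0 : ℝ) ≤ Δ + q) hdev 2
    nlinarith [mul_nonneg hΔ hq.1.le]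
  rcases lt_or_ge q (1 / 2) with hh | hh
  · have hl2 : lam ≤ 2 := by nlinarith
    have h3 : q * lam ^ 2 ≤ 4 := by nlinarith
    have h1 := mul_le_mul_of_nonneg_right h3 (sq_nonneg Δ)
    nlinarith
  · have h0 : lam * Δ ≤ 1 := (mul_le_mul_of_nonneg_left hΔ1 (by linarith)).trans_eq hlq
    have h1 : (lam * Δ) ^ 2 ≤ 1 := pow_le_one₀ (by positivity) h0
    have h1' := mul_le_mul_of_nonneg_left h1 hq.1.le
    nlinarith [sq_nonneg Δ]

lemma gain_neg (hg : Good f f1 f2 f3 U V W B κ) {lam : ℝ} (F : Facts f f1 U V B α q lam)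
    {R₀ : ℝ} (hR0 : R₀ ∈ Icc (-1 : ℝ) 1) (hC : R₀ < -q) :
    ∃ ρ ∈ Icc (-1 : ℝ) 1,
      (∀ R ∈ Icc (-1 : ℝ) 1, |R - R₀| ≤ 1 - q → |R - ρ * q| ≤ 1 - q) ∧
      ∀ s ∈ Icc (0 : ℝ) 1, ∃ l ν : ℝ,
        l ≤ 2 * lam + 4 * (α * K2 U V B) ∧ |ν| ≤ 2 * lam + 4 * (α * K2 U V B) ∧
        3 * q ^ 2 / 4096 ≤ l - |ν| ∧
        ∀ R ∈ Icc (-1 : ℝ) 1, |R - R₀| ≤ 1 - q →
          s * α * K2 U V B * (R - ρ * q) ^ 2
            + site2 (α * rsTau f f1 q) (s * (tauP f f1 q ρ / rsTau f f1 q) + (1 - s)) l ν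
            - 2 * siteS q - ν * R
            ≤ -(3 * q ^ 2 / 4096) * (R₀ - q) ^ 2 + (2 * lam + 4 * (α * K2 U V B)) * |R - R₀| := by
  obtain ⟨hα, hq, hfix, hT, hlam, hl1, hlq, hK0, hαk⟩ := F
  have hqI : q ∈ Icc (0 : ℝ) 1 := ⟨hq.1.le, hq.2.le⟩
  have hqC : q ∈ Ico (0 : ℝ) 1 := ⟨hq.1.le, hq.2⟩
  have h1q : 0 < 1 - q := sub_pos.2 hq.2
  have hV1 := (hg.rsTau_ge hqI).1
  have hak : 0 ≤ α * K2 U V B := mul_nonneg hα.le hK0
  set τ := rsTau f f1 q
  set k := K2 U V B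
  set c := 3 * q ^ 2 / 4096
  have hc : c ≤ 3 / 4096 := by simp only [c]; nlinarith [hq.1, hq.2]
  refine ⟨-1, by constructor <;> norm_num, fun R hR hw => ?_, fun s hs => ?_⟩
  · rw [abs_le] at hw ⊢
    constructor <;> linarith [hR.1]
  set rt := tauP f f1 q (-1) / τ
  set ρ' := s * rt + (1 - s) with hρ'
  have hlow := (hg.tauP_lower hqI (ρ := -1) (by constructor <;> norm_num)).1
  have hab := (hg.tauP_lower hqI (ρ := -1) (by constructor <;> norm_num)).2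
  have hrt : rt ∈ Icc (0 : ℝ) 1 := by
    constructor
    · refine div_nonneg ?_ hT.le
      have := mul_le_mul_of_nonneg_right hq.2.le (sq_nonneg (V1 U V B))
      nlinarith
    · rw [div_le_one hT]; exact (abs_le.1 hab).2
  have hρI : ρ' ∈ Icc (0 : ℝ) 1 := by
    constructor
    · have := mul_nonneg hs.1 hrt.1; linarith [hs.2]
    · have := mul_le_mul_of_nonneg_left hrt.2 hs.1; linarith
  set dev := ρ' * q - R₀
  have hdev : -R₀ - q + q ≤ dev := by
    have := mul_nonneg hρI.1 hq.1.le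
    simp only [dev]; linarith
  have hdev2 : dev ≤ 2 := by
    have := mul_le_mul_of_nonneg_right hρI.2 hq.1.le
    simp only [dev]; linarith [hR0.1, hq.2]
  have hdev0 : 0 ≤ dev := by linarith [hq.1]
  set t := dev * lam / 8 with ht
  have ht0 : 0 ≤ t := by positivity
  have ht4 : t ≤ lam / 4 := by rw [ht]; nlinarith
  refine ⟨lam, -t, by nlinarith, by rw [abs_neg, abs_of_nonneg ht0]; nlinarith, ?_, fun R hR hw => ?_⟩
  · rw [abs_neg, abs_of_nonneg ht0]; linarith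
  refine gain_move hak (p := -1 * q) hR hR0 (by rw [abs_le]; constructor <;> linarith [hq.1, hq.2])
    hs (by rw [abs_neg, abs_of_nonneg ht0]; linarith) ?_
  rw [← hfix]
  have hsite := site2_expand hqC hlam (ν := -t) (by rw [abs_neg, abs_of_nonneg ht0]; linarith)
    (ρ := ρ') ⟨by linarith [hρI.1], hρI.2⟩
  have e : 3 * (-t) ^ 2 / lam = 3 / 64 * (lam * dev ^ 2) := by rw [ht]; field_simp; ring
  have e' : (-t) * ρ' * q - (-t) * R₀ = -(1 / 8 * (lam * dev ^ 2)) := by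
    simp only [ht, dev]; ring
  have hΔ : 0 ≤ -R₀ - q := by linarith
  have hΔ1 : -R₀ - q ≤ 1 - q := by linarith [hR0.1]
  set Δ := -R₀ - q
  have hsk : s * α * k * (R₀ - -1 * q) ^ 2 ≤ q * lam ^ 2 * Δ ^ 2 / 64 := by
    rw [show R₀ - -1 * q = -Δ by simp only [Δ]; ring, neg_sq]
    have := mul_le_mul_of_nonneg_right hαk (sq_nonneg Δ)
    have := mul_le_mul_of_nonneg_right hs.2 (mul_nonneg (mul_nonneg hα.le hK0) (sq_nonneg Δ))
    nlinarith
  have hsq : (R₀ - q) ^ 2 ≤ 4 := by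
    rw [show (4 : ℝ) = 2 ^ 2 by norm_num]
    exact sq_le_sq' (by linarith only [hR0.1, hq.2]) (by linarith only [hC, hq.1])
  have hcq : c * (R₀ - q) ^ 2 ≤ 3 * q ^ 2 / 1024 := by
    have := mul_le_mul_of_nonneg_left hsq (by positivity : (0 : ℝ) ≤ c)
    simp only [c] at this ⊢; linarith
  have hmain := neg_margin hq hl1 hlq hΔ hΔ1 hdev
  rw [e] at hsite
  linarith

set_option maxHeartbeats 800000 in
lemma gain_mid (hg : Good f f1 f2 f3 U V W B κ) {lam : ℝ} (F : Facts f f1 U V B α q lam)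
    {R₀ : ℝ} (hR0 : R₀ ∈ Icc (-1 : ℝ) 1) (hC : -q ≤ R₀) (hA : R₀ ≤ q) :
    ∃ ρ ∈ Icc (-1 : ℝ) 1,
      (∀ R ∈ Icc (-1 : ℝ) 1, |R - R₀| ≤ 1 - q → |R - ρ * q| ≤ 1 - q) ∧
      ∀ s ∈ Icc (0 : ℝ) 1, ∃ l ν : ℝ,
        l ≤ 2 * lam + 4 * (α * K2 U V B) ∧ |ν| ≤ 2 * lam + 4 * (α * K2 U V B) ∧
        3 * q ^ 2 / 4096 ≤ l - |ν| ∧
        ∀ R ∈ Icc (-1 : ℝ) 1, |R - R₀| ≤ 1 - q →
          s * α * K2 U V B * (R - ρ * q) ^ 2
            + site2 (α * rsTau f f1 q) (s * (tauP f f1 q ρ / rsTau f f1 q) + (1 - s)) l ν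
            - 2 * siteS q - ν * R
            ≤ -(3 * q ^ 2 / 4096) * (R₀ - q) ^ 2 + (2 * lam + 4 * (α * K2 U V B)) * |R - R₀| := by
  obtain ⟨hα, hq, hfix, hT, hlam, hl1, hlq, hK0, hαk⟩ := F
  have hqI : q ∈ Icc (0 : ℝ) 1 := ⟨hq.1.le, hq.2.le⟩
  have hqC : q ∈ Ico (0 : ℝ) 1 := ⟨hq.1.le, hq.2⟩
  have h1q : 0 < 1 - q := sub_pos.2 hq.2
  have hV1 := (hg.rsTau_ge hqI).1
  have hak : 0 ≤ α * K2 U V B := mul_nonneg hα.le hK0
  set τ := rsTau f f1 q
  set k := K2 U V B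
  set c := 3 * q ^ 2 / 4096
  have hc : c ≤ 3 / 4096 := by simp only [c]; nlinarith [hq.1, hq.2]
  have hρ0 : R₀ / q ∈ Icc (-1 : ℝ) 1 := by
    constructor
    · rw [le_div_iff₀ hq.1]; linarith
    · rw [div_le_one hq.1]; exact hA
  have hρq : R₀ / q * q = R₀ := div_mul_cancel₀ _ hq.1.ne'
  refine ⟨R₀ / q, hρ0, fun R hR hw => by rw [hρq]; exact hw, fun s hs => ?_⟩
  set rt := tauP f f1 q (R₀ / q) / τ
  set ρ' := s * rt + (1 - s) with hρ'
  obtain ⟨hlow, hab⟩ := hg.tauP_lower hqI hρ0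
  have hrt : rt ≤ 1 := by rw [div_le_one hT]; exact (abs_le.1 hab).2
  have hrt' : -1 ≤ rt := by rw [le_div_iff₀ hT]; linarith [(abs_le.1 hab).1]
  have hρI : ρ' ∈ Icc (-1 : ℝ) 1 := by
    constructor
    · have := mul_le_mul_of_nonneg_left hrt' hs.1; linarith [hs.2]
    · have := mul_le_mul_of_nonneg_left hrt hs.1; linarith
  set dev := ρ' * q - R₀
  have hdev : (q - R₀) / 2 ≤ dev := by
    have h1 : q * V1 U V B ^ 2 * (1 - R₀ / q) = (q - R₀) * V1 U V B ^ 2 := by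
      rw [show q * V1 U V B ^ 2 * (1 - R₀ / q) = V1 U V B ^ 2 * (q - R₀ / q * q) by ring, hρq, mul_comm]
    rw [h1] at hlow
    have h2 : (1 - rt) * q ≤ (q - R₀) / 2 := by
      simp only [rt]
      rw [one_sub_div hT.ne', div_mul_eq_mul_div, div_le_iff₀ hT]
      have h6 : (τ - tauP f f1 q (R₀ / q)) * q ≤ (q - R₀) * V1 U V B ^ 2 := by
        have h7 : 0 ≤ τ - tauP f f1 q (R₀ / q) := by linarith [(abs_le.1 hab).2]
        calc (τ - tauP f f1 q (R₀ / q)) * q ≤ (τ - tauP f f1 q (R₀ / q)) * 1 :=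
              mul_le_mul_of_nonneg_left hq.2.le h7
          _ ≤ _ := by linarith
      have h8 := mul_le_mul_of_nonneg_left hV1 (sub_nonneg.2 hA)
      nlinarith [mul_nonneg (sub_nonneg.2 hA) (sq_nonneg (V1 U V B))]
    have h3 := mul_le_mul_of_nonneg_left h2 hs.1
    have h4 := mul_le_mul_of_nonneg_right hs.2 (sub_nonneg.2 hA)
    simp only [dev, hρ']
    nlinarith
  have hdev0 : 0 ≤ dev := by linarith
  have hdev2 : dev ≤ 2 := by
    have := mul_le_mul_of_nonneg_right hρI.2 hq.1.le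
    simp only [dev]; linarith [hR0.1, hq.2]
  set t := dev * lam / 8 with ht
  have ht0 : 0 ≤ t := by positivity
  have ht4 : t ≤ lam / 4 := by rw [ht]; nlinarith
  refine ⟨lam, -t, by nlinarith, by rw [abs_neg, abs_of_nonneg ht0]; nlinarith, ?_, fun R hR hw => ?_⟩
  · rw [abs_neg, abs_of_nonneg ht0]; linarith
  refine gain_move hak (p := R₀ / q * q) hR hR0 (by rw [hρq]; exact abs_le.2 hR0) hs
    (by rw [abs_neg, abs_of_nonneg ht0]; linarith) ?_
  rw [← hfix, hρq]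
  have hsite := site2_expand hqC hlam (ν := -t) (by rw [abs_neg, abs_of_nonneg ht0]; linarith)
    (ρ := ρ') hρI
  have e : 3 * (-t) ^ 2 / lam = 3 / 64 * (lam * dev ^ 2) := by rw [ht]; field_simp; ring
  have e' : (-t) * ρ' * q - (-t) * R₀ = -(1 / 8 * (lam * dev ^ 2)) := by
    simp only [ht, dev]; ring
  have hd : dev ^ 2 ≤ lam * dev ^ 2 := le_mul_of_one_le_left (sq_nonneg _) hl1
  have h2 : (R₀ - q) ^ 2 ≤ 4 * dev ^ 2 := by
    have := pow_le_pow_left₀ (by linarith only [hA] : (0 : ℝ) ≤ (q - R₀) / 2) hdev 2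
    linarith only [this]
  have h3 := mul_le_mul hc h2 (sq_nonneg _) (by norm_num)
  rw [e] at hsite
  simp only [sub_self, ne_eq, OfNat.ofNat_ne_zero, not_false_eq_true, zero_pow, mul_zero, add_zero]
  nlinarith

lemma gain_top (hg : Good f f1 f2 f3 U V W B κ) {lam : ℝ} (F : Facts f f1 U V B α q lam)
    {R₀ : ℝ} (hR0 : R₀ ∈ Icc (-1 : ℝ) 1) (hA : q < R₀) :
    ∃ ρ ∈ Icc (-1 : ℝ) 1,
      (∀ R ∈ Icc (-1 : ℝ) 1, |R - R₀| ≤ 1 - q → |R - ρ * q| ≤ 1 - q) ∧
      ∀ s ∈ Icc (0 : ℝ) 1, ∃ l ν : ℝ,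
        l ≤ 2 * lam + 4 * (α * K2 U V B) ∧ |ν| ≤ 2 * lam + 4 * (α * K2 U V B) ∧
        3 * q ^ 2 / 4096 ≤ l - |ν| ∧
        ∀ R ∈ Icc (-1 : ℝ) 1, |R - R₀| ≤ 1 - q →
          s * α * K2 U V B * (R - ρ * q) ^ 2
            + site2 (α * rsTau f f1 q) (s * (tauP f f1 q ρ / rsTau f f1 q) + (1 - s)) l ν
            - 2 * siteS q - ν * R
            ≤ -(3 * q ^ 2 / 4096) * (R₀ - q) ^ 2 + (2 * lam + 4 * (α * K2 U V B)) * |R - R₀| := by
  obtain ⟨hα, hq, hfix, hT, hlam, hl1, hlq, hK0, hαk⟩ := F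
  have hqI : q ∈ Icc (0 : ℝ) 1 := ⟨hq.1.le, hq.2.le⟩
  have hqC : q ∈ Ico (0 : ℝ) 1 := ⟨hq.1.le, hq.2⟩
  have h1q : 0 < 1 - q := sub_pos.2 hq.2
  have hV1 := (hg.rsTau_ge hqI).1
  have hak : 0 ≤ α * K2 U V B := mul_nonneg hα.le hK0
  set τ := rsTau f f1 q
  set k := K2 U V B
  set c := 3 * q ^ 2 / 4096
  have hc : c ≤ 3 / 4096 := by simp only [c]; nlinarith [hq.1, hq.2]
  refine ⟨1, by constructor <;> norm_num, fun R hR hw => ?_, fun s hs => ?_⟩
  · rw [one_mul]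
    rw [abs_le] at hw ⊢
    constructor <;> linarith [hR.2]
  set ν := (R₀ - q) * lam ^ 2 / 4 with hν
  have hν0 : 0 ≤ ν := by
    have := sub_nonneg.2 hA.le
    positivity
  have hν4 : ν ≤ lam / 4 := by
    have : (R₀ - q) * lam ≤ 1 :=
      (mul_le_mul_of_nonneg_right (by linarith [hR0.2] : R₀ - q ≤ 1 - q) (by linarith)).trans_eq
        (by rw [mul_comm]; exact hlq)
    rw [hν]; nlinarith
  refine ⟨lam + ν, ν, by nlinarith, by rw [abs_of_nonneg hν0]; nlinarith, ?_, fun R hR hw => ?_⟩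
  · rw [abs_of_nonneg hν0]; linarith
  have hone : s * (tauP f f1 q 1 / τ) + (1 - s) = 1 := by
    rw [Good.tauP_one, div_self hT.ne']; ring
  rw [hone]
  refine gain_move hak (p := 1 * q) hR hR0 (by rw [one_mul, abs_le]; constructor <;> linarith [hq.1, hq.2])
    hs (by rw [abs_of_nonneg hν0]; linarith) ?_
  rw [← hfix, one_mul]
  have hsite := site2_one hqC hlam hν0
  have e : (ν / lam) ^ 2 = (R₀ - q) ^ 2 * lam ^ 2 / 16 := by rw [hν]; field_simp; ring
  have e' : ν * q - ν * R₀ = -((R₀ - q) ^ 2 * lam ^ 2 / 4) := by rw [hν]; ring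
  have hsk : s * α * k * (R₀ - q) ^ 2 ≤ lam ^ 2 * (R₀ - q) ^ 2 / 64 := by
    have h1 : s * (α * k) ≤ lam ^ 2 / 64 := by
      have h2 := mul_le_mul_of_nonneg_right hs.2 (mul_nonneg hα.le hK0)
      have h3 := mul_le_mul_of_nonneg_right hq.2.le (sq_nonneg lam)
      linarith
    have := mul_le_mul_of_nonneg_right h1 (sq_nonneg (R₀ - q))
    linarith
  have hd : c * (R₀ - q) ^ 2 ≤ lam ^ 2 * (R₀ - q) ^ 2 * (3 / 4096) := by
    have h1 : (R₀ - q) ^ 2 ≤ lam ^ 2 * (R₀ - q) ^ 2 :=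
      le_mul_of_one_le_left (sq_nonneg _) (one_le_pow₀ hl1)
    have := mul_le_mul hc h1 (sq_nonneg _) (by norm_num)
    linarith
  have := mul_nonneg (sq_nonneg lam) (sq_nonneg (R₀ - q))
  rw [e] at hsite
  linarith

/-- The pair bound loses at least `c (R₀ - q)²` at every density. -/
theorem gain (hg : Good f f1 f2 f3 U V W B κ) (hα : 0 < α) (hq : q ∈ Ioo (0 : ℝ) 1)
    (hfix : q / (1 - q) ^ 2 = α * rsTau f f1 q) :
    ∃ c η₀ Λ : ℝ, 0 < c ∧ 0 < η₀ ∧ ∀ R₀ ∈ Icc (-1 : ℝ) 1, ∃ ρ ∈ Icc (-1 : ℝ) 1,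
      (∀ R ∈ Icc (-1 : ℝ) 1, |R - R₀| ≤ η₀ → |R - ρ * q| ≤ 1 - q) ∧
      ∀ s ∈ Icc (0 : ℝ) 1, ∃ lam ν : ℝ, lam ≤ Λ ∧ |ν| ≤ Λ ∧ c ≤ lam - |ν| ∧
        ∀ R ∈ Icc (-1 : ℝ) 1, |R - R₀| ≤ η₀ →
          s * α * K2 U V B * (R - ρ * q) ^ 2
            + site2 (α * rsTau f f1 q) (s * (tauP f f1 q ρ / rsTau f f1 q) + (1 - s)) lam ν
            - 2 * siteS q - ν * R
            ≤ -c * (R₀ - q) ^ 2 + Λ * |R - R₀| := by
  have hqI : q ∈ Icc (0 : ℝ) 1 := ⟨hq.1.le, hq.2.le⟩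
  have h1q : 0 < 1 - q := sub_pos.2 hq.2
  obtain ⟨hK0, hK⟩ := hg.K2_le hqI
  obtain ⟨lam, hlam⟩ : ∃ l, l = 1 / (1 - q) := ⟨_, rfl⟩
  have hr : α * rsTau f f1 q = q * lam ^ 2 := by rw [← hfix, hlam]; field_simp
  have F : Facts f f1 U V B α q lam :=
    ⟨hα, hq, hfix, (hg.rsTau_ge hqI).2, hlam,
      by rw [hlam, le_div_iff₀ h1q]; linarith [hq.1], by rw [hlam]; field_simp, hK0,
      by rw [← hr, mul_assoc]; exact mul_le_mul_of_nonneg_left (by linarith) hα.le⟩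
  refine ⟨3 * q ^ 2 / 4096, 1 - q, 2 * lam + 4 * (α * K2 U V B), by nlinarith [hq.1], h1q,
    fun R₀ hR0 => ?_⟩
  rcases lt_or_ge R₀ (-q) with hC | hC
  · exact gain_neg hg F hR0 hC
  rcases le_or_gt R₀ q with hA | hA
  · exact gain_mid hg F hR0 hC hA
  · exact gain_top hg F hR0 hA

end P157.RS

end
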