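import Vale.Agent.P157.RS.Defs

/-!
# P157, RS: the disorder as one Gaussian vector and the concentration of the free energy
-/

noncomputable section

open MeasureTheory ProbabilityTheory Real Filter Topology Set
open scoped BigOperators

namespace P157.RS

open Vale.Agent.P150 (gauss)
open P157.Conc (lin)

variable {Y L ι κ : Type*} [Fintype Y] [Nonempty Y] [Fintype L] [Fintype ι] [Fintype κ]
  {f : ℝ → ℝ} {B : ℝ}

/-- The log weights given `k` rows and one field. -/
def sysU (f : ℝ → ℝ) (a : Y → L → ι → ℝ) (z : Y → κ → ℝ) (v : ℝ) (k : ℕ) (u : Y → ℝ)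
    (ω : (Fin k × ι) ⊕ κ → ℝ) (y : Y) : ℝ :=
  u y + ∑ j : Fin k, rowInc f a (fun i => ω (Sum.inl (j, i))) y
    + √v * dot (z y) (fun i => ω (Sum.inr i))

section Aux

omit [Fintype Y] [Nonempty Y] in
lemma abs_lin_le (e : Y → κ → ℝ) (g : κ → ℝ) (y : Y) :
    |lin e g y| ≤ (∑ i, |e y i|) * ∑ i, |g i| := by
  rw [Finset.sum_mul]
  refine (Finset.abs_sum_le_sum_abs _ _).trans (Finset.sum_le_sum fun i _ => ?_)
  rw [abs_mul]
  exact mul_le_mul_of_nonneg_left
    (Finset.single_le_sum (f := fun j => |g j|) (fun j _ => abs_nonneg _) (Finset.mem_univ i))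
    (abs_nonneg _)

lemma lse_sub_le {v w : Y → ℝ} {M : ℝ} (h : ∀ y, |w y - v y| ≤ M) : |lse w - lse v| ≤ M :=
  Vale.Agent.P150.abs_lse_sub_le h

lemma continuous_lse : Continuous (lse : (Y → ℝ) → ℝ) :=
  Continuous.log (by fun_prop) fun v => (Vale.Agent.P150.sum_exp_pos v).ne'

lemma lse_growth (t : Y → ℝ) : |lse t| ≤ |lse (0 : Y → ℝ)| + ∑ y, |t y| := by
  have h : |lse t - lse (0 : Y → ℝ)| ≤ ∑ y, |t y| := lse_sub_le fun y => by
    simpa using Finset.single_le_sum (f := fun j => |t j|) (fun j _ => abs_nonneg _)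
      (Finset.mem_univ y)
  linarith [abs_sub_abs_le_abs_sub (lse t) (lse (0 : Y → ℝ))]

lemma gw_nonneg (u : Y → ℝ) (y : Y) : 0 ≤ gw u y :=
  div_nonneg (exp_pos _).le (Vale.Agent.P150.sum_exp_pos u).le

lemma sum_gw (u : Y → ℝ) : ∑ y, gw u y = 1 := by
  simp only [gw, ← Finset.sum_div]
  exact div_self (Vale.Agent.P150.sum_exp_pos u).ne'

lemma abs_avgI_le (u F : Y → ℝ) : |avgI u F| ≤ ∑ y, |F y| := by
  refine (Finset.abs_sum_le_sum_abs _ _).trans (Finset.sum_le_sum fun y _ => ?_)
  rw [abs_mul, abs_of_nonneg (gw_nonneg u y)]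
  refine mul_le_of_le_one_left (abs_nonneg _) ?_
  rw [← sum_gw u]
  exact Finset.single_le_sum (fun j _ => gw_nonneg u j) (Finset.mem_univ y)

lemma sq_avgI_le (u F : Y → ℝ) : avgI u F ^ 2 ≤ avgI u fun y => F y ^ 2 := by
  set m := avgI u F with hm
  have h : 0 ≤ ∑ y, gw u y * (F y - m) ^ 2 :=
    Finset.sum_nonneg fun y _ => mul_nonneg (gw_nonneg u y) (sq_nonneg _)
  have e : ∑ y, gw u y * (F y - m) ^ 2
      = (∑ y, gw u y * F y ^ 2) - 2 * m * (∑ y, gw u y * F y) + m ^ 2 * ∑ y, gw u y := by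
    simp only [Finset.mul_sum, ← Finset.sum_sub_distrib, ← Finset.sum_add_distrib]
    exact Finset.sum_congr rfl fun y _ => by ring
  rw [sum_gw] at e
  have e' : ∑ y, gw u y * F y = m := hm.symm
  rw [e'] at e
  simp only [avgI]
  nlinarith

lemma integrable_sq_of_growth {F : (κ → ℝ) → ℝ} (hc : Continuous F) {A C : ℝ}
    (h : ∀ g, |F g| ≤ A + C * ∑ i, |g i|) (M : ℝ) :
    Integrable (fun g => (F g - M) ^ 2) (gauss κ) := by
  have h2 : ∀ i, Integrable (fun g : κ → ℝ => g i ^ 2) (gauss κ) := fun i =>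
    (measurePreserving_eval (fun _ : κ => gaussianReal 0 1) i).integrable_comp_of_integrable
      (memLp_id_gaussianReal 2).integrable_sq
  have hb : Integrable (fun g : κ → ℝ =>
      2 * (A + |M|) ^ 2 + 2 * C ^ 2 * (Fintype.card κ * ∑ i, g i ^ 2)) (gauss κ) :=
    (integrable_const _).add
      (((integrable_finsetSum _ fun i _ => h2 i).const_mul _).const_mul _)
  refine hb.mono' ((hc.sub continuous_const).pow 2).aestronglyMeasurable (ae_of_all _ fun g => ?_)
  rw [norm_eq_abs, abs_of_nonneg (sq_nonneg _)]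
  set S := ∑ i, |g i|
  have h1 : S ^ 2 ≤ Fintype.card κ * ∑ i, g i ^ 2 := by
    have := Finset.sum_mul_sq_le_sq_mul_sq Finset.univ (fun _ : κ => (1 : ℝ)) fun i => |g i|
    simpa [S] using this
  have h3 : |F g - M| ≤ (A + |M|) + C * S :=
    (abs_sub _ _).trans (by linarith [h g])
  have h4 := pow_le_pow_left₀ (abs_nonneg _) h3 2
  rw [sq_abs] at h4
  nlinarith [sq_nonneg (A + |M| - C * S), mul_le_mul_of_nonneg_left h1 (sq_nonneg C)]

lemma integral_gauss_sum {F : (ι ⊕ κ → ℝ) → ℝ} (hF : Integrable F (gauss (ι ⊕ κ))) :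
    Integrable (fun a => ∫ b, F (Sum.elim a b) ∂gauss κ) (gauss ι)
      ∧ ∫ ω, F ω ∂gauss (ι ⊕ κ) = ∫ a, ∫ b, F (Sum.elim a b) ∂gauss κ ∂gauss ι := by
  set e := (MeasurableEquiv.sumPiEquivProdPi fun _ : ι ⊕ κ => ℝ).symm with he
  have hm : MeasurePreserving e ((gauss ι).prod (gauss κ)) (gauss (ι ⊕ κ)) :=
    (measurePreserving_sumPiEquivProdPi fun _ : ι ⊕ κ => gaussianReal 0 1).symm _
  have hE : (fun p => F (e p)) = fun p : (ι → ℝ) × (κ → ℝ) => F (Sum.elim p.1 p.2) := by
    funext p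
    congr 1
  have hI : Integrable (fun p : (ι → ℝ) × (κ → ℝ) => F (Sum.elim p.1 p.2))
      ((gauss ι).prod (gauss κ)) := by
    rw [← hE]
    exact (hm.integrable_comp_emb e.measurableEmbedding).2 hF
  refine ⟨hI.integral_prod_left, ?_⟩
  rw [← hm.integral_comp' F, hE, integral_prod _ hI]

end Aux

section Field

variable (u : Y → ℝ) (e : Y → κ → ℝ)

/-- The derivative of the free energy along a rotation of two independent fields. -/
def rotD (θ : ℝ) (ω : κ ⊕ κ → ℝ) : ℝ :=
  avgI (fun y => u y + (sin θ * lin e (fun i => ω (Sum.inl i)) y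
      + cos θ * lin e (fun i => ω (Sum.inr i)) y))
    (fun y => cos θ * lin e (fun i => ω (Sum.inl i)) y
      - sin θ * lin e (fun i => ω (Sum.inr i)) y)

lemma continuous_rotD : Continuous fun p : ℝ × (κ ⊕ κ → ℝ) => rotD u e p.1 p.2 := by
  unfold rotD avgI gw lin
  refine continuous_finsetSum _ fun y _ => Continuous.mul ?_ (by fun_prop)
  exact Continuous.div (by fun_prop) (by fun_prop)
    fun p => (Vale.Agent.P150.sum_exp_pos _).ne'

lemma continuous_rotD_left (ω : κ ⊕ κ → ℝ) : Continuous fun θ => rotD u e θ ω :=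
  Continuous.comp (g := fun p : ℝ × (κ ⊕ κ → ℝ) => rotD u e p.1 p.2) (f := fun θ : ℝ => (θ, ω))
    (continuous_rotD u e) (continuous_id.prodMk continuous_const)

lemma abs_rotD_le (θ : ℝ) (ω : κ ⊕ κ → ℝ) :
    |rotD u e θ ω| ≤ (∑ y, ∑ i, |e y i|) * ∑ j, |ω j| := by
  refine (abs_avgI_le _ _).trans ?_
  rw [Finset.sum_mul, Fintype.sum_sum_type]
  refine Finset.sum_le_sum fun y _ => ?_
  rw [mul_add]
  refine (abs_sub _ _).trans (add_le_add ?_ ?_)
  · rw [abs_mul]
    exact (mul_le_of_le_one_left (abs_nonneg _) (abs_cos_le_one θ)).trans (abs_lin_le _ _ _)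
  · rw [abs_mul]
    exact (mul_le_of_le_one_left (abs_nonneg _) (abs_sin_le_one θ)).trans (abs_lin_le _ _ _)

lemma integral_rotD_sq_le {C : ℝ} (hC : ∀ y, ∑ i, e y i ^ 2 ≤ C) (θ : ℝ) :
    ∫ ω, rotD u e θ ω ^ 2 ∂gauss (κ ⊕ κ) ≤ C := by
  classical
  let E : ℝ → Y ⊕ Y → κ ⊕ κ → ℝ := fun t =>
    Sum.elim (fun y => Sum.elim (fun i => sin t * e y i) (fun i => cos t * e y i))
      (fun y => Sum.elim (fun i => cos t * e y i) (fun i => -sin t * e y i))
  let H : (Y ⊕ Y → ℝ) → ℝ := fun t =>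
    avgI (fun y => u y + t (Sum.inl y)) (fun y => t (Sum.inr y)) ^ 2
  have hH : Continuous H := by
    simp only [H, avgI, gw]
    refine (continuous_finsetSum _ fun y _ => Continuous.mul ?_ (by fun_prop)).pow 2
    exact Continuous.div (by fun_prop) (by fun_prop)
      fun p => (Vale.Agent.P150.sum_exp_pos _).ne'
  have hEq : ∀ t ω, rotD u e t ω ^ 2 = H (lin (E t) ω) := by
    intro t ω
    simp only [H, rotD]
    congr 2 <;>
    · funext y
      simp only [lin, E, Fintype.sum_sum_type, Sum.elim_inl, Sum.elim_inr, Finset.mul_sum,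
        mul_assoc, neg_mul, Finset.sum_neg_distrib, sub_eq_add_neg]
  have hinv : ∫ ω, rotD u e θ ω ^ 2 ∂gauss (κ ⊕ κ)
      = ∫ ω, rotD u e (π / 2) ω ^ 2 ∂gauss (κ ⊕ κ) := by
    simp only [hEq]
    refine P157.Conc.integral_lin_eq (E θ) (E (π / 2)) (fun x x' => ?_) hH
    rcases x with y | y <;> rcases x' with y' | y' <;>
      simp only [E, Fintype.sum_sum_type, Sum.elim_inl, Sum.elim_inr, sin_pi_div_two,
        cos_pi_div_two, ← Finset.sum_add_distrib] <;>
      refine Finset.sum_congr rfl fun i _ => ?_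
    · linear_combination e y i * e y' i * sin_sq_add_cos_sq θ
    · ring
    · ring
    · linear_combination e y i * e y' i * sin_sq_add_cos_sq θ
  rw [hinv]
  have hI : Integrable (fun ω => rotD u e (π / 2) ω ^ 2) (gauss (κ ⊕ κ)) := by
    simpa using integrable_sq_of_growth (A := 0) (C := ∑ y, ∑ i, |e y i|)
      ((continuous_rotD u e).comp (Continuous.prodMk_right (π / 2)))
      (fun g => by simpa using abs_rotD_le u e (π / 2) g) 0
  obtain ⟨h1, h2⟩ := integral_gauss_sum hI
  rw [h2]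
  refine (integral_mono h1 (integrable_const C) fun a => ?_).trans_eq (by simp)
  let w : κ → ℝ := fun i => avgI (fun y => u y + lin e a y) fun y => e y i
  have hw : ∀ b : κ → ℝ, rotD u e (π / 2) (Sum.elim a b) ^ 2 = (∑ i, w i * b i) ^ 2 := by
    intro b
    have : rotD u e (π / 2) (Sum.elim a b) = -∑ i, w i * b i := by
      simp only [rotD, sin_pi_div_two, cos_pi_div_two, Sum.elim_inl, Sum.elim_inr, one_mul,
        zero_mul, add_zero, zero_sub, w, avgI, mul_neg, Finset.sum_neg_distrib, Finset.sum_mul]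
      rw [Finset.sum_comm]
      simp only [lin, Finset.mul_sum, mul_assoc]
    rw [this, neg_sq]
  simp only [hw]
  have hlaw := P157.Conc.integral_lin_eq (X := Unit) (κ := Unit) (fun _ => w)
    (fun _ _ => √(∑ i, w i ^ 2))
    (fun _ _ => by
      simp [Real.mul_self_sqrt (Finset.sum_nonneg fun i _ => sq_nonneg (w i)), ← sq])
    (H := fun t => t () ^ 2) (by fun_prop)
  simp only [lin] at hlaw
  rw [hlaw]
  have hv : ∫ g : Unit → ℝ, g () ^ 2 ∂gauss Unit = 1 := by
    have hmp := measurePreserving_eval (fun _ : Unit => gaussianReal 0 1) ()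
    rw [gauss, Vale.Agent.P150.integral_comp_mp hmp (F := fun t : ℝ => t ^ 2)
      (by fun_prop : Continuous fun t : ℝ => t ^ 2).aestronglyMeasurable]
    have hv := variance_id_gaussianReal (μ := 0) (v := 1)
    rw [variance_eq_integral measurable_id.aemeasurable] at hv
    simpa [id_eq, integral_id_gaussianReal] using hv
  simp only [Finset.univ_unique, PUnit.default_eq_unit, Finset.sum_singleton, mul_pow]
  rw [integral_const_mul, hv, mul_one, sq_sqrt (Finset.sum_nonneg fun i _ => sq_nonneg (w i))]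
  calc ∑ i, w i ^ 2 ≤ ∑ i, avgI (fun y => u y + lin e a y) (fun y => e y i ^ 2) :=
        Finset.sum_le_sum fun i _ => sq_avgI_le _ _
    _ = ∑ y, gw (fun y => u y + lin e a y) y * ∑ i, e y i ^ 2 := by
        simp only [avgI, Finset.mul_sum]
        exact Finset.sum_comm
    _ ≤ ∑ y, gw (fun y => u y + lin e a y) y * C :=
        Finset.sum_le_sum fun y _ => mul_le_mul_of_nonneg_left (hC y) (gw_nonneg _ _)
    _ = C := by rw [← Finset.sum_mul, sum_gw, one_mul]

/-- A variance is at most the mean square difference of two independent copies. -/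
lemma var_le_copy {F : (κ → ℝ) → ℝ} (hFc : Continuous F) {A K : ℝ}
    (hFg : ∀ g, |F g| ≤ A + K * ∑ i, |g i|)
    (hDc : Continuous fun ω : κ ⊕ κ → ℝ => F (fun i => ω (Sum.inl i)) - F (fun i => ω (Sum.inr i)))
    {A' K' : ℝ} (hDg : ∀ ω : κ ⊕ κ → ℝ,
      |F (fun i => ω (Sum.inl i)) - F (fun i => ω (Sum.inr i))| ≤ A' + K' * ∑ j, |ω j|) :
    ∫ g, (F g - ∫ g', F g' ∂gauss κ) ^ 2 ∂gauss κ
      ≤ ∫ ω, (F (fun i => ω (Sum.inl i)) - F (fun i => ω (Sum.inr i))) ^ 2 ∂gauss (κ ⊕ κ) := by
  set m := ∫ g', F g' ∂gauss κ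
  have hFi : Integrable F (gauss κ) := Vale.Agent.P150.integrable_of_linear_bound hFc hFg
  have hDi : Integrable
      (fun ω => (F (fun i => ω (Sum.inl i)) - F (fun i => ω (Sum.inr i))) ^ 2) (gauss (κ ⊕ κ)) := by
    simpa using integrable_sq_of_growth hDc hDg 0
  obtain ⟨h1, h2⟩ := integral_gauss_sum hDi
  simp only [Sum.elim_inl, Sum.elim_inr] at h1 h2
  rw [h2]
  refine integral_mono (integrable_sq_of_growth hFc hFg m) h1 fun g => ?_
  have hI2 : Integrable (fun b => (F g - F b) ^ 2) (gauss κ) :=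
    (integrable_sq_of_growth hFc hFg (F g)).congr (ae_of_all _ fun b => by ring)
  have hI1 : Integrable (fun b => 2 * (F g - m) * (F g - F b)) (gauss κ) :=
    ((integrable_const (F g)).sub hFi).const_mul _
  have hI3 : Integrable (fun b => (F g - F b) ^ 2 - 2 * (F g - m) * (F g - F b)) (gauss κ) :=
    hI2.sub hI1
  have h0 := integral_nonneg (μ := gauss κ) (f := fun b => ((F g - F b) - (F g - m)) ^ 2)
    fun b => sq_nonneg _
  rw [show (fun b => ((F g - F b) - (F g - m)) ^ 2) = fun b =>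
      (F g - F b) ^ 2 - 2 * (F g - m) * (F g - F b) + (F g - m) ^ 2 from
      funext fun b => by ring, integral_add hI3 (integrable_const _), integral_sub hI2 hI1,
    integral_const_mul, integral_sub (integrable_const _) hFi] at h0
  simp only [integral_const, probReal_univ, one_smul] at h0
  linarith

lemma hasDerivAt_rot (ω : κ ⊕ κ → ℝ) (θ : ℝ) :
    HasDerivAt (fun t => lse (fun y => u y + (sin t * lin e (fun i => ω (Sum.inl i)) y
      + cos t * lin e (fun i => ω (Sum.inr i)) y))) (rotD u e θ ω) θ := by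
  have hsum : HasDerivAt (fun t => ∑ y, exp (u y + (sin t * lin e (fun i => ω (Sum.inl i)) y
      + cos t * lin e (fun i => ω (Sum.inr i)) y)))
      (∑ y, exp (u y + (sin θ * lin e (fun i => ω (Sum.inl i)) y
          + cos θ * lin e (fun i => ω (Sum.inr i)) y))
        * (cos θ * lin e (fun i => ω (Sum.inl i)) y
          - sin θ * lin e (fun i => ω (Sum.inr i)) y)) θ := by
    refine HasDerivAt.fun_sum fun y _ => ?_
    refine ((((hasDerivAt_sin θ).mul_const _).add ((hasDerivAt_cos θ).mul_const _)).const_add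
      (u y)).exp.congr_deriv ?_
    simp only [Pi.add_apply]
    ring
  refine (hsum.log (Vale.Agent.P150.sum_exp_pos _).ne').congr_deriv ?_
  rw [rotD, avgI, Finset.sum_div]
  refine Finset.sum_congr rfl fun y _ => ?_
  simp only [gw]
  ring

/-- The Gaussian Poincaré inequality for a free energy, up to a constant. -/
lemma field_var {C : ℝ} (hC0 : 0 ≤ C) (hC : ∀ y, ∑ i, e y i ^ 2 ≤ C) :
    ∫ g, (lse (fun y => u y + lin e g y)
        - ∫ g', lse (fun y => u y + lin e g' y) ∂gauss κ) ^ 2 ∂gauss κ ≤ 4 * C := by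
  obtain ⟨F, hF⟩ : ∃ F : (κ → ℝ) → ℝ, ∀ g, F g = lse fun y => u y + lin e g y :=
    ⟨_, fun _ => rfl⟩
  simp only [← hF]
  set K := ∑ y, ∑ i, |e y i| with hK
  have hFc : Continuous F := by
    rw [funext hF]
    exact continuous_lse.comp (by unfold lin; fun_prop)
  have hFg : ∀ g, |F g| ≤ (|lse (0 : Y → ℝ)| + ∑ y, |u y|) + K * ∑ i, |g i| := by
    intro g
    rw [hF]
    refine (lse_growth _).trans ?_
    rw [add_assoc, hK, Finset.sum_mul, ← Finset.sum_add_distrib]
    exact add_le_add le_rfl (Finset.sum_le_sum fun y _ =>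
      (abs_add_le _ _).trans (add_le_add le_rfl (abs_lin_le e g y)))
  obtain ⟨D, hD⟩ : ∃ D : (κ ⊕ κ → ℝ) → ℝ,
      ∀ ω, D ω = F (fun i => ω (Sum.inl i)) - F (fun i => ω (Sum.inr i)) := ⟨_, fun _ => rfl⟩
  have hDc : Continuous D := by rw [funext hD]; fun_prop
  have hDg : ∀ ω, |D ω| ≤ 2 * (|lse (0 : Y → ℝ)| + ∑ y, |u y|) + K * ∑ j, |ω j| := by
    intro ω
    rw [hD]
    refine (abs_sub _ _).trans ((add_le_add (hFg _) (hFg _)).trans_eq ?_)
    rw [Fintype.sum_sum_type]
    ring
  have hDi : Integrable (fun ω => D ω ^ 2) (gauss (κ ⊕ κ)) := by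
    simpa using integrable_sq_of_growth hDc hDg 0
  have hDc' := hDc
  rw [funext hD] at hDc'
  have hDg' := hDg
  simp only [hD] at hDg'
  have hcopy := var_le_copy hFc hFg hDc' hDg'
  refine le_trans hcopy ?_
  rw [show (fun ω : κ ⊕ κ → ℝ => (F (fun i => ω (Sum.inl i)) - F (fun i => ω (Sum.inr i))) ^ 2)
    = fun ω => D ω ^ 2 from funext fun ω => by rw [hD]]
  have hp : (0 : ℝ) ≤ π / 2 := by positivity
  have hd := hasDerivAt_rot u e
  have hRc : ∀ ω, Continuous fun θ => rotD u e θ ω := continuous_rotD_left u e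
  have hle : ∀ ω, D ω ^ 2 ≤ π / 2 * ∫ θ in (0 : ℝ)..π / 2, rotD u e θ ω ^ 2 := by
    intro ω
    have hI : ∫ θ in (0 : ℝ)..π / 2, rotD u e θ ω = D ω := by
      rw [intervalIntegral.integral_eq_sub_of_hasDerivAt (fun θ _ => hd ω θ)
        ((hRc ω).intervalIntegrable _ _)]
      simp [hD, hF]
    have h0 : 0 ≤ ∫ θ in (0 : ℝ)..π / 2, (rotD u e θ ω - D ω / (π / 2)) ^ 2 :=
      intervalIntegral.integral_nonneg hp fun θ _ => sq_nonneg _
    have hA : IntervalIntegrable (fun θ => rotD u e θ ω ^ 2) volume 0 (π / 2) :=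
      ((hRc ω).pow 2).intervalIntegrable _ _
    have hB : IntervalIntegrable (fun θ => 2 * (D ω / (π / 2)) * rotD u e θ ω) volume 0 (π / 2) :=
      ((hRc ω).const_mul _).intervalIntegrable _ _
    have hAB : IntervalIntegrable
        (fun θ => rotD u e θ ω ^ 2 - 2 * (D ω / (π / 2)) * rotD u e θ ω) volume 0 (π / 2) :=
      hA.sub hB
    rw [show (fun θ => (rotD u e θ ω - D ω / (π / 2)) ^ 2) = fun θ =>
        rotD u e θ ω ^ 2 - 2 * (D ω / (π / 2)) * rotD u e θ ω + (D ω / (π / 2)) ^ 2 from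
        funext fun θ => by ring,
      intervalIntegral.integral_add hAB intervalIntegrable_const,
      intervalIntegral.integral_sub hA hB,
      intervalIntegral.integral_const_mul, hI, intervalIntegral.integral_const, smul_eq_mul,
      sub_zero] at h0
    have hd' : D ω / (π / 2) * (π / 2) = D ω := div_mul_cancel₀ _ (by positivity)
    nlinarith [mul_le_mul_of_nonneg_left h0 hp]
  have : IsFiniteMeasure (volume.restrict (Set.uIoc (0 : ℝ) (π / 2))) :=
    ⟨by simp [Set.uIoc_of_le hp, Real.volume_Ioc]⟩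
  have hbig : Integrable (Function.uncurry fun θ ω => rotD u e θ ω ^ 2)
      ((volume.restrict (Set.uIoc (0 : ℝ) (π / 2))).prod (gauss (κ ⊕ κ))) := by
    have hb := (integrable_sq_of_growth (κ := κ ⊕ κ) (F := fun ω => K * ∑ j, |ω j|) (by fun_prop)
      (A := 0) (C := K) (fun ω => by
        rw [zero_add, abs_of_nonneg]
        positivity) 0).comp_snd (volume.restrict (Set.uIoc (0 : ℝ) (π / 2)))
    refine hb.mono' ((continuous_rotD u e).pow 2).aestronglyMeasurable (ae_of_all _ fun p => ?_)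
    simp only [Function.uncurry_def, sub_zero, norm_eq_abs, abs_pow]
    exact pow_le_pow_left₀ (abs_nonneg _) (abs_rotD_le u e p.1 p.2) 2
  have hswap := intervalIntegral_integral_swap hbig
  have hint : Integrable (fun ω => ∫ θ in (0 : ℝ)..π / 2, rotD u e θ ω ^ 2) (gauss (κ ⊕ κ)) := by
    simpa [intervalIntegral.integral_of_le hp, Set.uIoc_of_le hp, Function.uncurry] using
      hbig.integral_prod_right
  refine (integral_mono hDi (hint.const_mul _) hle).trans ?_
  rw [integral_const_mul, ← hswap]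
  have hcθ : IntervalIntegrable (fun θ => ∫ ω, rotD u e θ ω ^ 2 ∂gauss (κ ⊕ κ)) volume 0 (π / 2) :=
    intervalIntegrable_iff.2 hbig.integral_prod_left
  have h3 := intervalIntegral.integral_mono_on hp hcθ intervalIntegrable_const
    (fun θ _ => integral_rotD_sq_le u e hC θ)
  rw [intervalIntegral.integral_const, sub_zero, smul_eq_mul] at h3
  have h4 := mul_le_mul_of_nonneg_left h3 hp
  have h5 : π / 2 * (π / 2) ≤ 4 := by nlinarith [pi_pos, pi_le_four]
  nlinarith [mul_le_mul_of_nonneg_right h5 hC0]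

end Field

section Rows

/-- Splitting off the first row. -/
def splitRow (k : ℕ) (ι κ : Type*) : (Fin (k + 1) × ι) ⊕ κ ≃ ι ⊕ ((Fin k × ι) ⊕ κ) where
  toFun := Sum.elim (fun p => Fin.cases (Sum.inl p.2) (fun j => Sum.inr (Sum.inl (j, p.2))) p.1)
    (fun i => Sum.inr (Sum.inr i))
  invFun := Sum.elim (fun i => Sum.inl (0, i))
    (Sum.elim (fun p => Sum.inl (p.1.succ, p.2)) Sum.inr)
  left_inv := by
    rintro (⟨j, i⟩ | i)
    · refine Fin.cases ?_ (fun j => ?_) j <;> simp
    · rfl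
  right_inv := by rintro (i | p | i) <;> simp

variable (a : Y → L → ι → ℝ) (z : Y → κ → ℝ) (v : ℝ)

omit [Fintype Y] [Nonempty Y] in
lemma continuous_sysU (hf : Continuous f) (k : ℕ) (u : Y → ℝ) :
    Continuous fun ω => sysU f a z v k u ω := by
  unfold sysU rowInc dot
  fun_prop

omit [Fintype Y] [Nonempty Y] in
lemma sysU_split (k : ℕ) (u : Y → ℝ) (g : ι → ℝ) (b : (Fin k × ι) ⊕ κ → ℝ) :
    sysU f a z v (k + 1) u (fun j => Sum.elim g b (splitRow k ι κ j))
      = sysU f a z v k (fun y => u y + rowInc f a g y) b := by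
  funext y
  simp [sysU, splitRow, Fin.sum_univ_succ]
  ring

omit [Nonempty Y] [Fintype Y] in
lemma rowInc_le (hB : ∀ s, |f s| ≤ B) (g : ι → ℝ) (y : Y) :
    |rowInc f a g y| ≤ Fintype.card L * B :=
  (Finset.abs_sum_le_sum_abs _ _).trans ((Finset.sum_le_sum fun l _ => hB _).trans_eq (by simp))

omit [Nonempty Y] in
lemma sysU_growth (hB : ∀ s, |f s| ≤ B) {Φ : (Y → ℝ) → ℝ} {A : ℝ}
    (hA : ∀ t, |Φ t| ≤ A + ∑ y, |t y|) (k : ℕ) (u : Y → ℝ) (ω : (Fin k × ι) ⊕ κ → ℝ) :
    |Φ (sysU f a z v k u ω)| ≤ (A + ∑ y, (|u y| + k * (Fintype.card L * B)))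
      + (√v * ∑ y, ∑ i, |z y i|) * ∑ j, |ω j| := by
  refine (hA _).trans ?_
  rw [Finset.mul_sum (a := √v), Finset.sum_mul, add_assoc, ← Finset.sum_add_distrib]
  refine add_le_add le_rfl (Finset.sum_le_sum fun y _ => ?_)
  refine (abs_add_three _ _ _).trans (add_le_add (add_le_add le_rfl ?_) ?_)
  · exact (Finset.abs_sum_le_sum_abs _ _).trans
      ((Finset.sum_le_sum fun j _ => rowInc_le a hB _ y).trans_eq (by simp))
  · rw [abs_mul, abs_of_nonneg (sqrt_nonneg v), mul_assoc]
    refine mul_le_mul_of_nonneg_left ((abs_lin_le z _ y).trans ?_) (sqrt_nonneg v)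
    refine mul_le_mul_of_nonneg_left ?_ (Finset.sum_nonneg fun i _ => abs_nonneg _)
    rw [Fintype.sum_sum_type]
    exact le_add_of_nonneg_left (Finset.sum_nonneg fun i _ => abs_nonneg _)

omit [Fintype Y] [Nonempty Y] in
lemma integral_sysU_zero {G : (Y → ℝ) → ℝ} (hG : Continuous G) (u : Y → ℝ) :
    ∫ ω, G (sysU f a z v 0 u ω) ∂gauss ((Fin 0 × ι) ⊕ κ) = fld z v G u := by
  have e0 : sysU f a z v 0 u = fun ω y => u y + √v * dot (z y) (fun i => ω (Sum.inr i)) := by
    funext ω y; simp [sysU]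
  simp only [e0, fld]
  exact Vale.Agent.P150.integral_comp_mp (Vale.Agent.P150.gauss_inr (ι := Fin 0 × ι) (κ := κ))
    (F := fun g : κ → ℝ => G fun y => u y + √v * dot (z y) g)
    (hG.comp (by unfold dot; fun_prop)).aestronglyMeasurable

omit [Fintype Y] [Nonempty Y] in
lemma integral_sysU_succ (hf : Continuous f) {G : (Y → ℝ) → ℝ} (hG : Continuous G) (k : ℕ)
    (u : Y → ℝ) (hI : Integrable (fun ω => G (sysU f a z v (k + 1) u ω))
      (gauss ((Fin (k + 1) × ι) ⊕ κ))) :
    Integrable (fun g => ∫ b, G (sysU f a z v k (fun y => u y + rowInc f a g y) b)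
        ∂gauss ((Fin k × ι) ⊕ κ)) (gauss ι)
      ∧ ∫ ω, G (sysU f a z v (k + 1) u ω) ∂gauss ((Fin (k + 1) × ι) ⊕ κ)
        = ∫ g, ∫ b, G (sysU f a z v k (fun y => u y + rowInc f a g y) b)
            ∂gauss ((Fin k × ι) ⊕ κ) ∂gauss ι := by
  have hmp := Vale.Agent.P150.gauss_reindex (splitRow k ι κ)
  have hc : Continuous fun ω => G (sysU f a z v (k + 1) u ω) :=
    hG.comp (continuous_sysU a z v hf _ u)
  obtain ⟨h1, h2⟩ := integral_gauss_sum (hmp.integrable_comp_of_integrable hI)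
  simp only [Function.comp_apply, sysU_split] at h1 h2
  rw [← Vale.Agent.P150.integral_comp_mp hmp hc.aestronglyMeasurable]
  exact ⟨h1, h2⟩

end Rows

omit [Nonempty Y] in
theorem Rk_fld_eq (hf : Continuous f) (hB : ∀ s, |f s| ≤ B) (a : Y → L → ι → ℝ) (z : Y → κ → ℝ)
    (v : ℝ) (Φ : (Y → ℝ) → ℝ) (hΦ : Continuous Φ) {A : ℝ}
    (hA : ∀ t, |Φ t| ≤ A + ∑ y, |t y|) (k : ℕ) (u : Y → ℝ) :
    Rk f a (fld z v Φ) k u = ∫ ω, Φ (sysU f a z v k u ω) ∂gauss ((Fin k × ι) ⊕ κ) := by
  induction k generalizing u with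
  | zero => exact (integral_sysU_zero a z v hΦ u).symm
  | succ k ih =>
    rw [(integral_sysU_succ a z v hf hΦ k u
      (Vale.Agent.P150.integrable_of_linear_bound (hΦ.comp (continuous_sysU a z v hf _ u))
        (sysU_growth a z v hB hA _ u))).2]
    exact integral_congr_ae (ae_of_all _ fun g => ih _)

/-- The variance of the free energy grows linearly in the rows and in the field. -/
lemma lse_var (hf : Continuous f) (hB : ∀ s, |f s| ≤ B) (a : Y → L → ι → ℝ) (z : Y → κ → ℝ)
    {c v : ℝ} (hz : ∀ y, dot (z y) (z y) ≤ c ^ 2) (hv : 0 ≤ v) (k : ℕ) (u : Y → ℝ) :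
    ∫ ω, (lse (sysU f a z v k u ω) - Rk f a (fld z v lse) k u) ^ 2 ∂gauss ((Fin k × ι) ⊕ κ)
      ≤ k * (2 * Fintype.card L * B) ^ 2 + 4 * (v * c ^ 2) := by
  induction k generalizing u with
  | zero =>
    rw [Nat.cast_zero, zero_mul, zero_add, integral_sysU_zero a z v
      (G := fun t => (lse t - Rk f a (fld z v lse) 0 u) ^ 2)
      ((continuous_lse.sub continuous_const).pow 2)]
    have hlin : ∀ g y, lin (fun y i => √v * z y i) g y = √v * dot (z y) g := fun g y => by
      simp only [lin, dot, Finset.mul_sum, mul_assoc]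
    have h := field_var u (fun y i => √v * z y i) (C := v * c ^ 2) (by positivity) fun y => by
      simp only [mul_pow, sq_sqrt hv, ← Finset.mul_sum]
      refine mul_le_mul_of_nonneg_left ?_ hv
      simpa [dot, sq] using hz y
    simp only [hlin] at h
    exact h
  | succ k ih =>
    set R := Rk f a (fld z v lse) (k + 1) u with hR
    set D := 2 * Fintype.card L * B with hD
    have hgr := sysU_growth a z v hB (Φ := lse) lse_growth
    have hsq : ∀ k u M, Integrable (fun ω => (lse (sysU f a z v k u ω) - M) ^ 2)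
        (gauss ((Fin k × ι) ⊕ κ)) := fun k u M =>
      integrable_sq_of_growth (continuous_lse.comp (continuous_sysU a z v hf k u)) (hgr k u) M
    have hint : ∀ k u, Integrable (fun ω => lse (sysU f a z v k u ω))
        (gauss ((Fin k × ι) ⊕ κ)) := fun k u =>
      Vale.Agent.P150.integrable_of_linear_bound
        (continuous_lse.comp (continuous_sysU a z v hf k u)) (hgr k u)
    obtain ⟨hi, he⟩ := integral_sysU_succ a z v hf
      (G := fun t => (lse t - R) ^ 2) ((continuous_lse.sub continuous_const).pow 2) k u (hsq _ u R)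
    obtain ⟨hmI, -⟩ := integral_sysU_succ a z v hf continuous_lse k u (hint _ u)
    rw [he]
    set m : (ι → ℝ) → ℝ := fun g => Rk f a (fld z v lse) k (fun y => u y + rowInc f a g y) with hm
    have hme : ∀ g, m g = ∫ b, lse (sysU f a z v k (fun y => u y + rowInc f a g y) b)
        ∂gauss ((Fin k × ι) ⊕ κ) := fun g =>
      Rk_fld_eq hf hB a z v lse continuous_lse lse_growth k _
    have hmD : ∀ g g', |m g - m g'| ≤ D := by
      intro g g'
      rw [hme, hme, ← integral_sub (hint _ _) (hint _ _)]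
      refine abs_integral_le_integral_abs.trans ?_
      refine (integral_mono ((hint _ _).sub (hint _ _)).abs (integrable_const D) fun b => ?_).trans_eq
        (by simp)
      refine lse_sub_le fun y => ?_
      simp only [sysU]
      have := abs_le.1 (rowInc_le a hB g y)
      have := abs_le.1 (rowInc_le a hB g' y)
      rw [abs_le, hD]
      constructor <;> linarith
    have hmi : Integrable m (gauss ι) := hmI.congr (ae_of_all _ fun g => (hme g).symm)
    have hdev : ∀ g, |m g - R| ≤ D := by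
      intro g
      have hR' : R = ∫ g', m g' ∂gauss ι := rfl
      have : m g - R = ∫ g', (m g - m g') ∂gauss ι := by
        rw [integral_sub (integrable_const _) hmi, hR']; simp
      rw [this]
      exact abs_integral_le_integral_abs.trans
        ((integral_mono ((integrable_const _).sub hmi).abs (integrable_const D)
          fun g' => hmD g g').trans_eq (by simp))
    refine (integral_mono hi (integrable_const _) fun g => ?_).trans_eq
      (integral_const _ |>.trans (by rw [probReal_univ, one_smul]))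
    set u' := fun y => u y + rowInc f a g y
    have h1 : Integrable (fun b => 2 * (m g - R) * (lse (sysU f a z v k u' b) - m g))
        (gauss ((Fin k × ι) ⊕ κ)) := ((hint k u').sub (integrable_const _)).const_mul _
    have h2 : Integrable (fun b => (lse (sysU f a z v k u' b) - m g) ^ 2
        + 2 * (m g - R) * (lse (sysU f a z v k u' b) - m g)) (gauss ((Fin k × ι) ⊕ κ)) :=
      (hsq k u' (m g)).add h1
    rw [show (fun b => (lse (sysU f a z v k u' b) - R) ^ 2) = fun b =>
        ((lse (sysU f a z v k u' b) - m g) ^ 2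
          + 2 * (m g - R) * (lse (sysU f a z v k u' b) - m g)) + (m g - R) ^ 2 from
        funext fun b => by ring, integral_add h2 (integrable_const _),
      integral_add (hsq k u' (m g)) h1, integral_const_mul,
      integral_sub (hint k u') (integrable_const _)]
    rw [show ∫ b, lse (sysU f a z v k u' b) ∂gauss ((Fin k × ι) ⊕ κ) = m g from (hme g).symm]
    simp only [integral_const, probReal_univ, one_smul, sub_self, mul_zero, add_zero]
    have hsqD := pow_le_pow_left₀ (abs_nonneg _) (hdev g) 2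
    rw [sq_abs] at hsqD
    have := ih u'
    push_cast
    linarith

/-- The free energy concentrates at scale `√k + √v`. -/
theorem lse_dev (hf : Continuous f) (hB : ∀ s, |f s| ≤ B) (a : Y → L → ι → ℝ) (z : Y → κ → ℝ)
    {c v : ℝ} (hc : 0 ≤ c) (hz : ∀ y, dot (z y) (z y) ≤ c ^ 2) (hv : 0 ≤ v) (k : ℕ) (u : Y → ℝ) :
    ∫ ω, |lse (sysU f a z v k u ω) - Rk f a (fld z v lse) k u| ∂gauss ((Fin k × ι) ⊕ κ)
      ≤ 2 * Fintype.card L * B * √(k : ℝ) + 2 * c * √v := by
  set R := Rk f a (fld z v lse) k u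
  set X : ((Fin k × ι) ⊕ κ → ℝ) → ℝ := fun ω => lse (sysU f a z v k u ω) - R with hX
  have hB0 : 0 ≤ B := (abs_nonneg _).trans (hB 0)
  have hgr := sysU_growth a z v hB (Φ := lse) lse_growth k u
  have hc' := continuous_lse.comp (continuous_sysU a z v hf k u)
  have hi : Integrable (fun ω => X ω ^ 2) (gauss ((Fin k × ι) ⊕ κ)) :=
    integrable_sq_of_growth hc' hgr R
  have ha : Integrable (fun ω => |X ω|) (gauss ((Fin k × ι) ⊕ κ)) :=
    ((Vale.Agent.P150.integrable_of_linear_bound hc' hgr).sub (integrable_const R)).abs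
  set S := ∫ ω, |X ω| ∂gauss ((Fin k × ι) ⊕ κ)
  have h0 := integral_nonneg (μ := gauss ((Fin k × ι) ⊕ κ)) (f := fun ω => (|X ω| - S) ^ 2)
    fun ω => sq_nonneg _
  have h4 : Integrable (fun ω => 2 * S * |X ω|) (gauss ((Fin k × ι) ⊕ κ)) := ha.const_mul _
  have h5 : Integrable (fun ω => X ω ^ 2 - 2 * S * |X ω|) (gauss ((Fin k × ι) ⊕ κ)) := hi.sub h4
  rw [show (fun ω => (|X ω| - S) ^ 2) = fun ω => X ω ^ 2 - 2 * S * |X ω| + S ^ 2 from
      funext fun ω => by rw [sub_sq, sq_abs]; ring,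
    integral_add h5 (integrable_const _), integral_sub hi h4, integral_const_mul] at h0
  simp only [integral_const, probReal_univ, one_smul] at h0
  have hS : S ^ 2 ≤ k * (2 * Fintype.card L * B) ^ 2 + 4 * (v * c ^ 2) := by
    have := lse_var hf hB a z hz hv k u
    simp only [hX] at h0
    nlinarith
  refine le_of_sq_le_sq (a := S) ?_ (by positivity) 
  have e1 := sq_sqrt (Nat.cast_nonneg (α := ℝ) k)
  have e2 := sq_sqrt hv
  have e3 : 0 ≤ 2 * Fintype.card L * B * √(k : ℝ) * (2 * c * √v) := by positivity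
  nlinarith

end P157.RS

end
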