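import Vale.Agent.P157.Conc.Amplitude
import Vale.Agent.P157.Sphere.Geometry

/-!
# P157: definitions for the replica symmetric formula of the spherical perceptron at every density

States are a finite family `Y`; a state carries `L` unit vectors (one for a single system, two for a
pair of replicas). A row is a standard Gaussian vector `g`; it multiplies the weight of the state `y`
by `exp (∑ l, f ⟨a y l, g⟩)`.
-/

noncomputable section

open MeasureTheory ProbabilityTheory Real Filter Topology Set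
open scoped BigOperators

namespace P157.RS

open Vale.Agent.P150 (gauss)
open P157.Conc (Pot cav rsA rsTau pairK pairG)

variable {Y L ι : Type*} [Fintype Y] [Fintype L] [Fintype ι]

/-- Log sum of exponentials. -/
def lse (u : Y → ℝ) : ℝ := log (∑ y, exp (u y))

/-- Gibbs weight. -/
def gw (u : Y → ℝ) (y : Y) : ℝ := exp (u y) / ∑ z, exp (u z)

/-- Gibbs average. -/
def avgI (u : Y → ℝ) (F : Y → ℝ) : ℝ := ∑ y, gw u y * F y

/-- Gibbs average over two independent copies. -/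
def avgC (u : Y → ℝ) (G : Y → Y → ℝ) : ℝ := ∑ y, ∑ z, gw u y * gw u z * G y z

/-- Inner product of two vectors. -/
def dot (a b : ι → ℝ) : ℝ := ∑ i, a i * b i

/-- Every state carries unit vectors. -/
def Unit1 (a : Y → L → ι → ℝ) : Prop := ∀ y l, dot (a y l) (a y l) = 1

/-- The increment of one row. -/
def rowInc (f : ℝ → ℝ) (a : Y → L → ι → ℝ) (g : ι → ℝ) (y : Y) : ℝ := ∑ l, f (dot (a y l) g)

/-- One averaged row. -/
def T (f : ℝ → ℝ) (a : Y → L → ι → ℝ) (Φ : (Y → ℝ) → ℝ) (u : Y → ℝ) : ℝ :=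
  ∫ g, Φ (fun y => u y + rowInc f a g y) ∂gauss ι

/-- `k` averaged rows. -/
def Rk (f : ℝ → ℝ) (a : Y → L → ι → ℝ) (Φ : (Y → ℝ) → ℝ) : ℕ → (Y → ℝ) → ℝ
  | 0 => Φ
  | k + 1 => T f a (Rk f a Φ k)

/-- A Gaussian field with vectors `z`, of variance parameter `v`. -/
def fld {κ : Type*} [Fintype κ] (z : Y → κ → ℝ) (v : ℝ) (Φ : (Y → ℝ) → ℝ) (u : Y → ℝ) : ℝ :=
  ∫ g, Φ (fun y => u y + √v * dot (z y) g) ∂gauss κ

/-- The tilted cavity mean of `f'`. -/
def Fz (f f1 : ℝ → ℝ) (q z : ℝ) : ℝ :=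
  cav (fun s => f1 s * exp (f s)) q z / cav (fun s => exp (f s)) q z

/-- The conjugate overlap of two cavity fields of correlation `ρ`. -/
def tauP (f f1 : ℝ → ℝ) (q ρ : ℝ) : ℝ := pairG (Fz f f1 q) ρ

/-- The hypotheses on the potential: three derivatives, positivity of the pair correlation of
`f'' + f'^2` dominating the error terms, and a mean slope dominating the curvature. -/
structure Good (f f1 f2 f3 : ℝ → ℝ) (U V W B κ : ℝ) : Prop where
  pot : Pot f f1 f2 f3 U V W
  bd : ∀ s, |f s| ≤ B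
  low : ∀ r ∈ Icc (-1 : ℝ) 1, κ ≤ pairK f1 f2 r
  crit : 32 * exp (8 * B) * (V * U ^ 2 + U ^ 4) + (exp (8 * B) - 1) * V ^ 2 ≤ κ
  slope : 8 * exp (2 * B) * (V + U ^ 2) + U * (exp (2 * B) - 1) ≤ |∫ s, f1 s ∂gaussianReal 0 1|
  slope0 : ∫ s, f1 s ∂gaussianReal 0 1 ≠ 0

/-- Constant of the lower row bound. -/
def K1 (U V B : ℝ) : ℝ := 32 * exp (8 * B) * (V + U ^ 2) ^ 2

/-- Constant of the quadratic term of the pair bound. -/
def K2 (U V B : ℝ) : ℝ := exp (4 * B) * V ^ 2 / 2 + exp (8 * B) * U ^ 2 * (V + U ^ 2)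

/-- The free energy of the sphere in a random field of strength `q / (1 - q) ^ 2`. -/
def siteS (q : ℝ) : ℝ := (q / (1 - q) ^ 2 * (1 - q) + q / (1 - q) + log (1 - q)) / 2

/-- The Gaussian bound for two coupled spheres in random fields of strength `r` and correlation
`ρ`, with multipliers `lam` and `ν`. -/
def site2 (r ρ lam ν : ℝ) : ℝ :=
  lam - 1 - log (lam ^ 2 - ν ^ 2) / 2 + r * (lam + ν * ρ) / (lam ^ 2 - ν ^ 2)

/-- The replica symmetric pressure. -/
def rsValue (f : ℝ → ℝ) (α q : ℝ) : ℝ := α * rsA f q + (q / (1 - q) + log (1 - q)) / 2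

/-- The mean pressure of the spherical perceptron. -/
def sphPressure (f : ℝ → ℝ) (α : ℝ) (N : ℕ) : ℝ :=
  ∫ g : Fin ⌊α * N⌋₊ → Fin N → ℝ,
    (1 / (N : ℝ)) * Real.log (⨍ x : Metric.sphere (0 : EuclideanSpace ℝ (Fin N)) 1,
      Real.exp (∑ a, f ((∑ i, g a i *
        (Real.sqrt N * (x : EuclideanSpace ℝ (Fin N)) i)) / Real.sqrt N))
      ∂(volume : Measure (EuclideanSpace ℝ (Fin N))).toSphere)
    ∂Measure.pi (fun _ => Measure.pi fun _ => gaussianReal 0 1)

end P157.RS

end
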