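import Vale.Agent.P157.RS.Asm.Fix

/-!
# P157: the replica symmetric formula for the spherical perceptron at every density
-/

noncomputable section

open MeasureTheory ProbabilityTheory Real Filter Topology Set
open scoped BigOperators

namespace P157.RS

open P157.Conc (rsA rsTau)

variable {f f1 f2 f3 : ℝ → ℝ} {U V W B κ q α : ℝ}

lemma rsValue_eq (hq : q ∈ Ioo (0 : ℝ) 1) (hfix : q / (1 - q) ^ 2 = α * rsTau f f1 q) :
    rsValue f α q = siteS q + α * (rsA f q - rsTau f f1 q * (1 - q) / 2) := by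
  have : α * (rsA f q - rsTau f f1 q * (1 - q) / 2)
      = α * rsA f q - α * rsTau f f1 q * (1 - q) / 2 := by ring
  rw [this, ← hfix, rsValue, siteS]
  ring

lemma tendsto_sqrt_const_div (a : ℝ) : Tendsto (fun N : ℕ => √(a / N)) atTop (𝓝 0) := by
  simpa using (tendsto_const_div_atTop_nhds_zero_nat a).sqrt

theorem limit_eq (hg : Good f f1 f2 f3 U V W B κ) (hα : 0 < α) (hq : q ∈ Ioo (0 : ℝ) 1)
    (hfix : q / (1 - q) ^ 2 = α * rsTau f f1 q) :
    Tendsto (sphPressure f α) atTop (𝓝 (rsValue f α q)) := by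
  obtain ⟨c, η₀, Λ, hc, hη, hgain⟩ := gain hg hα hq hfix
  have hq' : q ∈ Ico (0 : ℝ) 1 := ⟨hq.1.le, hq.2⟩
  have hΛ : 0 ≤ Λ := by
    obtain ⟨ρ, -, -, h⟩ := hgain 0 ⟨by norm_num, zero_le_one⟩
    obtain ⟨l, ν, -, hν, -⟩ := h 0 ⟨le_rfl, zero_le_one⟩
    exact (abs_nonneg ν).trans hν
  set τ := rsTau f f1 q
  have hτ : 0 ≤ τ := (hg.rsTau_ge ⟨hq.1.le, hq.2.le⟩).2.le
  have hB0 : 0 ≤ B := (abs_nonneg _).trans (hg.bd 0)
  set lin := rsA f q - τ * (1 - q) / 2
  set G := α * K1 U V B / c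
  have hK1 : 0 ≤ K1 U V B := by unfold K1; positivity
  have hG : 0 ≤ G := by positivity
  set E0 := exp (2 * G)
  have hE0 : 0 ≤ E0 := (exp_pos _).le
  rw [Metric.tendsto_nhds]
  intro δ hδ
  set ε := δ / (4 * (1 + 4 * (E0 * G)))
  have hε : 0 < ε := by positivity
  have hε' : ε * (1 + 4 * (E0 * G)) = δ / 4 := by
    simp only [ε]; field_simp
  clear_value ε
  obtain ⟨P, hP, hPη, hPδ⟩ : ∃ P : ℕ, 0 < P ∧ 2 / (P : ℝ) ≤ η₀ ∧
      E0 * G * ((6 * Λ + 8 * c) / P) ≤ δ / 4 := by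
    have h1 := tendsto_const_div_atTop_nhds_zero_nat (2 : ℝ)
    have h2 : Tendsto (fun P : ℕ => E0 * G * ((6 * Λ + 8 * c) / P)) atTop (𝓝 0) := by
      simpa using (tendsto_const_div_atTop_nhds_zero_nat (6 * Λ + 8 * c)).const_mul (E0 * G)
    obtain ⟨P, ⟨a, b⟩, c'⟩ := (((h1.eventually (eventually_le_nhds hη)).and
      (h2.eventually (eventually_le_nhds (by positivity : 0 < δ / 4)))).and
        (eventually_gt_atTop 0)).exists
    exact ⟨P, c', a, b⟩
  have hctr : ∀ i, Asm.ctr P i ∈ Icc (-1 : ℝ) 1 := fun i => by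
    have hi : (i : ℝ) ≤ P := by exact_mod_cast Nat.le_of_lt_succ i.2
    have hP' : (0 : ℝ) < P := by exact_mod_cast hP
    have h0 : 0 ≤ (i : ℝ) * (2 / P) := by positivity
    have h2 : (i : ℝ) * (2 / P) ≤ 2 := by
      rw [mul_div_assoc', div_le_iff₀ hP']; linarith
    simp only [Asm.ctr]
    constructor <;> linarith
  choose ρ hρ hρw hg' using fun i => hgain (Asm.ctr P i) (hctr i)
  set r0 := α * τ
  have hr0 : Tendsto (fun N : ℕ => (⌊α * N⌋₊ : ℝ) * τ / N) atTop (𝓝 r0) := by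
    have h := ((tendsto_nat_floor_mul_div_atTop (R := ℝ) hα.le).comp
      tendsto_natCast_atTop_atTop).mul_const τ
    refine h.congr fun N => ?_
    simp only [Function.comp_apply]
    ring
  have hrn : ∀ N : ℕ, 0 ≤ (⌊α * N⌋₊ : ℝ) * τ / N := fun N => by positivity
  have e1 : ∀ᶠ N : ℕ in atTop,
      |sph1 N ((⌊α * N⌋₊ : ℝ) * τ / N) - N * siteS q| ≤ N * ε := by
    have h := sph1_lim hq' hrn (by rw [hfix]; exact hr0)
    filter_upwards [(Metric.tendsto_nhds.1 h) ε hε, eventually_gt_atTop 0] with N hN hN0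
    have hN' : (0 : ℝ) < N := by exact_mod_cast hN0
    rw [Real.dist_eq, div_sub' hN'.ne', abs_div, abs_of_pos hN', div_lt_iff₀ hN'] at hN
    linarith
  have e2 := sph2_upper (r := r0) (by positivity) hrn hr0 (Λ := Λ) hc hε
  set rem := fun N : ℕ =>
    (1 + B * √((⌊α * N⌋₊ : ℝ) + 1) + E0 * (1 + G * (1 + (P + 1) *
      (16 * B * √((⌊α * N⌋₊ : ℝ) + 1) + 8 * √((⌊α * N⌋₊ : ℝ) * τ) + 2)))) / N
    + E0 * G * (4 * c * (P + 1) * exp (-(ε * N))) + |(⌊α * N⌋₊ : ℝ) / N - α| * |lin|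
  have hrem : Tendsto rem atTop (𝓝 0) := by
    have s1 : Tendsto (fun N : ℕ => √((⌊α * N⌋₊ : ℝ) + 1) / N) atTop (𝓝 0) := by
      refine squeeze_zero' (Eventually.of_forall fun N => by positivity) ?_
        (tendsto_sqrt_const_div (α + 1))
      filter_upwards [eventually_gt_atTop 0] with N hN
      have hN' : (1 : ℝ) ≤ N := by exact_mod_cast hN
      have hM := Nat.floor_le (mul_nonneg hα.le (Nat.cast_nonneg N) : 0 ≤ α * (N : ℝ))
      rw [show (α + 1) / (N : ℝ) = (α + 1) * N / (N : ℝ) ^ 2 by field_simp,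
        sqrt_div' _ (sq_nonneg _), sqrt_sq (by linarith)]
      exact div_le_div_of_nonneg_right (sqrt_le_sqrt (by linarith)) (by linarith)
    have s2 : Tendsto (fun N : ℕ => √((⌊α * N⌋₊ : ℝ) * τ) / N) atTop (𝓝 0) := by
      refine squeeze_zero' (Eventually.of_forall fun N => by positivity) ?_
        (tendsto_sqrt_const_div r0)
      filter_upwards [eventually_gt_atTop 0] with N hN
      have hN' : (0 : ℝ) < N := by exact_mod_cast hN
      have hM := mul_le_mul_of_nonneg_right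
        (Nat.floor_le (mul_nonneg hα.le hN'.le : 0 ≤ α * (N : ℝ))) hτ
      rw [show r0 / (N : ℝ) = r0 * N / (N : ℝ) ^ 2 by field_simp,
        sqrt_div' _ (sq_nonneg _), sqrt_sq hN'.le]
      exact div_le_div_of_nonneg_right (sqrt_le_sqrt (by simp only [r0]; linarith)) hN'.le
    have s3 : Tendsto (fun N : ℕ => exp (-(ε * N))) atTop (𝓝 0) :=
      tendsto_exp_atBot.comp
        (tendsto_neg_atTop_atBot.comp (tendsto_natCast_atTop_atTop.const_mul_atTop hε))
    have s4 : Tendsto (fun N : ℕ => |(⌊α * N⌋₊ : ℝ) / N - α|) atTop (𝓝 0) := by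
      have h := (((tendsto_nat_floor_mul_div_atTop (R := ℝ) hα.le).comp
        tendsto_natCast_atTop_atTop).sub_const α).abs
      simpa using h
    have s0 := tendsto_const_div_atTop_nhds_zero_nat (1 + E0 + E0 * G * (1 + 2 * ((P : ℝ) + 1)))
    have h := (((s0.add (s1.const_mul (B + E0 * G * ((P + 1) * (16 * B))))).add
      (s2.const_mul (E0 * G * ((P + 1) * 8)))).add
        (s3.const_mul (E0 * G * (4 * c * (P + 1))))).add (s4.mul_const |lin|)
    simp only [mul_zero, add_zero, zero_mul] at h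
    refine h.congr fun N => ?_
    simp only [rem]
    ring
  filter_upwards [e1, e2, hrem.eventually (eventually_lt_nhds (by positivity : 0 < δ / 4)),
    eventually_gt_atTop 0] with N h1 h2 h3 hN
  obtain ⟨hu, hl⟩ := Asm.fixed_dim hg hα hq' hc hΛ hε hP ρ hρ
    (fun i R hR hw => hρw i R hR (hw.trans hPη))
    (fun i s hs => by
      obtain ⟨lam, ν, a1, a2, a3, a4⟩ := hg' i s hs
      exact ⟨lam, ν, a1, a2, a3, fun R hR hw => a4 R hR (hw.trans hPη)⟩)
    hN h1 h2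
  have hN' : (0 : ℝ) < N := by exact_mod_cast hN
  have hp : (⌊α * N⌋₊ : ℝ) * lin - N * (α * lin) ≤ N * (|(⌊α * N⌋₊ : ℝ) / N - α| * |lin|) ∧
      N * (α * lin) - (⌊α * N⌋₊ : ℝ) * lin ≤ N * (|(⌊α * N⌋₊ : ℝ) / N - α| * |lin|) := by
    rw [← abs_mul]
    have e : (⌊α * N⌋₊ : ℝ) * lin - N * (α * lin) = N * (((⌊α * N⌋₊ : ℝ) / N - α) * lin) := by
      field_simp
    constructor
    · rw [e]; exact mul_le_mul_of_nonneg_left (le_abs_self _) hN'.le
    · rw [← neg_sub, e, ← mul_neg]; exact mul_le_mul_of_nonneg_left (neg_le_abs _) hN'.le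
  have h3' := mul_lt_mul_of_pos_left h3 hN'
  have hPδ' := mul_le_mul_of_nonneg_left hPδ hN'.le
  have hexp : 0 ≤ E0 * G * (4 * c * (P + 1) * exp (-(ε * N))) * N := by positivity
  have hw : 0 ≤ E0 * (1 + G * (1 + (P + 1) *
      (16 * B * √((⌊α * N⌋₊ : ℝ) + 1) + 8 * √((⌊α * N⌋₊ : ℝ) * τ) + 2))) := by positivity
  have hd : 0 ≤ δ * N := by positivity
  have hεN : (N : ℝ) * ε * (1 + 4 * (E0 * G)) = N * δ / 4 := by
    rw [mul_assoc, hε']; ring
  have hεN' : 0 ≤ (N : ℝ) * ε * (4 * (E0 * G)) := by positivity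
  rw [Real.dist_eq, abs_sub_lt_iff, rsValue_eq hq hfix]
  simp only [rem] at h3'
  rw [mul_add, mul_add, mul_div_cancel₀ _ hN'.ne'] at h3'
  simp only [E0, G, lin, τ] at hp h3' hPδ' hexp hw hεN hεN' ⊢
  generalize exp (2 * (α * K1 U V B / c)) = e at *
  generalize α * K1 U V B / c = g at *
  generalize exp (-(ε * N)) = x at *
  constructor <;> rw [← mul_lt_mul_iff_of_pos_left hN']
  · linarith [hp.1]
  · linear_combination hl + h3' + hPδ' + hεN + hp.2 + 1 / 4 * hd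

/-- The replica symmetric formula at every density. -/
theorem main (hg : Good f f1 f2 f3 U V W B κ) (hα : 0 < α) :
    (∃ q ∈ Ioo (0 : ℝ) 1, q / (1 - q) ^ 2 = α * rsTau f f1 q) ∧
      ∀ q ∈ Ioo (0 : ℝ) 1, q / (1 - q) ^ 2 = α * rsTau f f1 q →
        Tendsto (sphPressure f α) atTop (𝓝 (rsValue f α q)) :=
  ⟨exists_fixed hg hα, fun _ hq hfix => limit_eq hg hα hq hfix⟩

end P157.RS

end
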