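import Vale.Agent.P157.RS.Defs

/-!
# P157, RS: first and second order bounds for the expectation of a product of two correlated
Gaussians
-/

noncomputable section

open MeasureTheory ProbabilityTheory Real Filter Topology Set
open scoped BigOperators

namespace P157.RS.Pair2

open Vale.Agent.P150 (gauss)
open P157.Conc

/-- The expectation of `g h` at two standard Gaussians of covariance `c`. -/
def J (g h : ℝ → ℝ) (c : ℝ) : ℝ :=
  ∫ p : ℝ × ℝ, g p.1 * h (c * p.1 + √(1 - c ^ 2) * p.2) ∂(gaussianReal 0 1).prod (gaussianReal 0 1)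

/-- The coefficients of a path from covariance `0` to covariance `c`. -/
def jE (c : ℝ) (x : Bool) : Bool ⊕ Fin 2 → ℝ :=
  Sum.elim (fun y => if x = y then 1 else 0) (if x then ![c, √(1 - c ^ 2)] else ![1, 0])

/-- Squares at the independent end. -/
def jP : Bool ⊕ Fin 2 → ℝ := Sum.elim 1 0

/-- Squares at the correlated end. -/
def jR : Bool ⊕ Fin 2 → ℝ := Sum.elim 0 1

lemma j_path {c : ℝ} (hc : c ^ 2 ≤ 1) : Path (jE c) jP jR where
  hP i := by rcases i with i | i <;> simp [jP]
  hR i := by rcases i with i | i <;> simp [jR]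
  nP x := by cases x <;> simp [jE, jP, Fintype.sum_sum_type]
  nR x := by
    cases x <;> simp [jE, jR, Fintype.sum_sum_type, Fin.sum_univ_two,
      Real.sq_sqrt (sub_nonneg.2 hc)]

lemma j_D (c : ℝ) : Dmat (jE c) jP jR false true = c := by
  simp [Dmat, jE, jP, jR, Fintype.sum_sum_type, Fin.sum_univ_two]

/-- The expectation along the path. -/
def jPhi (g h : ℝ → ℝ) (c t : ℝ) : ℝ :=
  ∫ w, g (Sp (jE c) jP jR t w false) * h (Sp (jE c) jP jR t w true) ∂gauss (Bool ⊕ Fin 2)

variable {g g1 g2 g3 h h1 h2 h3 : ℝ → ℝ} {A A' G H c : ℝ}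

lemma jPhi_ends (hg : Continuous g) (hh : Continuous h) (hc : c ^ 2 ≤ 1) :
    jPhi g h c 1 = J g h c ∧
      jPhi g h c 0 = (∫ s, g s ∂gaussianReal 0 1) * ∫ s, h s ∂gaussianReal 0 1 := by
  have hG : Continuous fun p : ℝ × ℝ => g p.1 * h p.2 :=
    (hg.comp continuous_fst).mul (hh.comp continuous_snd)
  have hp := j_path hc
  have key : ∀ t ∈ Icc (0 : ℝ) 1, jPhi g h c t
      = J g h (∑ i, pathE (jE c) jP jR t false i * pathE (jE c) jP jR t true i) := fun t ht =>
    (integral_pair (G := fun a b => g a * h b) hG _ (hp.unit ht) false true).2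
  constructor
  · rw [key 1 (right_mem_Icc.2 zero_le_one)]
    congr 1
    simp [pathE, coef, jE, jP, jR, Fintype.sum_sum_type, Fin.sum_univ_two]
  · rw [key 0 (left_mem_Icc.2 zero_le_one)]
    have : ∑ i, pathE (jE c) jP jR 0 false i * pathE (jE c) jP jR 0 true i = 0 := by
      simp [pathE, coef, jE, jP, jR, Fintype.sum_sum_type]
    rw [this, J]
    simp only [zero_mul, zero_add, ne_eq, OfNat.ofNat_ne_zero, not_false_eq_true, zero_pow,
      sub_zero, Real.sqrt_one, one_mul]
    exact integral_prod_mul g h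

lemma jPhi_cont (dg : ∀ s, HasDerivAt g (g1 s) s) (dh : ∀ s, HasDerivAt h (h1 s) s)
    (bg : ∀ s, |g s| ≤ A) (bh : ∀ s, |h s| ≤ A') :
    ContinuousOn (jPhi g h c) (Icc 0 1) := by
  have hg : Continuous g := continuous_iff_continuousAt.2 fun s => (dg s).continuousAt
  have hh : Continuous h := continuous_iff_continuousAt.2 fun s => (dh s).continuousAt
  refine continuousOn_of_dominated (bound := fun _ => A * A')
    (fun t _ => ((hg.comp ((continuous_apply false).comp (continuous_Sp t))).mul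
      (hh.comp ((continuous_apply true).comp (continuous_Sp t)))).aestronglyMeasurable)
    (fun t _ => ae_of_all _ fun w => ?_) (integrable_const _)
    (ae_of_all _ fun w => ((hg.comp ((continuous_apply false).comp (continuous_Sp_t w))).mul
      (hh.comp ((continuous_apply true).comp (continuous_Sp_t w)))).continuousOn)
  rw [Real.norm_eq_abs, abs_mul]
  exact mul_le_mul (bg _) (bh _) (abs_nonneg _) ((abs_nonneg _).trans (bg 0))

lemma jPhi_deriv (dg : ∀ s, HasDerivAt g (g1 s) s) (dg1 : ∀ s, HasDerivAt g1 (g2 s) s)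
    (cg2 : Continuous g2) (dh : ∀ s, HasDerivAt h (h1 s) s) (dh1 : ∀ s, HasDerivAt h1 (h2 s) s)
    (ch2 : Continuous h2) (bg : ∀ s, |g s| ≤ A) (bg1 : ∀ s, |g1 s| ≤ A) (bg2 : ∀ s, |g2 s| ≤ A)
    (bh : ∀ s, |h s| ≤ A') (bh1 : ∀ s, |h1 s| ≤ A') (bh2 : ∀ s, |h2 s| ≤ A') (hc : c ^ 2 ≤ 1)
    {t : ℝ} (ht : t ∈ Ioo (0 : ℝ) 1) :
    HasDerivAt (jPhi g h c) (c * jPhi g1 h1 c t) t := by
  have hp := j_path hc
  have cg : Continuous g := continuous_iff_continuousAt.2 fun s => (dg s).continuousAt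
  have ch : Continuous h := continuous_iff_continuousAt.2 fun s => (dh s).continuousAt
  have cg1 : Continuous g1 := continuous_iff_continuousAt.2 fun s => (dg1 s).continuousAt
  have ch1 : Continuous h1 := continuous_iff_continuousAt.2 fun s => (dh1 s).continuousAt
  have hm : ∀ {a b : ℝ}, |a| ≤ A → |b| ≤ A' → |a * b| ≤ A * A' := fun ha hb => by
    rw [abs_mul]
    exact mul_le_mul ha hb (abs_nonneg _) ((abs_nonneg _).trans ha)
  refine (hasDerivAt_path hp.hP hp.hR (H := fun v => g (v false) * h (v true))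
    (H1 := fun v x => if x then g (v false) * h1 (v true) else g1 (v false) * h (v true))
    (H2 := fun v x y => if x then (if y then g (v false) * h2 (v true) else g1 (v false) * h1 (v true))
      else (if y then g1 (v false) * h1 (v true) else g2 (v false) * h (v true)))
    (fun v w s hv => ?_) (fun x v w s hv => ?_) (by fun_prop)
    (fun x => by cases x <;> simp <;> fun_prop)
    (fun x y => by cases x <;> cases y <;> simp <;> fun_prop) (C := A * A')
    (fun v x => by
      cases x <;> simp only [if_true, Bool.false_eq_true, if_false] <;>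
        first | exact hm (bg _) (bh1 _) | exact hm (bg1 _) (bh _))
    (fun v x y => by
      cases x <;> cases y <;> simp only [if_true, Bool.false_eq_true, if_false] <;>
        first
          | exact hm (bg _) (bh2 _)
          | exact hm (bg1 _) (bh1 _)
          | exact hm (bg2 _) (bh _))
    ht).congr_deriv ?_
  · exact (((dg _).comp s (hv false)).mul ((dh _).comp s (hv true))).congr_deriv (by
      simp; ring)
  · cases x
    · exact (((dg1 _).comp s (hv false)).mul ((dh _).comp s (hv true))).congr_deriv (by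
        simp; ring)
    · exact (((dg _).comp s (hv false)).mul ((dh1 _).comp s (hv true))).congr_deriv (by
        simp; ring)
  · simp only [Fintype.sum_bool, hp.diag, zero_mul, zero_add, add_zero,
      Dmat_comm (X := Bool) (x := true) (y := false), j_D, jPhi]
    simp only [if_true, Bool.false_eq_true, if_false, ← two_mul, ← mul_assoc]
    rw [← integral_const_mul, ← integral_const_mul]
    exact integral_congr_ae (ae_of_all _ fun w => by ring)

/-- A product of two correlated Gaussians, to first order. -/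
theorem J_first (dg : ∀ s, HasDerivAt g (g1 s) s) (dg1 : ∀ s, HasDerivAt g1 (g2 s) s)
    (cg2 : Continuous g2) (dh : ∀ s, HasDerivAt h (h1 s) s) (dh1 : ∀ s, HasDerivAt h1 (h2 s) s)
    (ch2 : Continuous h2) (bg : ∀ s, |g s| ≤ A) (bg1 : ∀ s, |g1 s| ≤ A) (bg2 : ∀ s, |g2 s| ≤ A)
    (bh : ∀ s, |h s| ≤ A') (bh1 : ∀ s, |h1 s| ≤ A') (bh2 : ∀ s, |h2 s| ≤ A') (hc : c ^ 2 ≤ 1)
    (hG : ∀ s, |g1 s| ≤ G) (hH : ∀ s, |h1 s| ≤ H) :
    |J g h c - (∫ s, g s ∂gaussianReal 0 1) * ∫ s, h s ∂gaussianReal 0 1| ≤ |c| * (G * H) := by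
  have cg : Continuous g := continuous_iff_continuousAt.2 fun s => (dg s).continuousAt
  have ch : Continuous h := continuous_iff_continuousAt.2 fun s => (dh s).continuousAt
  rw [← (jPhi_ends cg ch hc).1, ← (jPhi_ends cg ch hc).2]
  obtain ⟨t, ht, he⟩ := exists_hasDerivAt_eq_slope (jPhi g h c) (fun t => c * jPhi g1 h1 c t)
    zero_lt_one (jPhi_cont dg dh bg bh)
    (fun t ht => jPhi_deriv dg dg1 cg2 dh dh1 ch2 bg bg1 bg2 bh bh1 bh2 hc ht)
  simp only [sub_zero, div_one] at he
  rw [← he, abs_mul]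
  refine mul_le_mul_of_nonneg_left ?_ (abs_nonneg _)
  rw [jPhi, ← Real.norm_eq_abs]
  refine (norm_integral_le_of_norm_le_const (C := G * H) (ae_of_all _ fun w => ?_)).trans_eq (by simp)
  rw [Real.norm_eq_abs, abs_mul]
  exact mul_le_mul (hG _) (hH _) (abs_nonneg _) ((abs_nonneg _).trans (hG 0))

/-- A product of two correlated Gaussians, from above to second order. -/
theorem J_second (dg : ∀ s, HasDerivAt g (g1 s) s) (dg1 : ∀ s, HasDerivAt g1 (g2 s) s)
    (dg2 : ∀ s, HasDerivAt g2 (g3 s) s) (cg3 : Continuous g3)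
    (dh : ∀ s, HasDerivAt h (h1 s) s) (dh1 : ∀ s, HasDerivAt h1 (h2 s) s)
    (dh2 : ∀ s, HasDerivAt h2 (h3 s) s) (ch3 : Continuous h3)
    (bg : ∀ s, |g s| ≤ A) (bg1 : ∀ s, |g1 s| ≤ A) (bg2 : ∀ s, |g2 s| ≤ A) (bg3 : ∀ s, |g3 s| ≤ A)
    (bh : ∀ s, |h s| ≤ A') (bh1 : ∀ s, |h1 s| ≤ A') (bh2 : ∀ s, |h2 s| ≤ A')
    (bh3 : ∀ s, |h3 s| ≤ A') (hc : c ^ 2 ≤ 1) (hG : ∀ s, |g2 s| ≤ G) (hH : ∀ s, |h2 s| ≤ H) :
    J g h c ≤ (∫ s, g s ∂gaussianReal 0 1) * (∫ s, h s ∂gaussianReal 0 1)
      + c * ((∫ s, g1 s ∂gaussianReal 0 1) * ∫ s, h1 s ∂gaussianReal 0 1)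
      + c ^ 2 * (G * H) / 2 := by
  have cg : Continuous g := continuous_iff_continuousAt.2 fun s => (dg s).continuousAt
  have ch : Continuous h := continuous_iff_continuousAt.2 fun s => (dh s).continuousAt
  have cg1 : Continuous g1 := continuous_iff_continuousAt.2 fun s => (dg1 s).continuousAt
  have ch1 : Continuous h1 := continuous_iff_continuousAt.2 fun s => (dh1 s).continuousAt
  have cg2 : Continuous g2 := continuous_iff_continuousAt.2 fun s => (dg2 s).continuousAt
  have ch2 : Continuous h2 := continuous_iff_continuousAt.2 fun s => (dh2 s).continuousAt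
  set D := jPhi g1 h1 c 0 with hD
  have hd1 : ∀ t ∈ Icc (0 : ℝ) 1, c * jPhi g1 h1 c t - c * D ≤ c ^ 2 * (G * H) * t := by
    intro t ht
    rcases eq_or_lt_of_le ht.1 with h0 | h0
    · rw [← h0, hD]; simp
    obtain ⟨s, hs, he⟩ := exists_hasDerivAt_eq_slope (jPhi g1 h1 c) (fun s => c * jPhi g2 h2 c s)
      h0 ((jPhi_cont dg1 dh1 bg1 bh1).mono (Icc_subset_Icc_right ht.2))
      (fun s hs => jPhi_deriv dg1 dg2 cg3 dh1 dh2 ch3 bg1 bg2 bg3 bh1 bh2 bh3 hc
        ⟨hs.1, hs.2.trans_le ht.2⟩)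
    rw [sub_zero, eq_div_iff h0.ne'] at he
    rw [← mul_sub, ← he, ← mul_assoc, ← mul_assoc, ← sq]
    refine mul_le_mul_of_nonneg_right ?_ ht.1
    refine mul_le_mul_of_nonneg_left ((le_abs_self _).trans ?_) (sq_nonneg c)
    rw [jPhi, ← Real.norm_eq_abs]
    refine (norm_integral_le_of_norm_le_const (C := G * H) (ae_of_all _ fun w => ?_)).trans_eq
      (by simp)
    rw [Real.norm_eq_abs, abs_mul]
    exact mul_le_mul (hG _) (hH _) (abs_nonneg _) ((abs_nonneg _).trans (hG 0))
  have hq : ∀ t : ℝ, HasDerivAt (fun t => c * D * t + c ^ 2 * (G * H) * t ^ 2 / 2)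
      (c * D + c ^ 2 * (G * H) * t) t := fun t =>
    (((hasDerivAt_id t).const_mul (c * D)).add
      (((hasDerivAt_pow 2 t).const_mul (c ^ 2 * (G * H))).div_const 2)).congr_deriv (by
        push_cast; ring)
  obtain ⟨t, ht, he⟩ := exists_hasDerivAt_eq_slope
    (fun t => jPhi g h c t - (c * D * t + c ^ 2 * (G * H) * t ^ 2 / 2))
    (fun t => c * jPhi g1 h1 c t - (c * D + c ^ 2 * (G * H) * t)) zero_lt_one
    ((jPhi_cont dg dh bg bh).sub (Continuous.continuousOn (by fun_prop)))
    (fun t ht => (jPhi_deriv dg dg1 cg2 dh dh1 ch2 bg bg1 bg2 bh bh1 bh2 hc ht).sub (hq t))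
  simp only [sub_zero, div_one, mul_zero, zero_pow, ne_eq, OfNat.ofNat_ne_zero, not_false_eq_true,
    zero_div, add_zero, one_pow, mul_one] at he
  have hle := hd1 t ⟨ht.1.le, ht.2.le⟩
  rw [← (jPhi_ends cg ch hc).1, ← (jPhi_ends cg ch hc).2, ← (jPhi_ends cg1 ch1 hc).2, ← hD]
  linarith

end P157.RS.Pair2

end
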