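import Vale.Agent.P157.RS.Vec

/-!
# P157, RS: the two ends of the path of one row, with many copies of every state

At the initial end the states share the fields `√q ⟨b l, z⟩` and every copy `(y, k)` has private
fields `√(1 - q) ⟨c y l, ξ_{y,k}⟩`; the covariance inside a state is then exact. As the number of
copies grows, the Gibbs sums over copies become Gaussian averages.
-/

noncomputable section

open MeasureTheory ProbabilityTheory Real Filter Topology Set
open scoped BigOperators Classical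

namespace P157.RS.Row

open Vale.Agent.P150 (gauss)
open P157.Conc (Path Sp Dmat Pot pathE coef lin integral_lin_eq integral_split)

variable {Y L ι : Type*} [Fintype Y] [Nonempty Y] [Fintype L] [Fintype ι]
  {f f1 f2 f3 : ℝ → ℝ} {U V W B q : ℝ}

omit [Nonempty Y] in
lemma gw_nonneg (u : Y → ℝ) (y : Y) : 0 ≤ gw u y :=
  div_nonneg (exp_pos _).le (Finset.sum_nonneg fun _ _ => (exp_pos _).le)

lemma sum_gw (u : Y → ℝ) : ∑ y, gw u y = 1 := by
  simp only [gw, ← Finset.sum_div]
  exact div_self (Finset.sum_pos (fun _ _ => exp_pos _) Finset.univ_nonempty).ne'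

lemma gw_le_one (u : Y → ℝ) (y : Y) : gw u y ≤ 1 :=
  (Finset.single_le_sum (fun z _ => gw_nonneg u z) (Finset.mem_univ y)).trans_eq (sum_gw u)

omit [Fintype Y] [Nonempty Y] [Fintype L] in
lemma abs_dot_le {a b : ι → ℝ} (ha : dot a a = 1) (hb : dot b b = 1) : |dot a b| ≤ 1 := by
  have := Finset.sum_mul_sq_le_sq_mul_sq Finset.univ a b
  simp only [dot, ← sq] at ha hb
  rw [ha, hb, one_mul] at this
  exact (sq_le_one_iff_abs_le_one _).1 this

omit [Fintype Y] [Nonempty Y] [Fintype L] in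
lemma abs_coord_le {a : ι → ℝ} (ha : dot a a = 1) (i : ι) : |a i| ≤ 1 := by
  refine (sq_le_one_iff_abs_le_one _).1 ?_
  rw [← ha, sq]
  exact Finset.single_le_sum (f := fun j => a j * a j) (fun j _ => mul_self_nonneg _)
    (Finset.mem_univ i)

/-- The data of the two ends. -/
structure Ends (q : ℝ) (a : Y → L → ι → ℝ) (b : L → L → ℝ) (c : Y → L → L → ℝ) : Prop where
  h0 : 0 ≤ q
  h1 : q ≤ 1
  ha : Unit1 a
  hb : ∀ l, dot (b l) (b l) = 1
  hc : ∀ y l, dot (c y l) (c y l) = 1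
  hin : ∀ y l l', dot (a y l) (a y l') = q * dot (b l) (b l') + (1 - q) * dot (c y l) (c y l')

/-- Coefficients of the copies. -/
def copE (K : ℕ) (a : Y → L → ι → ℝ) (b : L → L → ℝ) (c : Y → L → L → ℝ) (x : (Y × Fin K) × L) :
    ι ⊕ (L ⊕ ((Y × Fin K) × L)) → ℝ :=
  Sum.elim (a x.1.1 x.2) (Sum.elim (b x.2) fun m => if x.1 = m.1 then c x.1.1 x.2 m.2 else 0)

/-- Squares at the initial end. -/
def copP (K : ℕ) (q : ℝ) : ι ⊕ (L ⊕ ((Y × Fin K) × L)) → ℝ :=
  Sum.elim 0 (Sum.elim (fun _ => q) fun _ => 1 - q)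

/-- Squares at the true end. -/
def copR (K : ℕ) : ι ⊕ (L ⊕ ((Y × Fin K) × L)) → ℝ := Sum.elim 1 0

/-- The fields of one copy. -/
def site (q : ℝ) (b cy : L → L → ℝ) (z ξ : L → ℝ) (l : L) : ℝ :=
  √q * dot (b l) z + √(1 - q) * dot (cy l) ξ

/-- The weight of one copy. -/
def sE0 (f : ℝ → ℝ) (v : L → ℝ) : ℝ := exp (∑ l, f (v l))

/-- The weight of one copy times `f'`. -/
def sE1 (f f1 : ℝ → ℝ) (m : L) (v : L → ℝ) : ℝ := f1 (v m) * sE0 f v

/-- The average over the private fields. -/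
def bar (q : ℝ) (b cy : L → L → ℝ) (Φ : (L → ℝ) → ℝ) (z : L → ℝ) : ℝ :=
  ∫ ξ, Φ (site q b cy z ξ) ∂gauss L

/-- The empirical average over the copies of one state. -/
def emp {K : ℕ} (q : ℝ) (b cy : L → L → ℝ) (Φ : (L → ℝ) → ℝ) (y : Y) (z : L → ℝ)
    (ξ : (Y × Fin K) × L → ℝ) : ℝ :=
  (∑ k, Φ (site q b cy z fun m => ξ ((y, k), m))) / K

/-- The averaged partition sum. -/
def Zb (f : ℝ → ℝ) (q : ℝ) (b : L → L → ℝ) (c : Y → L → L → ℝ) (u : Y → ℝ) (z : L → ℝ) : ℝ :=
  ∑ y, gw u y * bar q b (c y) (sE0 f) z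

/-- The averaged conjugate field. -/
def Fb (f f1 : ℝ → ℝ) (q : ℝ) (b : L → L → ℝ) (c : Y → L → L → ℝ) (u : Y → ℝ) (z : L → ℝ)
    (y : Y) (l : L) : ℝ :=
  bar q b (c y) (sE1 f f1 l) z / Zb f q b c u z

/-- The Gram difference of two different copies. -/
def Dst (q : ℝ) (a : Y → L → ι → ℝ) (b : L → L → ℝ) (y : Y) (l : L) (y' : Y) (l' : L) : ℝ :=
  dot (a y l) (a y' l') - q * dot (b l) (b l')

/-- The limit of the replica average. -/
def Qb (f f1 : ℝ → ℝ) (q : ℝ) (a : Y → L → ι → ℝ) (b : L → L → ℝ) (c : Y → L → L → ℝ)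
    (u : Y → ℝ) (z : L → ℝ) : ℝ :=
  ∑ y, ∑ l, ∑ y', ∑ l', Dst q a b y l y' l' *
    (gw u y * Fb f f1 q b c u z y l * (gw u y' * Fb f f1 q b c u z y' l'))

/-- The limit of the bound at the initial end. -/
def mainE (f f1 : ℝ → ℝ) (q : ℝ) (a : Y → L → ι → ℝ) (b : L → L → ℝ) (c : Y → L → L → ℝ)
    (μ : ℝ) (u : Y → ℝ) : ℝ :=
  lse u + ∫ z, (log (Zb f q b c u z) - 1 / 2 * Qb f f1 q a b c u z) ∂gauss L
    - μ * avgC u fun y y' => ∑ l, ∑ l', Dst q a b y l y' l' ^ 2

variable {a : Y → L → ι → ℝ} {b : L → L → ℝ} {c : Y → L → L → ℝ}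

omit [Nonempty Y] in
lemma cop_path (he : Ends q a b c) (K : ℕ) : Path (copE K a b c) (copP K q) (copR K) where
  hP i := by rcases i with i | i | i <;> simp [copP, he.h0, he.h1]
  hR i := by rcases i with i | i | i <;> simp [copR]
  nP x := by
    have h := he.hb x.2
    have h' := he.hc x.1.1 x.2
    simp only [dot, ← sq] at h h'
    simp [copE, copP, Fintype.sum_sum_type, Fintype.sum_prod_type (α₁ := Y × Fin K), ← Finset.mul_sum,
      ite_pow, h, h']
  nR x := by
    have h := he.ha x.1.1 x.2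
    simp only [dot, ← sq] at h
    simp [copE, copR, Fintype.sum_sum_type, h]

omit [Nonempty Y] in
lemma cop_D (he : Ends q a b c) (K : ℕ) (x x' : (Y × Fin K) × L) :
    Dmat (copE K a b c) (copP K q) (copR K) x x'
      = if x.1 = x'.1 then 0 else Dst q a b x.1.1 x.2 x'.1.1 x'.2 := by
  have e : Dmat (copE K a b c) (copP K q) (copR K) x x'
      = dot (a x.1.1 x.2) (a x'.1.1 x'.2) - q * dot (b x.2) (b x'.2)
        - (1 - q) * (if x.1 = x'.1 then dot (c x.1.1 x.2) (c x'.1.1 x'.2) else 0) := by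
    simp only [Dmat, copE, copP, copR, Fintype.sum_sum_type, Fintype.sum_prod_type (α₁ := Y × Fin K),
      Sum.elim_inl, Sum.elim_inr, Pi.one_apply, Pi.zero_apply, dot, Finset.mul_sum]
    rw [Finset.sum_eq_single x.1 (fun w _ hw => by simp [Ne.symm hw]) (by simp)]
    rcases eq_or_ne x.1 x'.1 with h | h
    · simp only [h, if_true, Finset.mul_sum]
      simp [Finset.sum_neg_distrib, sub_eq_add_neg, add_assoc]
      rw [← Finset.sum_neg_distrib]
      exact Finset.sum_congr rfl fun i _ => by ring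
    · simp [h, Ne.symm h, Finset.sum_neg_distrib, sub_eq_add_neg]
  rw [e]
  split_ifs with h
  · rw [← h, he.hin x.1.1]; ring
  · simp [Dst]

omit [Fintype Y] [Nonempty Y] in
lemma abs_Dst_le (he : Ends q a b c) (y : Y) (l : L) (y' : Y) (l' : L) :
    |Dst q a b y l y' l'| ≤ 2 := by
  have h1 := abs_dot_le (he.ha y l) (he.ha y' l')
  have h2 := abs_dot_le (he.hb l) (he.hb l')
  refine (abs_sub _ _).trans ?_
  rw [abs_mul, abs_of_nonneg he.h0]
  nlinarith [mul_le_mul he.h1 h2 (abs_nonneg _) zero_le_one]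

omit [Fintype Y] [Nonempty Y] in
lemma abs_sumf_le (hB : ∀ s, |f s| ≤ B) (v : L → ℝ) : |∑ l, f (v l)| ≤ Fintype.card L * B :=
  (Finset.abs_sum_le_sum_abs _ _).trans
    ((Finset.sum_le_card_nsmul _ _ _ fun l _ => hB _).trans_eq (by simp))

omit [Fintype Y] [Nonempty Y] in
lemma sE0_bounds (hB : ∀ s, |f s| ≤ B) (v : L → ℝ) :
    exp (-(Fintype.card L * B)) ≤ sE0 f v ∧ sE0 f v ≤ exp (Fintype.card L * B) :=
  ⟨exp_le_exp.2 (abs_le.1 (abs_sumf_le hB v)).1, exp_le_exp.2 (abs_le.1 (abs_sumf_le hB v)).2⟩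

omit [Fintype Y] [Nonempty Y] in
lemma abs_sE0_le (hB : ∀ s, |f s| ≤ B) (v : L → ℝ) : |sE0 f v| ≤ exp (Fintype.card L * B) := by
  rw [sE0, abs_of_pos (exp_pos _)]
  exact (sE0_bounds hB v).2

omit [Fintype Y] [Nonempty Y] in
lemma abs_sE1_le (hp : Pot f f1 f2 f3 U V W) (m : L) (v : L → ℝ) :
    |sE1 f f1 m v| ≤ U * sE0 f v := by
  rw [sE1, abs_mul, sE0, abs_of_pos (exp_pos _)]
  exact mul_le_mul_of_nonneg_right (hp.b1 _) (exp_pos _).le

omit [Fintype Y] [Nonempty Y] in
lemma abs_sE1_le' (hp : Pot f f1 f2 f3 U V W) (hB : ∀ s, |f s| ≤ B) (m : L) (v : L → ℝ) :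
    |sE1 f f1 m v| ≤ U * exp (Fintype.card L * B) :=
  (abs_sE1_le hp m v).trans
    (mul_le_mul_of_nonneg_left (sE0_bounds hB v).2 ((abs_nonneg _).trans (hp.b1 0)))

omit [Fintype Y] [Nonempty Y] in
lemma grad_sE0 (hp : Pot f f1 f2 f3 U V W) :
    P157.Conc.Grad (sE0 (L := L) f) fun v x => f1 (v x) * sE0 f v := fun v w s hv =>
  ((HasDerivAt.fun_sum fun l _ => (hp.d1 _).comp s (hv l)).exp).congr_deriv (by
    simp only [sE0, Finset.mul_sum, Function.comp_apply]; exact Finset.sum_congr rfl fun l _ => by ring)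

omit [Fintype Y] [Nonempty Y] in
lemma lip_sE0 (hp : Pot f f1 f2 f3 U V W) (hB : ∀ s, |f s| ≤ B) (v v' : L → ℝ) :
    |sE0 f v - sE0 f v'| ≤ U * exp (Fintype.card L * B) * ∑ l, |v l - v' l| :=
  (grad_sE0 hp).lip (fun v x => by
    rw [abs_mul]
    exact mul_le_mul (hp.b1 _) (abs_sE0_le hB v) (abs_nonneg _) ((abs_nonneg _).trans (hp.b1 0))) v v'

omit [Fintype Y] [Nonempty Y] in
lemma lip_sE1 (hp : Pot f f1 f2 f3 U V W) (hB : ∀ s, |f s| ≤ B) (m : L) (v v' : L → ℝ) :
    |sE1 f f1 m v - sE1 f f1 m v'|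
      ≤ (V + 2 * U ^ 2) * exp (Fintype.card L * B) * ∑ l, |v l - v' l| := by
  have hg : P157.Conc.Grad (sE1 f f1 m) fun v x =>
      ((if x = m then f2 (v m) else 0) + f1 (v m) * f1 (v x)) * sE0 f v := fun v w s hv =>
    (((hp.d2 _).comp s (hv m)).mul (grad_sE0 hp v w s hv)).congr_deriv (by
      simp only [add_mul, Finset.sum_add_distrib, ite_mul, zero_mul, Finset.sum_ite_eq',
        Finset.mem_univ, if_true, Finset.mul_sum, Function.comp_apply]
      congr 1
      · ring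
      · exact Finset.sum_congr rfl fun x _ => by ring)
  refine hg.lip (fun v x => ?_) v v'
  have hU := hp.b1 (v m)
  have hU0 : 0 ≤ U := (abs_nonneg _).trans hU
  have hV := hp.b2 (v m)
  have h2 : |f2 (v m)| ≤ V + U ^ 2 := by
    have := abs_le.1 hV
    have := sq_le_sq' (abs_le.1 hU).1 (abs_le.1 hU).2
    rw [abs_le]; constructor <;> nlinarith [sq_nonneg (f1 (v m))]
  rw [abs_mul]
  refine mul_le_mul ?_ (abs_sE0_le hB v) (abs_nonneg _) 
    (by linarith [(abs_nonneg _).trans hV, sq_nonneg U])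
  refine (abs_add_le _ _).trans ?_
  have h3 : |f1 (v m) * f1 (v x)| ≤ U ^ 2 := by
    rw [abs_mul, sq]; exact mul_le_mul hU (hp.b1 _) (abs_nonneg _) hU0
  have h4 : |(if x = m then f2 (v m) else 0)| ≤ V + U ^ 2 := by
    split_ifs
    · exact h2
    · rw [abs_zero]; linarith [(abs_nonneg _).trans h2]
  linarith

omit [Fintype Y] [Nonempty Y] in
lemma continuous_sE0 (hp : Pot f f1 f2 f3 U V W) : Continuous (sE0 (L := L) f) := by
  have := hp.cf; unfold sE0; fun_prop

omit [Fintype Y] [Nonempty Y] in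
lemma continuous_sE1 (hp : Pot f f1 f2 f3 U V W) (m : L) : Continuous (sE1 f f1 m) := by
  have := hp.c1; have := continuous_sE0 (L := L) hp; unfold sE1; fun_prop

omit [Fintype Y] [Nonempty Y] in
@[fun_prop]
lemma continuous_site (cy : L → L → ℝ) :
    Continuous fun p : (L → ℝ) × (L → ℝ) => site q b cy p.1 p.2 := by
  unfold site dot; fun_prop

omit [Fintype Y] [Nonempty Y] in
lemma continuous_bar {Φ : (L → ℝ) → ℝ} (hc' : Continuous Φ) {M : ℝ} (hM : ∀ v, |Φ v| ≤ M)
    (cy : L → L → ℝ) : Continuous (bar q b cy Φ) :=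
  continuous_of_dominated (bound := fun _ => M)
    (fun z => (hc'.comp ((continuous_site cy).comp (Continuous.prodMk_right z))).aestronglyMeasurable)
    (fun _ => ae_of_all _ fun _ => hM _) (integrable_const _)
    (ae_of_all _ fun ξ => hc'.comp ((continuous_site cy).comp (Continuous.prodMk_left ξ)))

omit [Fintype Y] [Nonempty Y] in
lemma integrable_site {Φ : (L → ℝ) → ℝ} (hc' : Continuous Φ) {M : ℝ} (hM : ∀ v, |Φ v| ≤ M)
    (cy : L → L → ℝ) (z : L → ℝ) : Integrable (fun ξ => Φ (site q b cy z ξ)) (gauss L) :=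
  Vale.Agent.P150.integrable_gauss_bound
    (hc'.comp ((continuous_site cy).comp (Continuous.prodMk_right z))) fun _ => hM _

omit [Fintype Y] [Nonempty Y] in
lemma bar_sE1_le (hp : Pot f f1 f2 f3 U V W) (hB : ∀ s, |f s| ≤ B) (cy : L → L → ℝ) (z : L → ℝ)
    (l : L) : |bar q b cy (sE1 f f1 l) z| ≤ U * bar q b cy (sE0 f) z := by
  refine abs_integral_le_integral_abs.trans ?_
  rw [bar, ← integral_const_mul]
  exact integral_mono (integrable_site (continuous_sE1 hp l) (abs_sE1_le' hp hB l) cy z).abs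
    ((integrable_site (continuous_sE0 hp) (abs_sE0_le hB) cy z).const_mul U)
    fun ξ => abs_sE1_le hp l _

omit [Fintype Y] [Nonempty Y] in
lemma bar_sE0_ge (hp : Pot f f1 f2 f3 U V W) (hB : ∀ s, |f s| ≤ B) (cy : L → L → ℝ) (z : L → ℝ) :
    exp (-(Fintype.card L * B)) ≤ bar q b cy (sE0 f) z :=
  le_trans (by simp) (integral_mono (integrable_const _)
    (integrable_site (continuous_sE0 hp) (abs_sE0_le hB) cy z) fun ξ => (sE0_bounds hB _).1)

omit [Nonempty Y] in
/-- The deviation of an empirical average over copies from its mean. -/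
lemma emp_dev (he : Ends q a b c) {K : ℕ} [NeZero K] {Φ : (L → ℝ) → ℝ} (hc' : Continuous Φ)
    {M C : ℝ} (hM : ∀ v, |Φ v| ≤ M) (hC : 0 ≤ C)
    (hl : ∀ v v', |Φ v - Φ v'| ≤ C * ∑ l, |v l - v' l|) (y : Y) (z : L → ℝ) :
    ∫ ξ, |emp q b (c y) Φ y z ξ - bar q b (c y) Φ z| ∂gauss ((Y × Fin K) × L)
      ≤ C * (Fintype.card L : ℝ) ^ 2 / √K := by
  have hK : (0 : ℝ) < K := by exact_mod_cast Nat.pos_of_ne_zero (NeZero.ne K)
  set F : ((Y × Fin K) × L → ℝ) → ℝ := fun ξ => emp q b (c y) Φ y z ξ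
  set n : ℝ := (Fintype.card L : ℝ) with hn_def
  set cw : (Y × Fin K) × L → ℝ := fun w => if w.1.1 = y then C * n / K else 0
  have hs1 : √(1 - q) ≤ 1 := Real.sqrt_le_one.2 (by linarith [he.h0])
  have hF : ∀ g g', |F g - F g'| ≤ ∑ w, cw w * |g w - g' w| := by
    intro g g'
    simp only [F, emp, ← sub_div, ← Finset.sum_sub_distrib, abs_div, abs_of_pos hK]
    rw [div_le_iff₀ hK, Finset.sum_mul, Fintype.sum_prod_type, Fintype.sum_prod_type,
      Finset.sum_eq_single y (fun τ _ hτ => by simp [cw, hτ]) (by simp)]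
    refine (Finset.abs_sum_le_sum_abs _ _).trans (Finset.sum_le_sum fun k _ => (hl _ _).trans ?_)
    calc C * ∑ l, |site q b (c y) z (fun m => g ((y, k), m)) l
            - site q b (c y) z (fun m => g' ((y, k), m)) l|
        ≤ C * ∑ _l : L, ∑ m, |g ((y, k), m) - g' ((y, k), m)| := by
          refine mul_le_mul_of_nonneg_left (Finset.sum_le_sum fun l _ => ?_) hC
          simp only [site, dot, add_sub_add_left_eq_sub, ← mul_sub, ← Finset.sum_sub_distrib]
          rw [abs_mul, abs_of_nonneg (Real.sqrt_nonneg _)]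
          refine (mul_le_of_le_one_left (abs_nonneg _) hs1).trans
            ((Finset.abs_sum_le_sum_abs _ _).trans (Finset.sum_le_sum fun m _ => ?_))
          rw [abs_mul]
          exact mul_le_of_le_one_left (abs_nonneg _) (abs_coord_le (he.hc y l) m)
      _ = _ := by
          simp only [Finset.sum_const, Finset.card_univ, nsmul_eq_mul, cw, if_true, Finset.mul_sum]
          exact Finset.sum_congr rfl fun m _ => by
            field_simp
            simp [n]
            ring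
  have hm : ∫ ξ, F ξ ∂gauss ((Y × Fin K) × L) = bar q b (c y) Φ z := by
    have hmk : ∀ k : Fin K,
        ∫ ξ, Φ (site q b (c y) z fun m => ξ ((y, k), m)) ∂gauss ((Y × Fin K) × L)
          = bar q b (c y) Φ z := fun k => by
      refine Eq.trans ?_ (Eq.trans (integral_lin_eq
        (fun (m : L) (w : (Y × Fin K) × L) => if w = ((y, k), m) then (1 : ℝ) else 0)
        (fun m m' : L => if m' = m then (1 : ℝ) else 0) (fun p p' => ?_)
        (H := fun v => Φ (site q b (c y) z v))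
        (hc'.comp ((continuous_site (c y)).comp (Continuous.prodMk_right z)))) ?_)
      · refine integral_congr_ae (ae_of_all _ fun g => ?_)
        simp only; congr 1; funext l; simp [site, dot, lin]
      · simp [eq_comm]
      · refine integral_congr_ae (ae_of_all _ fun g => ?_)
        simp only; congr 1; funext l; simp [site, dot, lin]
    have hi : ∀ k : Fin K, Integrable
        (fun ξ : (Y × Fin K) × L → ℝ => Φ (site q b (c y) z fun m => ξ ((y, k), m))) (gauss _) :=
      fun k => Vale.Agent.P150.integrable_gauss_bound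
        (hc'.comp ((continuous_site (c y)).comp (Continuous.prodMk continuous_const (by fun_prop))))
        fun ξ => hM _
    simp only [F, emp]
    rw [integral_div, integral_finsetSum _ fun k _ => hi k]
    simp [hmk, mul_div_cancel_left₀ _ hK.ne']
  have h := Vale.Agent.P150.abs_dev_le hF
  rw [hm] at h
  refine h.trans ?_
  have e : ∑ w, cw w ^ 2 = (C * n) ^ 2 * n / K := by
    rw [Fintype.sum_prod_type, Fintype.sum_prod_type, Finset.sum_eq_single y
      (fun τ _ hτ => by simp [cw, hτ]) (by simp)]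
    simp [cw, n]
    field_simp
  rw [e, Real.sqrt_div' _ hK.le]
  refine div_le_div_of_nonneg_right ?_ (Real.sqrt_nonneg _)
  rw [Real.sqrt_le_iff]
  refine ⟨by positivity, ?_⟩
  have hn : n ≤ n ^ 2 := by
    simp only [n]; exact_mod_cast Nat.le_self_pow two_ne_zero _
  calc (C * n) ^ 2 * n ≤ (C * n) ^ 2 * n ^ 2 := mul_le_mul_of_nonneg_left hn (sq_nonneg _)
    _ = _ := by ring

end P157.RS.Row

end
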