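import Vale.Agent.P157.RS.RowLim

/-!
# P157, RS: the expected values at the two ends and the limit in the number of copies
-/

noncomputable section

open MeasureTheory ProbabilityTheory Real Filter Topology Set
open scoped BigOperators Classical

namespace P157.RS.Row

open Vale.Agent.P150 (gauss)
open P157.Conc (Path Sp Dmat Pot pathE coef lin continuous_lin integral_lin_eq integral_split)

variable {Y L ι : Type*} [Fintype Y] [Nonempty Y] [Fintype L] [Fintype ι]
  {f f1 f2 f3 : ℝ → ℝ} {U V W B q : ℝ} {a : Y → L → ι → ℝ} {b : L → L → ℝ} {c : Y → L → L → ℝ}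

omit [Fintype Y] [Nonempty Y] [Fintype L] in
lemma abs_lse_add_le {X : Type*} [Fintype X] [Nonempty X] (u v : X → ℝ) {M : ℝ}
    (h : ∀ x, |v x| ≤ M) : |lse (fun x => u x + v x) - lse u| ≤ M := by
  refine Vale.Agent.P150.abs_lse_sub_le fun x => ?_
  simpa using h x

omit [Fintype Y] [Nonempty Y] in
lemma continuous_vH {X : Type*} [Fintype X] [Nonempty X] (hp : Pot f f1 f2 f3 U V W)
    (u : X → ℝ) : Continuous fun v : X × L → ℝ => vH f u v := by
  have := hp.cf
  unfold vH lse
  exact (continuous_finsetSum _ fun x _ => by fun_prop).log fun v =>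
    (Finset.sum_pos (fun _ _ => exp_pos _) Finset.univ_nonempty).ne'

omit [Fintype Y] [Nonempty Y] in
lemma continuous_vQD {X : Type*} [Fintype X] [Nonempty X] (hp : Pot f f1 f2 f3 U V W)
    (u : X → ℝ) (D : X × L → X × L → ℝ) : Continuous fun v : X × L → ℝ => vQD f f1 u D v := by
  have := hp.cf; have := hp.c1
  have hq : ∀ x : X × L, Continuous fun v : X × L → ℝ => vq f f1 u v x := fun x => by
    unfold vq gw
    exact ((by fun_prop : Continuous fun v : X × L → ℝ => exp (u x.1 + ∑ l, f (v (x.1, l)))).div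
      (continuous_finsetSum _ fun x _ => by fun_prop)
      fun v => (Finset.sum_pos (fun _ _ => exp_pos _) Finset.univ_nonempty).ne').mul
      (hp.c1.comp (continuous_apply x))
  exact continuous_finsetSum _ fun x _ => continuous_finsetSum _ fun x' _ =>
    continuous_const.mul ((hq x).mul (hq x'))

omit [Fintype Y] [Nonempty Y] in
lemma abs_vQD_le {X : Type*} [Fintype X] [Nonempty X] (hp : Pot f f1 f2 f3 U V W)
    (u : X → ℝ) (D : X × L → X × L → ℝ) (v : X × L → ℝ) :
    |vQD f f1 u D v| ≤ ∑ x, ∑ x', |D x x'| * (U * U) := by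
  have hq : ∀ x, |vq f f1 u v x| ≤ U := fun x => by
    rw [vq, abs_mul, abs_of_nonneg (gw_nonneg _ _)]
    exact (mul_le_of_le_one_left (abs_nonneg _) (gw_le_one _ _)).trans (hp.b1 _)
  refine (Finset.abs_sum_le_sum_abs _ _).trans (Finset.sum_le_sum fun x _ =>
    (Finset.abs_sum_le_sum_abs _ _).trans (Finset.sum_le_sum fun x' _ => ?_))
  rw [abs_mul, abs_mul (vq f f1 u v x)]
  exact mul_le_mul_of_nonneg_left (mul_le_mul (hq x) (hq x') (abs_nonneg _)
    ((abs_nonneg _).trans (hq x))) (abs_nonneg _)

lemma lse_copy (K : ℕ) [NeZero K] (u : Y → ℝ) :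
    lse (fun p : Y × Fin K => u p.1) = log K + lse u := by
  simp only [lse, Fintype.sum_prod_type, Finset.sum_const, Finset.card_univ, Fintype.card_fin,
    nsmul_eq_mul, ← Finset.mul_sum]
  exact Real.log_mul (Nat.cast_ne_zero.2 (NeZero.ne K))
    (Finset.sum_pos (fun _ _ => exp_pos _) Finset.univ_nonempty).ne'

omit [Nonempty Y] in
lemma gw_copy (K : ℕ) [NeZero K] (u : Y → ℝ) (p : Y × Fin K) :
    gw (fun p : Y × Fin K => u p.1) p = gw u p.1 / K := by
  simp only [gw, Fintype.sum_prod_type, Finset.sum_const, Finset.card_univ, Fintype.card_fin,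
    nsmul_eq_mul, ← Finset.mul_sum]
  rw [div_div, mul_comm]

/-- The value at the true end. -/
lemma end_one (hp : Pot f f1 f2 f3 U V W) (hB : ∀ s, |f s| ≤ B) (K : ℕ)
    [NeZero K] (u : Y → ℝ) :
    vphi f (fun p : Y × Fin K => u p.1) (copE K a b c) (copP K q) (copR K) 1
      = log K + T f a lse u := by
  have h := integral_lin_eq (pathE (copE K a b c) (copP K q) (copR K) 1)
    (fun x : (Y × Fin K) × L => a x.1.1 x.2) (fun x x' => by
      simp [pathE, coef, copE, copP, copR, Fintype.sum_sum_type])
    (H := fun v => vH f (fun p : Y × Fin K => u p.1) v)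
    (continuous_vH hp fun p : Y × Fin K => u p.1)
  refine h.trans ?_
  have e : ∀ g : ι → ℝ, vH f (fun p : Y × Fin K => u p.1)
      (lin (fun x : (Y × Fin K) × L => a x.1.1 x.2) g)
      = log K + lse (fun y => u y + rowInc f a g y) := fun g =>
    lse_copy K fun y => u y + rowInc f a g y
  simp only [e]
  have hc : Continuous fun g : ι → ℝ => lse fun y => u y + rowInc f a g y := by
    have := hp.cf
    unfold lse rowInc dot
    exact (continuous_finsetSum _ fun y _ => by fun_prop).log fun v =>
      (Finset.sum_pos (fun _ _ => exp_pos _) Finset.univ_nonempty).ne'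
  have hb : ∀ g : ι → ℝ, |lse fun y => u y + rowInc f a g y| ≤ |lse u| + Fintype.card L * B :=
    fun g => by
      have h1 := abs_lse_add_le u (rowInc f a g) fun y => abs_sumf_le hB fun l => dot (a y l) g
      have h2 := abs_sub_abs_le_abs_sub (lse fun y => u y + rowInc f a g y) (lse u)
      linarith
  rw [integral_add (integrable_const _) (Vale.Agent.P150.integrable_gauss_bound hc hb),
    integral_const, probReal_univ, one_smul]
  rfl

lemma avgC_copy (he : Ends q a b c) (K : ℕ) [NeZero K] (u : Y → ℝ) :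
    |avgC (fun p : Y × Fin K => u p.1) (fun p p' => ∑ l, ∑ l',
        Dmat (copE K a b c) (copP K q) (copR K) (p, l) (p', l') ^ 2)
      - avgC u (fun y y' => ∑ l, ∑ l', Dst q a b y l y' l' ^ 2)|
      ≤ 4 * (Fintype.card L : ℝ) ^ 2 / K := by
  have hK : (0 : ℝ) < K := by exact_mod_cast Nat.pos_of_ne_zero (NeZero.ne K)
  set G : Y → Y → ℝ := fun y y' => ∑ l, ∑ l', Dst q a b y l y' l' ^ 2 with hG
  have hG4 : ∀ y, |G y y| ≤ 4 * (Fintype.card L : ℝ) ^ 2 := fun y => by
    rw [abs_of_nonneg (Finset.sum_nonneg fun _ _ => Finset.sum_nonneg fun _ _ => sq_nonneg _)]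
    refine (Finset.sum_le_sum fun l _ => Finset.sum_le_sum fun l' _ =>
      (sq_le_sq.2 (by rw [abs_two]; exact abs_Dst_le he y l y l') : _ ≤ (2 : ℝ) ^ 2)).trans_eq ?_
    simp; ring
  have e : ∀ p p' : Y × Fin K, ∑ l, ∑ l',
      Dmat (copE K a b c) (copP K q) (copR K) (p, l) (p', l') ^ 2
        = G p.1 p'.1 - if p = p' then G p.1 p'.1 else 0 := fun p p' => by
    simp only [cop_D he]
    split_ifs <;> simp [hG]
  have e2 : avgC (fun p : Y × Fin K => u p.1) (fun p p' => G p.1 p'.1) = avgC u G := by
    simp only [avgC, gw_copy, Fintype.sum_prod_type, Finset.sum_const, Finset.card_univ,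
      Fintype.card_fin, nsmul_eq_mul, Finset.mul_sum]
    refine Finset.sum_congr rfl fun y _ => Finset.sum_congr rfl fun y' _ => ?_
    field_simp
  simp only [avgC, e, mul_sub, Finset.sum_sub_distrib, mul_ite, mul_zero, Finset.sum_ite_eq,
    Finset.mem_univ, if_true] at e2 ⊢
  rw [e2, abs_sub_comm, sub_sub_cancel]
  refine (Finset.abs_sum_le_sum_abs _ _).trans ?_
  calc ∑ p : Y × Fin K, |gw (fun p => u p.1) p * gw (fun p => u p.1) p * G p.1 p.1|
      ≤ ∑ p : Y × Fin K, gw (fun p => u p.1) p * (4 * (Fintype.card L : ℝ) ^ 2 / K) := by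
        refine Finset.sum_le_sum fun p _ => ?_
        rw [abs_mul, abs_mul, abs_of_nonneg (gw_nonneg _ _), mul_assoc, div_eq_mul_one_div,
          mul_comm (4 * _)]
        refine mul_le_mul_of_nonneg_left (mul_le_mul ?_ (hG4 p.1) (abs_nonneg _) (by positivity))
          (gw_nonneg _ _)
        rw [gw_copy]
        exact div_le_div_of_nonneg_right (gw_le_one u _) hK.le
    _ = _ := by rw [← Finset.sum_mul, sum_gw, one_mul]

lemma main_props (he : Ends q a b c) (hp : Pot f f1 f2 f3 U V W) (hB : ∀ s, |f s| ≤ B)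
    (u : Y → ℝ) : Continuous (fun z => log (Zb f q b c u z) - 1 / 2 * Qb f f1 q a b c u z) ∧
      ∀ z, |log (Zb f q b c u z) - 1 / 2 * Qb f f1 q a b c u z|
        ≤ Fintype.card L * B + (Fintype.card L * U) ^ 2 := by
  set n : ℝ := (Fintype.card L : ℝ) with hn
  have hZc : Continuous fun z => Zb f q b c u z := continuous_finsetSum _ fun y _ =>
    continuous_const.mul (continuous_bar (continuous_sE0 hp) (abs_sE0_le hB) _)
  have hmc : Continuous fun z => log (Zb f q b c u z) - 1 / 2 * Qb f f1 q a b c u z := by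
    refine (hZc.log fun z => ((exp_pos _).trans_le (Zb_ge hp hB u z)).ne').sub (continuous_const.mul ?_)
    have hF : ∀ y l, Continuous fun z => Fb f f1 q b c u z y l := fun y l =>
      (continuous_bar (continuous_sE1 hp l) (abs_sE1_le' hp hB l) _).div hZc
        fun z => ((exp_pos _).trans_le (Zb_ge hp hB u z)).ne'
    unfold Qb
    exact continuous_finsetSum _ fun y _ => continuous_finsetSum _ fun l _ => continuous_finsetSum _
      fun y' _ => continuous_finsetSum _ fun l' _ => continuous_const.mul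
        ((continuous_const.mul (hF y l)).mul (continuous_const.mul (hF y' l')))
  have hmb : ∀ z, |log (Zb f q b c u z) - 1 / 2 * Qb f f1 q a b c u z| ≤ n * B + (n * U) ^ 2 := by
    intro z
    have h1 := Zb_ge (q := q) (b := b) (c := c) hp hB u z
    have h2 : Zb f q b c u z ≤ exp (n * B) := by
      calc Zb f q b c u z ≤ ∑ y, gw u y * exp (n * B) := Finset.sum_le_sum fun y _ =>
            mul_le_mul_of_nonneg_left ((integral_mono (integrable_site (continuous_sE0 hp)
              (abs_sE0_le hB) (c y) z) (integrable_const _) fun ξ => (sE0_bounds hB _).2).trans_eq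
              (by simp [hn])) (gw_nonneg u y)
        _ = _ := by rw [← Finset.sum_mul, sum_gw, one_mul]
    have hpos := (exp_pos _).trans_le h1
    have h3 := (Real.le_log_iff_exp_le hpos).2 h1
    have h4 := (Real.log_le_iff_le_exp hpos).2 h2
    have h5 := abs_le.1 (abs_Qb_le he hp hB u z)
    rw [abs_le]; constructor <;> nlinarith
  exact ⟨hmc, hmb⟩

lemma integrable_main (he : Ends q a b c) (hp : Pot f f1 f2 f3 U V W) (hB : ∀ s, |f s| ≤ B)
    (u : Y → ℝ) :
    Integrable (fun z => log (Zb f q b c u z) - 1 / 2 * Qb f f1 q a b c u z) (gauss L) :=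
  Vale.Agent.P150.integrable_gauss_bound (main_props he hp hB u).1 (main_props he hp hB u).2

/-- The constant of the error at the initial end. -/
def cErr (L : Type*) [Fintype L] (U V B μ : ℝ) : ℝ :=
  cDev L U B * ((Fintype.card L : ℝ) ^ 2 * exp (Fintype.card L * B) *
      (U + Fintype.card L * (V + 2 * U ^ 2))) + cDiag L U B + |μ| * (4 * (Fintype.card L : ℝ) ^ 2)

/-- The value at the initial end. -/
lemma end_zero (he : Ends q a b c) (hp : Pot f f1 f2 f3 U V W) (hB : ∀ s, |f s| ≤ B) (K : ℕ)
    [NeZero K] (μ : ℝ) (u : Y → ℝ) :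
    |vphi f (fun p : Y × Fin K => u p.1) (copE K a b c) (copP K q) (copR K) 0
      - 1 / 2 * vpsi f f1 (fun p : Y × Fin K => u p.1) (copE K a b c) (copP K q) (copR K) 0
      - μ * avgC (fun p : Y × Fin K => u p.1) (fun p p' => ∑ l, ∑ l',
          Dmat (copE K a b c) (copP K q) (copR K) (p, l) (p', l') ^ 2)
      - (log K + mainE f f1 q a b c μ u)| ≤ cErr L U V B μ / √(K : ℝ) := by
  have hK : (1 : ℝ) ≤ K := by exact_mod_cast Nat.pos_of_ne_zero (NeZero.ne K)
  have hU : 0 ≤ U := (abs_nonneg _).trans (hp.b1 0)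
  have hV : 0 ≤ V := (abs_nonneg _).trans (hp.b2 0)
  set n : ℝ := (Fintype.card L : ℝ) with hn
  set u' : Y × Fin K → ℝ := fun p => u p.1 with hu'
  set D := Dmat (copE K a b c) (copP K q) (copR K) with hD
  set E := copE K a b c with hE
  set H : ((Y × Fin K) × L → ℝ) → ℝ := H1 f f1 q a b c K u with hH
  have hHc : Continuous H := (continuous_vH hp u').sub ((continuous_vQD hp u' D).const_mul _)
  set M : ℝ := |lse u'| + n * B + 1 / 2 * ∑ x, ∑ x', |D x x'| * (U * U)
  have hHb : ∀ v, |H v| ≤ M := fun v => by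
    refine (abs_sub _ _).trans (add_le_add ?_ ?_)
    · have h1 := abs_lse_add_le u' (fun p => ∑ l, f (v (p, l))) fun p => abs_sumf_le hB _
      have h2 := abs_sub_abs_le_abs_sub (vH f u' v) (lse u')
      simp only [vH] at h2 ⊢
      linarith
    · rw [abs_mul, abs_of_pos (by norm_num : (0 : ℝ) < 1 / 2)]
      exact mul_le_mul_of_nonneg_left (abs_vQD_le hp u' D v) (by norm_num)
  -- the fields of the initial end
  set e0 : (Y × Fin K) × L → L ⊕ ((Y × Fin K) × L) → ℝ := fun x => Sum.elim (fun m => √q * b x.2 m)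
    (fun w => if x.1 = w.1 then √(1 - q) * c x.1.1 x.2 w.2 else 0) with he0
  have hlin : ∀ (z : L → ℝ) (ξ : (Y × Fin K) × L → ℝ), lin e0 (Sum.elim z ξ) = pt q b c z ξ := by
    intro z ξ; funext x
    simp only [lin, he0, pt, site, dot, Fintype.sum_sum_type, Sum.elim_inl, Sum.elim_inr,
      Finset.mul_sum]
    congr 1
    · exact Finset.sum_congr rfl fun m _ => by ring
    · rw [Fintype.sum_prod_type, Finset.sum_eq_single x.1 (fun w _ hw => by simp [Ne.symm hw])
        (by simp)]
      exact Finset.sum_congr rfl fun m _ => by simp; ring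
  have hH0 : vphi f u' E (copP K q) (copR K) 0 - 1 / 2 * vpsi f f1 u' E (copP K q) (copR K) 0
      = ∫ z, ∫ ξ, H (pt q b c z ξ) ∂gauss ((Y × Fin K) × L) ∂gauss L := by
    have i1 : Integrable (fun g => vH f u' (Sp E (copP K q) (copR K) 0 g)) (gauss _) :=
      Vale.Agent.P150.integrable_gauss_bound ((continuous_vH hp u').comp (continuous_lin _))
        (B := |lse u'| + n * B) fun g => by
          have h1 := abs_lse_add_le u' (fun p => ∑ l, f (Sp E (copP K q) (copR K) 0 g (p, l)))
            fun p => abs_sumf_le hB _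
          have h2 := abs_sub_abs_le_abs_sub (vH f u' (Sp E (copP K q) (copR K) 0 g)) (lse u')
          simp only [vH] at h2 ⊢
          linarith
    have i2 : Integrable (fun g => vQD f f1 u' D (Sp E (copP K q) (copR K) 0 g)) (gauss _) :=
      Vale.Agent.P150.integrable_gauss_bound ((continuous_vQD hp u' D).comp (continuous_lin _))
        fun g => abs_vQD_le hp u' D _
    rw [vphi, vpsi, ← integral_const_mul, ← integral_sub i1 (i2.const_mul _)]
    refine (integral_lin_eq (H := H) _ e0 (fun x x' => ?_) hHc).trans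
      ((integral_split (Vale.Agent.P150.integrable_gauss_bound (hHc.comp (continuous_lin _))
        fun g => hHb _)).trans ?_)
    · simp only [pathE, coef, hE, copE, copP, copR, he0, Fintype.sum_sum_type, Sum.elim_inl,
        Sum.elim_inr, Pi.zero_apply, sub_zero, zero_mul, one_mul, add_zero, mul_zero,
        Real.sqrt_zero, Finset.sum_const_zero, zero_add]
      congr 1
      refine Finset.sum_congr rfl fun w _ => ?_
      split_ifs <;> ring
    · exact integral_congr_ae (ae_of_all _ fun z => integral_congr_ae (ae_of_all _ fun ξ => by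
        simp only [Function.comp_apply, hlin]))
  obtain ⟨hmc, hmb⟩ := main_props (q := q) (a := a) (b := b) (c := c) he hp hB u
  set Cd : ℝ := n ^ 2 * exp (n * B) * (U + n * (V + 2 * U ^ 2)) with hCd
  have hinner : ∀ z, |(∫ ξ, H (pt q b c z ξ) ∂gauss ((Y × Fin K) × L))
      - (log K + lse u + (log (Zb f q b c u z) - 1 / 2 * Qb f f1 q a b c u z))|
      ≤ (cDev L U B * Cd + cDiag L U B) / √(K : ℝ) := by
    intro z
    have hpc : Continuous fun ξ => H (pt q b c z ξ) := hHc.comp (continuous_pi fun x =>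
      (continuous_apply x.2).comp ((continuous_site (c x.1.1)).comp
        (Continuous.prodMk continuous_const (by fun_prop))))
    have i0 : Integrable (fun ξ => H (pt q b c z ξ)) (gauss _) :=
      Vale.Agent.P150.integrable_gauss_bound hpc fun ξ => hHb _
    set m0 := log K + lse u + (log (Zb f q b c u z) - 1 / 2 * Qb f f1 q a b c u z)
    have hie : ∀ (Φ : (L → ℝ) → ℝ) (_ : Continuous Φ) (M : ℝ) (_ : ∀ v, |Φ v| ≤ M) (y : Y),
        Integrable (fun ξ : (Y × Fin K) × L → ℝ =>
          |emp q b (c y) Φ y z ξ - bar q b (c y) Φ z|) (gauss _) := fun Φ hΦ M hM y =>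
      ((integrable_finsetSum _ fun k _ => Vale.Agent.P150.integrable_gauss_bound
        (hΦ.comp ((continuous_site (c y)).comp (Continuous.prodMk continuous_const (by fun_prop))))
        fun ξ => hM _).div_const _ |>.sub (integrable_const _)).abs
    have i1 := fun y => hie _ (continuous_sE0 hp) _ (abs_sE0_le hB) y
    have i2 := fun y l => hie _ (continuous_sE1 hp l) _ (abs_sE1_le' hp hB l) y
    have i3 : Integrable (fun ξ : (Y × Fin K) × L → ℝ => devS f f1 q b c u z ξ) (gauss _) :=
      integrable_finsetSum _ fun y _ =>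
        ((i1 y).add (integrable_finsetSum _ fun l _ => i2 y l)).const_mul _
    have hdev : ∫ ξ : (Y × Fin K) × L → ℝ, devS f f1 q b c u z ξ ∂gauss _ ≤ Cd / √(K : ℝ) := by
      simp only [devS]
      rw [integral_finsetSum _ fun y _ => ((i1 y).fun_add
        (integrable_finsetSum _ fun l _ => i2 y l)).const_mul _]
      calc _ ≤ ∑ y, gw u y * (Cd / √(K : ℝ)) := Finset.sum_le_sum fun y _ => by
            rw [integral_const_mul, integral_add (i1 y) (integrable_finsetSum _ fun l _ => i2 y l),
              integral_finsetSum _ fun l _ => i2 y l]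
            refine mul_le_mul_of_nonneg_left ?_ (gw_nonneg u y)
            refine (add_le_add (emp_dev he (continuous_sE0 hp) (abs_sE0_le hB)
              (mul_nonneg hU (exp_pos _).le) (lip_sE0 hp hB) y z)
              (Finset.sum_le_sum fun l _ => emp_dev he (continuous_sE1 hp l) (abs_sE1_le' hp hB l)
                (mul_nonneg (by positivity) (exp_pos _).le) (lip_sE1 hp hB l) y z)).trans_eq ?_
            simp only [Finset.sum_const, Finset.card_univ, nsmul_eq_mul, hCd, ← hn]
            ring
        _ = _ := by rw [← Finset.sum_mul, sum_gw, one_mul]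
    calc |(∫ ξ, H (pt q b c z ξ) ∂gauss _) - m0|
        = |∫ ξ, (H (pt q b c z ξ) - m0) ∂gauss _| := by
          rw [integral_sub i0 (integrable_const _)]; simp
      _ ≤ ∫ ξ, (cDev L U B * devS f f1 q b c u z ξ + cDiag L U B / K) ∂gauss _ :=
          abs_integral_le_integral_abs.trans (integral_mono (i0.sub (integrable_const _)).abs
            ((i3.const_mul _).add (integrable_const _)) fun ξ => H1_near he hp hB u z ξ)
      _ ≤ _ := by
          rw [integral_add (i3.const_mul _) (integrable_const _), integral_const_mul, integral_const,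
            probReal_univ, one_smul, add_div, mul_div_assoc]
          refine add_le_add (mul_le_mul_of_nonneg_left hdev (by unfold cDev; positivity)) ?_
          refine div_le_div_of_nonneg_left (by unfold cDiag; positivity)
            (Real.sqrt_pos.2 (by linarith)) ?_
          rw [Real.sqrt_le_iff]; exact ⟨by linarith, by nlinarith⟩
  have hout : |(∫ z, ∫ ξ, H (pt q b c z ξ) ∂gauss ((Y × Fin K) × L) ∂gauss L)
      - (log K + lse u + ∫ z, (log (Zb f q b c u z) - 1 / 2 * Qb f f1 q a b c u z) ∂gauss L)|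
      ≤ (cDev L U B * Cd + cDiag L U B) / √(K : ℝ) := by
    have hic : Continuous fun z => ∫ ξ, H (pt q b c z ξ) ∂gauss ((Y × Fin K) × L) := by
      have hj : Continuous fun p : (L → ℝ) × ((Y × Fin K) × L → ℝ) => pt q b c p.1 p.2 :=
        continuous_pi fun x => (continuous_apply x.2).comp ((continuous_site (c x.1.1)).comp
          (Continuous.prodMk continuous_fst (by fun_prop)))
      exact continuous_of_dominated (bound := fun _ => M)
        (fun z => (hHc.comp (hj.comp (Continuous.prodMk_right z))).aestronglyMeasurable)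
        (fun _ => ae_of_all _ fun _ => hHb _) (integrable_const _)
        (ae_of_all _ fun ξ => hHc.comp (hj.comp (Continuous.prodMk_left ξ)))
    have i1 : Integrable (fun z => ∫ ξ, H (pt q b c z ξ) ∂gauss ((Y × Fin K) × L)) (gauss L) :=
      Vale.Agent.P150.integrable_gauss_bound hic (B := M) fun z => by
        rw [← Real.norm_eq_abs]
        exact (norm_integral_le_of_norm_le_const (C := M) (ae_of_all _ fun ξ => hHb _)).trans_eq (by simp)
    have i2 := Vale.Agent.P150.integrable_gauss_bound hmc hmb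
    have e : (∫ z, ∫ ξ, H (pt q b c z ξ) ∂gauss ((Y × Fin K) × L) ∂gauss L)
        - (log K + lse u + ∫ z, (log (Zb f q b c u z) - 1 / 2 * Qb f f1 q a b c u z) ∂gauss L)
        = ∫ z, ((∫ ξ, H (pt q b c z ξ) ∂gauss ((Y × Fin K) × L))
          - (log K + lse u + (log (Zb f q b c u z) - 1 / 2 * Qb f f1 q a b c u z))) ∂gauss L := by
      rw [integral_sub i1 ((integrable_const _).fun_add i2), integral_add (integrable_const _) i2]
      simp
    rw [e, ← Real.norm_eq_abs]
    exact (norm_integral_le_of_norm_le_const (ae_of_all _ fun z => hinner z)).trans_eq (by simp)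
  have hS := avgC_copy (c := c) he K u
  have hSK : 4 * n ^ 2 / K ≤ 4 * n ^ 2 / √(K : ℝ) := by
    refine div_le_div_of_nonneg_left (by positivity) (Real.sqrt_pos.2 (by linarith)) ?_
    rw [Real.sqrt_le_iff]; exact ⟨by linarith, by nlinarith⟩
  rw [hH0, mainE, cErr, ← hn, ← hCd, add_div, mul_div_assoc |μ|]
  have h1 := mul_le_mul_of_nonneg_left (hS.trans hSK) (abs_nonneg μ)
  rw [← abs_mul, mul_sub] at h1
  have h2 := abs_le.1 h1
  have h3 := abs_le.1 hout
  rw [abs_le]
  constructor <;> linarith

lemma limit_of_sqrt {x y C : ℝ} (h : ∀ K : ℕ, 0 < K → x ≤ y + C / √(K : ℝ)) : x ≤ y := by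
  refine ge_of_tendsto' (x := (atTop : Filter ℕ)) ?_ fun n => h (n + 1) n.succ_pos
  have : Tendsto (fun n : ℕ => C / √((n + 1 : ℕ) : ℝ)) atTop (𝓝 0) :=
    tendsto_const_nhds.div_atTop (Real.tendsto_sqrt_atTop.comp
      ((tendsto_natCast_atTop_atTop (R := ℝ)).comp (tendsto_add_atTop_nat 1)))
  simpa using this.const_add y

/-- From an upper tangent bound with copies to one row. -/
theorem end_le (he : Ends q a b c) (hp : Pot f f1 f2 f3 U V W) (hB : ∀ s, |f s| ≤ B) (μ : ℝ)
    (u : Y → ℝ)
    (h : ∀ K : ℕ, 0 < K →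
      vphi f (fun p : Y × Fin K => u p.1) (copE K a b c) (copP K q) (copR K) 1 ≤
        vphi f (fun p : Y × Fin K => u p.1) (copE K a b c) (copP K q) (copR K) 0
        - 1 / 2 * vpsi f f1 (fun p : Y × Fin K => u p.1) (copE K a b c) (copP K q) (copR K) 0
        - μ * avgC (fun p : Y × Fin K => u p.1) (fun p p' => ∑ l, ∑ l',
            Dmat (copE K a b c) (copP K q) (copR K) (p, l) (p', l') ^ 2)) :
    T f a lse u ≤ mainE f f1 q a b c μ u := by
  refine limit_of_sqrt (C := cErr L U V B μ) fun K hK => ?_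
  have : NeZero K := ⟨hK.ne'⟩
  have h0 := abs_le.1 (end_zero he hp hB K μ u)
  have h1 := h K hK
  rw [end_one hp hB K u] at h1
  linarith

/-- From a lower second order bound with copies to one row. -/
theorem end_ge (he : Ends q a b c) (hp : Pot f f1 f2 f3 U V W) (hB : ∀ s, |f s| ≤ B) (μ : ℝ)
    (u : Y → ℝ)
    (h : ∀ K : ℕ, 0 < K →
      vphi f (fun p : Y × Fin K => u p.1) (copE K a b c) (copP K q) (copR K) 0
        - 1 / 2 * vpsi f f1 (fun p : Y × Fin K => u p.1) (copE K a b c) (copP K q) (copR K) 0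
        - μ * avgC (fun p : Y × Fin K => u p.1) (fun p p' => ∑ l, ∑ l',
            Dmat (copE K a b c) (copP K q) (copR K) (p, l) (p', l') ^ 2)
        ≤ vphi f (fun p : Y × Fin K => u p.1) (copE K a b c) (copP K q) (copR K) 1) :
    mainE f f1 q a b c μ u ≤ T f a lse u := by
  refine limit_of_sqrt (C := cErr L U V B μ) fun K hK => ?_
  have : NeZero K := ⟨hK.ne'⟩
  have h0 := abs_le.1 (end_zero he hp hB K μ u)
  have h1 := h K hK
  rw [end_one hp hB K u] at h1
  linarith

end P157.RS.Row

end
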