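import Vale.Agent.P157.RS.RowEnd

/-!
# P157, RS: one row with infinitely many copies of every state
-/

noncomputable section

open MeasureTheory ProbabilityTheory Real Filter Topology Set
open scoped BigOperators Classical

namespace P157.RS.Row

open Vale.Agent.P150 (gauss)
open P157.Conc (Path Sp Dmat Pot pathE coef lin integral_lin_eq integral_split)

variable {Y L ι : Type*} [Fintype Y] [Nonempty Y] [Fintype L] [Nonempty L] [Fintype ι]
  {f f1 f2 f3 : ℝ → ℝ} {U V W B q : ℝ} {a : Y → L → ι → ℝ} {b : L → L → ℝ} {c : Y → L → L → ℝ}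
  {K : ℕ}

omit [Nonempty Y] [Nonempty L] in
/-- The mass of a linear functional. -/
lemma bilin_le {X : Type*} [Fintype X] (D : X → X → ℝ) (hD : ∀ x x', |D x x'| ≤ 2) (A C : X → ℝ) :
    |∑ x, ∑ x', D x x' * (A x * A x') - ∑ x, ∑ x', D x x' * (C x * C x')|
      ≤ 2 * ((∑ x, |A x|) + ∑ x, |C x|) * ∑ x, |A x - C x| := by
  simp only [← Finset.sum_sub_distrib, ← mul_sub]
  refine (Finset.abs_sum_le_sum_abs _ _).trans ?_
  refine (Finset.sum_le_sum fun x _ => (Finset.abs_sum_le_sum_abs _ _).trans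
    (Finset.sum_le_sum fun x' _ => (?_ : _ ≤ 2 * (|A x| * |A x' - C x'| + |A x - C x| * |C x'|)))).trans ?_
  · rw [abs_mul]
    refine mul_le_mul (hD x x') ?_ (abs_nonneg _) zero_le_two
    rw [show A x * A x' - C x * C x' = A x * (A x' - C x') + (A x - C x) * C x' by ring,
      ← abs_mul, ← abs_mul]
    exact abs_add_le _ _
  · simp only [mul_add, Finset.sum_add_distrib, ← Finset.mul_sum, ← Finset.sum_mul]
    linarith

/-- The fields of all copies. -/
def pt (q : ℝ) (b : L → L → ℝ) (c : Y → L → L → ℝ) (z : L → ℝ) (ξ : (Y × Fin K) × L → ℝ)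
    (x : (Y × Fin K) × L) : ℝ :=
  site q b (c x.1.1) z (fun m => ξ (x.1, m)) x.2

/-- The bounded quantity integrated at the initial end. -/
def H1 (f f1 : ℝ → ℝ) (q : ℝ) (a : Y → L → ι → ℝ) (b : L → L → ℝ) (c : Y → L → L → ℝ) (K : ℕ)
    (u : Y → ℝ) (v : (Y × Fin K) × L → ℝ) : ℝ :=
  vH f (fun p => u p.1) v
    - 1 / 2 * vQD f f1 (fun p => u p.1) (Dmat (copE K a b c) (copP K q) (copR K)) v

/-- The deviation of all empirical averages. -/
def devS (f f1 : ℝ → ℝ) (q : ℝ) (b : L → L → ℝ) (c : Y → L → L → ℝ) (u : Y → ℝ) (z : L → ℝ)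
    (ξ : (Y × Fin K) × L → ℝ) : ℝ :=
  ∑ y, gw u y * (|emp q b (c y) (sE0 f) y z ξ - bar q b (c y) (sE0 f) z|
    + ∑ l, |emp q b (c y) (sE1 f f1 l) y z ξ - bar q b (c y) (sE1 f f1 l) z|)

/-- Constant of the deviation. -/
def cDev (L : Type*) [Fintype L] (U B : ℝ) : ℝ :=
  exp (Fintype.card L * B) * (1 + 2 * Fintype.card L * U * (1 + Fintype.card L * U))

/-- Constant of the same copy term. -/
def cDiag (L : Type*) [Fintype L] (U B : ℝ) : ℝ :=
  (Fintype.card L : ℝ) ^ 2 * U ^ 2 * exp (2 * Fintype.card L * B)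

omit [Nonempty L] in
lemma Zb_ge (hp : Pot f f1 f2 f3 U V W) (hB : ∀ s, |f s| ≤ B) (u : Y → ℝ) (z : L → ℝ) :
    exp (-(Fintype.card L * B)) ≤ Zb f q b c u z := by
  calc exp (-(Fintype.card L * B)) = ∑ y, gw u y * exp (-(Fintype.card L * B)) := by
        rw [← Finset.sum_mul, sum_gw, one_mul]
    _ ≤ _ := Finset.sum_le_sum fun y _ =>
        mul_le_mul_of_nonneg_left (bar_sE0_ge hp hB _ z) (gw_nonneg u y)

omit [Nonempty L] in
lemma sum_abs_Fb_le (hp : Pot f f1 f2 f3 U V W) (hB : ∀ s, |f s| ≤ B) (u : Y → ℝ) (z : L → ℝ) :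
    ∑ y, ∑ l, |gw u y * Fb f f1 q b c u z y l| ≤ Fintype.card L * U := by
  have hZ := (exp_pos _).trans_le (Zb_ge (q := q) (b := b) (c := c) hp hB u z)
  calc ∑ y, ∑ l, |gw u y * Fb f f1 q b c u z y l|
      ≤ ∑ y, ∑ _l : L, U * (gw u y * bar q b (c y) (sE0 f) z) / Zb f q b c u z := by
        refine Finset.sum_le_sum fun y _ => Finset.sum_le_sum fun l _ => ?_
        rw [Fb, abs_mul, abs_div, abs_of_nonneg (gw_nonneg u y), abs_of_pos hZ, ← mul_div_assoc,
          mul_left_comm U]
        exact div_le_div_of_nonneg_right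
          (mul_le_mul_of_nonneg_left (bar_sE1_le hp hB _ z l) (gw_nonneg u y)) hZ.le
    _ = _ := by
        rw [Finset.sum_comm]
        simp only [← Finset.sum_div, ← Finset.mul_sum]
        rw [← Zb, Finset.sum_const, Finset.card_univ, nsmul_eq_mul, ← mul_assoc,
          mul_div_cancel_right₀ _ hZ.ne', mul_comm]

omit [Nonempty L] in
lemma abs_Qb_le (he : Ends q a b c) (hp : Pot f f1 f2 f3 U V W) (hB : ∀ s, |f s| ≤ B) (u : Y → ℝ)
    (z : L → ℝ) : |Qb f f1 q a b c u z| ≤ 2 * (Fintype.card L * U) ^ 2 := by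
  have h := sum_abs_Fb_le (q := q) (b := b) (c := c) hp hB u z
  simp only [Qb]
  refine (Finset.abs_sum_le_sum_abs _ _).trans ((Finset.sum_le_sum fun y _ =>
    (Finset.abs_sum_le_sum_abs _ _).trans (Finset.sum_le_sum fun l _ =>
      (Finset.abs_sum_le_sum_abs _ _).trans (Finset.sum_le_sum fun y' _ =>
        (Finset.abs_sum_le_sum_abs _ _).trans (Finset.sum_le_sum fun l' _ =>
          (?_ : _ ≤ 2 * (|gw u y * Fb f f1 q b c u z y l| * |gw u y' * Fb f f1 q b c u z y' l'|)))))).trans ?_)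
  · rw [abs_mul, ← abs_mul (gw u y * _)]
    exact mul_le_mul_of_nonneg_right (abs_Dst_le he _ _ _ _) (abs_nonneg _)
  · simp only [← Finset.mul_sum, ← Finset.sum_mul]
    rw [sq]
    exact mul_le_mul_of_nonneg_left (mul_le_mul h h
      (Finset.sum_nonneg fun _ _ => Finset.sum_nonneg fun _ _ => abs_nonneg _)
      ((Finset.sum_nonneg fun _ _ => Finset.sum_nonneg fun _ _ => abs_nonneg _).trans h)) zero_le_two

omit [Nonempty L] in
/-- The bounded quantity is close to its limit, given the empirical averages. -/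
lemma H1_near (he : Ends q a b c) (hp : Pot f f1 f2 f3 U V W) (hB : ∀ s, |f s| ≤ B) [NeZero K]
    (u : Y → ℝ) (z : L → ℝ) (ξ : (Y × Fin K) × L → ℝ) :
    |H1 f f1 q a b c K u (pt q b c z ξ)
        - (log K + lse u + (log (Zb f q b c u z) - 1 / 2 * Qb f f1 q a b c u z))|
      ≤ cDev L U B * devS f f1 q b c u z ξ + cDiag L U B / K := by
  have hK : (0 : ℝ) < K := by exact_mod_cast Nat.pos_of_ne_zero (NeZero.ne K)
  have hU : 0 ≤ U := (abs_nonneg _).trans (hp.b1 0)
  set n : ℝ := (Fintype.card L : ℝ) with hn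
  have hS : 0 < ∑ y, exp (u y) := Finset.sum_pos (fun _ _ => exp_pos _) Finset.univ_nonempty
  set v := pt q b c z ξ with hv
  have hsite : ∀ y k, (fun l => v ((y, k), l)) = site q b (c y) z (fun m => ξ ((y, k), m)) :=
    fun y k => rfl
  set α : Y → ℝ := fun y => emp q b (c y) (sE0 f) y z ξ with hα
  set β : Y → L → ℝ := fun y l => emp q b (c y) (sE1 f f1 l) y z ξ with hβ
  set Z : ℝ := ∑ y, gw u y * α y with hZdef
  have hαb : ∀ y, exp (-(n * B)) ≤ α y := fun y => by
    simp only [hα, emp]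
    rw [le_div_iff₀ hK]
    refine le_trans (le_of_eq ?_) (Finset.card_nsmul_le_sum _ _ (exp (-(n * B)))
      fun k _ => (sE0_bounds hB _).1)
    simp [mul_comm]
  have hZ1 : exp (-(n * B)) ≤ Z := by
    calc exp (-(n * B)) = ∑ y, gw u y * exp (-(n * B)) := by rw [← Finset.sum_mul, sum_gw, one_mul]
      _ ≤ Z := Finset.sum_le_sum fun y _ => mul_le_mul_of_nonneg_left (hαb y) (gw_nonneg u y)
  have hZ0 : 0 < Z := (exp_pos _).trans_le hZ1
  have hZb1 := Zb_ge (q := q) (b := b) (c := c) hp hB u z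
  have hZb0 : 0 < Zb f q b c u z := (exp_pos _).trans_le hZb1
  have hsum : ∑ p : Y × Fin K, exp (u p.1 + ∑ l, f (v (p, l))) = K * (∑ y, exp (u y)) * Z := by
    simp only [hZdef, hα, emp, gw, Fintype.sum_prod_type, exp_add, Finset.mul_sum, Finset.sum_div]
    refine Finset.sum_congr rfl fun y _ => Finset.sum_congr rfl fun k _ => ?_
    rw [← hsite, sE0, ← Finset.mul_sum]
    field_simp
  have hp0 : ∀ p : Y × Fin K, gw (fun p => u p.1 + ∑ l, f (v (p, l))) p
      = gw u p.1 * sE0 f (fun l => v (p, l)) / (K * Z) := fun p => by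
    simp only [gw]
    rw [hsum, exp_add, sE0]
    field_simp
  set A : Y × L → ℝ := fun x => gw u x.1 * β x.1 x.2 / Z with hA
  set C : Y × L → ℝ := fun x => gw u x.1 * Fb f f1 q b c u z x.1 x.2 with hC
  set qq : (Y × Fin K) × L → ℝ := vq f f1 (fun p => u p.1) v with hqq
  have hk : ∀ y l, ∑ k, qq ((y, k), l) = A (y, l) := fun y l => by
    simp only [hqq, vq, hp0, hA, hβ, emp, sE1, Finset.mul_sum, Finset.sum_div]
    refine Finset.sum_congr rfl fun k _ => ?_
    rw [← hsite]
    field_simp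
  have hvH : vH f (fun p => u p.1) v = log K + lse u + log Z := by
    simp only [vH, lse]
    rw [hsum, Real.log_mul (mul_ne_zero hK.ne' hS.ne') hZ0.ne', Real.log_mul hK.ne' hS.ne']
  set δ := devS f f1 q b c u z ξ with hδ
  have hδ0 : ∑ y, gw u y * |α y - bar q b (c y) (sE0 f) z| ≤ δ := Finset.sum_le_sum fun y _ =>
    mul_le_mul_of_nonneg_left (le_add_of_nonneg_right (Finset.sum_nonneg fun _ _ => abs_nonneg _))
      (gw_nonneg u y)
  have hZd : |Z - Zb f q b c u z| ≤ δ := by
    refine le_trans ?_ hδ0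
    simp only [hZdef, Zb, ← Finset.sum_sub_distrib, ← mul_sub]
    refine (Finset.abs_sum_le_sum_abs _ _).trans_eq (Finset.sum_congr rfl fun y _ => ?_)
    rw [abs_mul, abs_of_nonneg (gw_nonneg u y)]
  have hinv : ∀ w : ℝ, exp (-(n * B)) ≤ w → 1 / w ≤ exp (n * B) := fun w hw => by
    rw [div_le_iff₀ ((exp_pos _).trans_le hw)]
    calc (1 : ℝ) = exp (n * B) * exp (-(n * B)) := by rw [← exp_add]; simp
      _ ≤ _ := mul_le_mul_of_nonneg_left hw (exp_pos _).le
  have hlog : |log Z - log (Zb f q b c u z)| ≤ exp (n * B) * δ := by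
    have key : ∀ x w : ℝ, exp (-(n * B)) ≤ w → 0 < x → log x - log w ≤ exp (n * B) * |x - w| := by
      intro x w hw hx
      have hw0 := (exp_pos _).trans_le hw
      have h := Real.log_le_sub_one_of_pos (div_pos hx hw0)
      rw [Real.log_div hx.ne' hw0.ne', div_sub_one hw0.ne', div_eq_mul_one_div] at h
      refine h.trans ((mul_le_mul_of_nonneg_right (le_abs_self _) (by positivity)).trans ?_)
      rw [mul_comm]
      exact mul_le_mul_of_nonneg_right (hinv w hw) (abs_nonneg _)
    have h1 := key Z _ hZb1 hZ0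
    have h2 := key _ Z hZ1 hZb0
    rw [abs_sub_comm (Zb f q b c u z)] at h2
    have := mul_le_mul_of_nonneg_left hZd (exp_pos (n * B)).le
    rw [abs_le]; constructor <;> linarith
  have hAC : ∑ x, |A x - C x| ≤ exp (n * B) * (1 + n * U) * δ := by
    have e : ∀ x : Y × L, A x - C x = gw u x.1 * (β x.1 x.2 - bar q b (c x.1) (sE1 f f1 x.2) z) / Z
        + C x * (Zb f q b c u z - Z) / Z := fun x => by
      simp only [hA, hC, Fb]; field_simp; ring
    have h1 : ∑ x : Y × L, |gw u x.1 * (β x.1 x.2 - bar q b (c x.1) (sE1 f f1 x.2) z) / Z|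
        ≤ exp (n * B) * δ := by
      simp only [abs_div, abs_of_pos hZ0, ← Finset.sum_div, abs_mul, abs_of_nonneg (gw_nonneg u _)]
      rw [div_eq_mul_one_div, mul_comm (exp (n * B))]
      refine mul_le_mul ?_ (hinv Z hZ1) (by positivity) ?_
      · rw [Fintype.sum_prod_type]
        refine Finset.sum_le_sum fun y _ => ?_
        simp only
        rw [← Finset.mul_sum]
        exact mul_le_mul_of_nonneg_left (le_add_of_nonneg_left (abs_nonneg _)) (gw_nonneg u y)
      · exact Finset.sum_nonneg fun y _ => mul_nonneg (gw_nonneg u y)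
          (add_nonneg (abs_nonneg _) (Finset.sum_nonneg fun _ _ => abs_nonneg _))
    have h2 : ∑ x, |C x * (Zb f q b c u z - Z) / Z| ≤ n * U * (δ * exp (n * B)) := by
      simp only [abs_div, abs_mul, abs_of_pos hZ0, ← Finset.sum_mul, mul_div_assoc]
      refine mul_le_mul ?_ ?_ (by positivity) (mul_nonneg (Nat.cast_nonneg _) hU)
      · rw [Fintype.sum_prod_type]; exact sum_abs_Fb_le hp hB u z
      · rw [div_eq_mul_one_div, abs_sub_comm]
        exact mul_le_mul hZd (hinv Z hZ1) (by positivity) ((abs_nonneg _).trans hZd)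
    calc ∑ x, |A x - C x| ≤ ∑ x : Y × L, (|gw u x.1 * (β x.1 x.2 - bar q b (c x.1) (sE1 f f1 x.2) z) / Z|
          + |C x * (Zb f q b c u z - Z) / Z|) :=
        Finset.sum_le_sum fun x _ => (e x).symm ▸ abs_add_le _ _
      _ ≤ exp (n * B) * δ + n * U * (δ * exp (n * B)) := by
          rw [Finset.sum_add_distrib]; exact add_le_add h1 h2
      _ = _ := by ring
  have hAl : ∑ x, |A x| ≤ n * U := by
    calc ∑ x, |A x| ≤ ∑ x : Y × L, U * (gw u x.1 * α x.1) / Z := Finset.sum_le_sum fun x _ => by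
          simp only [hA, hα, hβ, abs_div, abs_mul, abs_of_pos hZ0, abs_of_nonneg (gw_nonneg u _)]
          refine div_le_div_of_nonneg_right ?_ hZ0.le
          rw [mul_left_comm U]
          refine mul_le_mul_of_nonneg_left ?_ (gw_nonneg u _)
          rw [emp, emp, abs_div, abs_of_pos hK, mul_div_assoc', Finset.mul_sum]
          exact div_le_div_of_nonneg_right ((Finset.abs_sum_le_sum_abs _ _).trans
            (Finset.sum_le_sum fun k _ => abs_sE1_le hp _ _)) hK.le
      _ = _ := by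
          rw [Fintype.sum_prod_type, Finset.sum_comm]
          simp only [← Finset.sum_div, ← Finset.mul_sum]
          rw [← hZdef, Finset.sum_const, Finset.card_univ, nsmul_eq_mul, ← mul_assoc,
            mul_div_cancel_right₀ _ hZ0.ne', mul_comm]
  have hCl : ∑ x, |C x| ≤ n * U := by
    rw [Fintype.sum_prod_type]; exact sum_abs_Fb_le hp hB u z
  -- the replica average
  set Ds : Y × L → Y × L → ℝ := fun x x' => Dst q a b x.1 x.2 x'.1 x'.2 with hDs
  have hQb : Qb f f1 q a b c u z = ∑ x, ∑ x', Ds x x' * (C x * C x') := by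
    simp only [Qb, Fintype.sum_prod_type, hDs, hC]
  set E : ℝ := ∑ p : Y × Fin K, ∑ l, ∑ l',
    Dst q a b p.1 l p.1 l' * (qq (p, l) * qq (p, l')) with hE
  have hQD : vQD f f1 (fun p => u p.1) (Dmat (copE K a b c) (copP K q) (copR K)) v
      = (∑ x, ∑ x', Ds x x' * (A x * A x')) - E := by
    have e1 : ∀ x x', Ds x x' * (A x * A x') = ∑ k, ∑ k',
        Ds x x' * (qq ((x.1, k), x.2) * qq ((x'.1, k'), x'.2)) := fun x x' => by
      rw [← hk x.1 x.2, ← hk x'.1 x'.2, Finset.sum_mul_sum, Finset.mul_sum]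
      simp only [Finset.mul_sum]
    have e2 : vQD f f1 (fun p => u p.1) (Dmat (copE K a b c) (copP K q) (copR K)) v
        = ∑ p : Y × Fin K, ∑ l, ((∑ p' : Y × Fin K, ∑ l',
            Dst q a b p.1 l p'.1 l' * (qq (p, l) * qq (p', l')))
          - ∑ l', Dst q a b p.1 l p.1 l' * (qq (p, l) * qq (p, l'))) := by
      simp only [vQD, ← hqq, cop_D he, Fintype.sum_prod_type (α₁ := Y × Fin K)]
      refine Finset.sum_congr rfl fun p _ => Finset.sum_congr rfl fun l _ => ?_
      rw [eq_sub_iff_add_eq, ← Finset.sum_erase_add _ _ (Finset.mem_univ p),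
        ← Finset.sum_erase_add _ _ (Finset.mem_univ p)]
      simp only [if_true, zero_mul, Finset.sum_const_zero, add_zero]
      congr 1
      exact Finset.sum_congr rfl fun p' hp' => Finset.sum_congr rfl fun l' _ => by
        rw [if_neg (Ne.symm (Finset.ne_of_mem_erase hp'))]
    have hre : ∀ G : Y × Fin K → L → ℝ, ∑ p, ∑ l, G p l = ∑ x : Y × L, ∑ k, G (x.1, k) x.2 := by
      intro G
      rw [Fintype.sum_prod_type, Fintype.sum_prod_type]
      exact Finset.sum_congr rfl fun y _ => Finset.sum_comm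
    rw [e2]
    simp only [Finset.sum_sub_distrib, hE, e1]
    congr 1
    rw [hre]
    refine Finset.sum_congr rfl fun x _ => ?_
    rw [Finset.sum_comm (s := (Finset.univ : Finset (Y × L)))]
    exact Finset.sum_congr rfl fun k _ => hre _
  have hEb : |E| ≤ 2 * cDiag L U B / K := by
    set pp : Y × Fin K → ℝ := gw (fun p => u p.1 + ∑ l, f (v (p, l))) with hpp
    have hpm : ∀ p, pp p ≤ exp (2 * n * B) / K := fun p => by
      rw [hp0, div_le_div_iff₀ (mul_pos hK hZ0) hK]
      have h1 := (sE0_bounds hB (fun l => v (p, l))).2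
      have h3 : gw u p.1 * sE0 f (fun l => v (p, l)) ≤ exp (2 * n * B) * Z := by
        refine (mul_le_of_le_one_left (exp_pos _).le (gw_le_one u _)).trans (h1.trans ?_)
        refine le_trans (le_of_eq ?_) (mul_le_mul_of_nonneg_left hZ1 (exp_pos _).le)
        rw [← exp_add]; congr 1; ring
      have := mul_le_mul_of_nonneg_right h3 hK.le
      linarith
    have hpp0 : ∀ p, 0 ≤ pp p := fun p => gw_nonneg _ p
    have hq' : ∀ p l, |qq (p, l)| ≤ pp p * U := fun p l => by
      simp only [hqq, vq, ← hpp, abs_mul, abs_of_nonneg (hpp0 p)]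
      exact mul_le_mul_of_nonneg_left (hp.b1 _) (hpp0 p)
    calc |E| ≤ ∑ p, pp p * (2 * n ^ 2 * U ^ 2 * (exp (2 * n * B) / K)) := by
          refine (Finset.abs_sum_le_sum_abs _ _).trans (Finset.sum_le_sum fun p _ => ?_)
          have hp1 : 0 ≤ pp p := gw_nonneg _ p
          calc |∑ l, ∑ l', Dst q a b p.1 l p.1 l' * (qq (p, l) * qq (p, l'))|
              ≤ ∑ _l : L, ∑ _l' : L, 2 * (pp p * U * (pp p * U)) := by
                refine (Finset.abs_sum_le_sum_abs _ _).trans (Finset.sum_le_sum fun l _ =>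
                  (Finset.abs_sum_le_sum_abs _ _).trans (Finset.sum_le_sum fun l' _ => ?_))
                rw [abs_mul, abs_mul (qq (p, l))]
                exact mul_le_mul (abs_Dst_le he _ _ _ _) (mul_le_mul (hq' p l) (hq' p l')
                  (abs_nonneg _) (mul_nonneg hp1 hU))
                  (mul_nonneg (abs_nonneg _) (abs_nonneg _)) zero_le_two
            _ = pp p * (2 * n ^ 2 * U ^ 2 * pp p) := by
                simp [hn]; ring
            _ ≤ _ := mul_le_mul_of_nonneg_left (mul_le_mul_of_nonneg_left (hpm p) (by positivity)) hp1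
      _ = _ := by
          rw [← Finset.sum_mul, hpp, sum_gw, one_mul, cDiag, ← hn]; ring
  have hb := bilin_le Ds (fun x x' => abs_Dst_le he _ _ _ _) A C
  rw [H1, hvH, hQD, hQb]
  have hδn : 0 ≤ δ := (abs_nonneg _).trans hZd
  have h4 : 2 * ((∑ x, |A x|) + ∑ x, |C x|) * ∑ x, |A x - C x|
      ≤ 2 * (n * U + n * U) * (exp (n * B) * (1 + n * U) * δ) :=
    mul_le_mul (mul_le_mul_of_nonneg_left (add_le_add hAl hCl) zero_le_two) hAC
      (Finset.sum_nonneg fun _ _ => abs_nonneg _) (by positivity)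
  rw [cDev, ← hn]
  have h5 := abs_le.1 hlog
  have h6 := abs_le.1 (hb.trans h4)
  have h7 := abs_le.1 hEb
  rw [mul_div_assoc] at h7
  rw [abs_le]
  constructor <;> linarith

end P157.RS.Row

end
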