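import Vale.Agent.P157.RS.RowExp
import Vale.Agent.P157.RS.Pair2

/-!
# P157, RS: one pair of coupled systems at fixed shared fields
-/

noncomputable section

open MeasureTheory ProbabilityTheory Real Filter Topology Set
open scoped BigOperators Classical

namespace P157.RS.Row

open Vale.Agent.P150 (gauss)
open P157.Conc (Pot cav cav_exp_bounds cav_ratio_le abs_f1exp_le)

variable {f f1 f2 f3 : ℝ → ℝ} {U V W B q c : ℝ}

/-- The derivatives of `exp f`. -/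
def e1 (f f1 : ℝ → ℝ) (s : ℝ) : ℝ := f1 s * exp (f s)

/-- The second derivative of `exp f`. -/
def e2 (f f1 f2 : ℝ → ℝ) (s : ℝ) : ℝ := (f2 s + f1 s ^ 2) * exp (f s)

/-- The third derivative of `exp f`. -/
def e3 (f f1 f2 f3 : ℝ → ℝ) (s : ℝ) : ℝ :=
  (f3 s + 3 * f1 s * f2 s + f1 s ^ 3) * exp (f s)

/-- A common bound of `exp f` and its first three derivatives. -/
def cA (U V W B : ℝ) : ℝ := exp B * (1 + U + V + (W + 3 * U * (V + U ^ 2) + U ^ 3))

variable (hp : Pot f f1 f2 f3 U V W) (hB : ∀ s, |f s| ≤ B)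
include hp hB

omit hp in
lemma exp_le_eB (s : ℝ) : |exp (f s)| ≤ exp B := by
  rw [abs_of_pos (exp_pos _)]; exact exp_le_exp.2 (abs_le.1 (hB s)).2

lemma e2_le (s : ℝ) : |e2 f f1 f2 s| ≤ V * exp B := by
  rw [e2, abs_mul]
  exact mul_le_mul (hp.b2 s) (exp_le_eB hB s) (abs_nonneg _) ((abs_nonneg _).trans (hp.b2 s))

lemma cA_bounds (s : ℝ) : |exp (f s)| ≤ cA U V W B ∧ |e1 f f1 s| ≤ cA U V W B ∧
    |e2 f f1 f2 s| ≤ cA U V W B ∧ |e3 f f1 f2 f3 s| ≤ cA U V W B := by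
  have hU : 0 ≤ U := (abs_nonneg _).trans (hp.b1 0)
  have hV : 0 ≤ V := (abs_nonneg _).trans (hp.b2 0)
  have hW : 0 ≤ W := (abs_nonneg _).trans (hp.b3 0)
  have h2 : |f2 s| ≤ V + U ^ 2 := by
    have h := abs_add_le (f2 s + f1 s ^ 2) (-(f1 s ^ 2))
    rw [add_neg_cancel_right, abs_neg, abs_pow] at h
    exact h.trans (add_le_add (hp.b2 s) (pow_le_pow_left₀ (abs_nonneg _) (hp.b1 s) 2))
  have h3 : |f3 s + 3 * f1 s * f2 s + f1 s ^ 3| ≤ W + 3 * U * (V + U ^ 2) + U ^ 3 := by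
    refine (abs_add_three _ _ _).trans (add_le_add (add_le_add (hp.b3 s) ?_) ?_)
    · rw [abs_mul, abs_mul, abs_of_pos (by norm_num : (0 : ℝ) < 3)]
      exact mul_le_mul (mul_le_mul_of_nonneg_left (hp.b1 s) (by norm_num)) h2 (abs_nonneg _)
        (by positivity)
    · rw [abs_pow]; exact pow_le_pow_left₀ (abs_nonneg _) (hp.b1 s) 3
  have he := exp_le_eB hB s
  have hm : ∀ x y : ℝ, |x| ≤ y → 0 ≤ y → |x * exp (f s)| ≤ exp B * y := fun x y hx hy => by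
    rw [abs_mul, mul_comm (exp B)]
    exact mul_le_mul hx he (abs_nonneg _) hy
  have hz : 0 ≤ W + 3 * U * (V + U ^ 2) + U ^ 3 := by positivity
  have hB0 := (exp_pos B).le
  simp only [cA, e1, e2, e3]
  refine ⟨?_, (hm _ _ (hp.b1 s) hU).trans ?_, (hm _ _ (hp.b2 s) hV).trans ?_, (hm _ _ h3 hz).trans ?_⟩
  · exact he.trans (le_mul_of_one_le_right hB0 (by linarith))
  all_goals exact mul_le_mul_of_nonneg_left (by linarith) hB0

omit hB in
lemma d_e0 (s : ℝ) : HasDerivAt (fun x => exp (f x)) (e1 f f1 s) s :=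
  (hp.d1 s).exp.congr_deriv (by simp [e1]; ring)

omit hB in
lemma d_e1 (s : ℝ) : HasDerivAt (e1 f f1) (e2 f f1 f2 s) s :=
  ((hp.d2 s).mul (hp.d1 s).exp).congr_deriv (by simp [e2]; ring)

omit hB in
lemma d_e2 (s : ℝ) : HasDerivAt (e2 f f1 f2) (e3 f f1 f2 f3 s) s :=
  (((hp.d3 s).add ((hp.d2 s).pow 2)).mul (hp.d1 s).exp).congr_deriv (by
    simp [e3]; ring)

omit hB in
lemma c_e3 : Continuous (e3 f f1 f2 f3) := by
  have := hp.cf; have := hp.c1; have := hp.c2; have := hp.c3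
  unfold e3; fun_prop

omit hp hB in
lemma d_shift {g g1 : ℝ → ℝ} (hg : ∀ s, HasDerivAt g (g1 s) s) (a r k : ℝ) (x : ℝ) :
    HasDerivAt (fun x => k * g (a + r * x)) (k * r * g1 (a + r * x)) x :=
  (((hg _).comp x (((hasDerivAt_id x).const_mul r).const_add a)).const_mul k).congr_deriv (by
    simp; ring)

/-- The three expansions at fixed shared fields. -/
theorem pair_bounds (hq0 : 0 ≤ q) (hq1 : q ≤ 1) (hc : c ^ 2 ≤ 1) (za zb : ℝ) :
    Pair2.J (fun x => exp (f (√q * za + √(1 - q) * x))) (fun x => exp (f (√q * zb + √(1 - q) * x))) c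
        ≤ cav (fun s => exp (f s)) q za * cav (fun s => exp (f s)) q zb
          + c * (1 - q) * (cav (e1 f f1) q za * cav (e1 f f1) q zb)
          + (c * (1 - q)) ^ 2 * (V ^ 2 * exp (2 * B)) / 2 ∧
      |Pair2.J (fun x => exp (f (√q * za + √(1 - q) * x))) (fun x => exp (f (√q * zb + √(1 - q) * x))) c
        - cav (fun s => exp (f s)) q za * cav (fun s => exp (f s)) q zb|
          ≤ |c * (1 - q)| * (U ^ 2 * exp (2 * B)) ∧
      |Pair2.J (fun x => e1 f f1 (√q * za + √(1 - q) * x)) (fun x => exp (f (√q * zb + √(1 - q) * x))) c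
        - cav (e1 f f1) q za * cav (fun s => exp (f s)) q zb|
          ≤ |c * (1 - q)| * (V * U * exp (2 * B)) ∧
      |Pair2.J (fun x => exp (f (√q * za + √(1 - q) * x))) (fun x => e1 f f1 (√q * zb + √(1 - q) * x)) c
        - cav (fun s => exp (f s)) q za * cav (e1 f f1) q zb|
          ≤ |c * (1 - q)| * (V * U * exp (2 * B)) := by
  set r := √(1 - q) with hr
  have hr0 : 0 ≤ r := Real.sqrt_nonneg _
  have hr1 : r ≤ 1 := Real.sqrt_le_one.2 (by linarith)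
  have hrr : r * r = 1 - q := Real.mul_self_sqrt (by linarith)
  set A := cA U V W B
  have hA : 0 ≤ A := (abs_nonneg _).trans (cA_bounds hp hB 0).1
  have hU : 0 ≤ U := (abs_nonneg _).trans (hp.b1 0)
  have hV : 0 ≤ V := (abs_nonneg _).trans (hp.b2 0)
  have hexp : exp B * exp B = exp (2 * B) := by rw [← exp_add]; ring_nf
  have hb : ∀ {g : ℝ → ℝ} {M : ℝ} (k : ℝ), (∀ s, |g s| ≤ M) → 0 ≤ k → ∀ a x : ℝ,
      |k * g (a + r * x)| ≤ k * M := fun k hg hk a x => by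
    rw [abs_mul, abs_of_nonneg hk]; exact mul_le_mul_of_nonneg_left (hg _) hk
  have hbA : ∀ {g : ℝ → ℝ} (k : ℝ), (∀ s, |g s| ≤ A) → 0 ≤ k → k ≤ 1 → ∀ a x : ℝ,
      |k * g (a + r * x)| ≤ A := fun k hg hk hk1 a x =>
    (hb k hg hk a x).trans (mul_le_of_le_one_left hA hk1)
  have hk : (0 : ℝ) ≤ 1 * r * r ∧ 1 * r * r ≤ 1 ∧ 0 ≤ 1 * r ∧ 1 * r ≤ 1 ∧
      0 ≤ 1 * r * r * r ∧ 1 * r * r * r ≤ 1 := by
    refine ⟨by positivity, ?_, by positivity, by linarith, by positivity, ?_⟩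
    · nlinarith
    · nlinarith [mul_nonneg hr0 hr0]
  obtain ⟨k2, k2', k1, k1', k3, k3'⟩ := hk
  have b0 := fun s => (cA_bounds hp hB s).1
  have b1 := fun s => (cA_bounds hp hB s).2.1
  have b2 := fun s => (cA_bounds hp hB s).2.2.1
  have b3 := fun s => (cA_bounds hp hB s).2.2.2
  have c3' : ∀ a : ℝ, Continuous fun x => 1 * r * r * r * e3 f f1 f2 f3 (a + r * x) := fun a =>
    continuous_const.mul ((c_e3 hp).comp (by fun_prop))
  have c2' : ∀ a : ℝ, Continuous fun x => 1 * r * r * e2 f f1 f2 (a + r * x) := fun a =>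
    continuous_iff_continuousAt.2 fun x => (d_shift (d_e2 hp) a r _ x).continuousAt
  have U1 : ∀ s, |e1 f f1 s| ≤ U * exp B := abs_f1exp_le hp hB
  have s1 := Pair2.J_second
    (d_shift (d_e0 hp) (√q * za) r 1) (d_shift (d_e1 hp) _ r _) (d_shift (d_e2 hp) _ r _) (c3' _)
    (d_shift (d_e0 hp) (√q * zb) r 1) (d_shift (d_e1 hp) _ r _) (d_shift (d_e2 hp) _ r _) (c3' _)
    (fun x => hbA 1 b0 zero_le_one le_rfl _ x) (fun x => hbA _ b1 k1 k1' _ x)
    (fun x => hbA _ b2 k2 k2' _ x) (fun x => hbA _ b3 k3 k3' _ x)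
    (fun x => hbA 1 b0 zero_le_one le_rfl _ x) (fun x => hbA _ b1 k1 k1' _ x)
    (fun x => hbA _ b2 k2 k2' _ x) (fun x => hbA _ b3 k3 k3' _ x) hc
    (fun x => hb _ (e2_le hp hB) k2 _ x) (fun x => hb _ (e2_le hp hB) k2 _ x)
  have s2 := Pair2.J_first
    (d_shift (d_e0 hp) (√q * za) r 1) (d_shift (d_e1 hp) _ r _) (c2' _)
    (d_shift (d_e0 hp) (√q * zb) r 1) (d_shift (d_e1 hp) _ r _) (c2' _)
    (fun x => hbA 1 b0 zero_le_one le_rfl _ x) (fun x => hbA _ b1 k1 k1' _ x)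
    (fun x => hbA _ b2 k2 k2' _ x) (fun x => hbA 1 b0 zero_le_one le_rfl _ x)
    (fun x => hbA _ b1 k1 k1' _ x) (fun x => hbA _ b2 k2 k2' _ x) hc
    (fun x => hb _ U1 k1 _ x) (fun x => hb _ U1 k1 _ x)
  have s3 := Pair2.J_first
    (d_shift (d_e1 hp) (√q * za) r 1) (d_shift (d_e2 hp) _ r _)
    (continuous_const.mul ((c_e3 hp).comp (by fun_prop)))
    (d_shift (d_e0 hp) (√q * zb) r 1) (d_shift (d_e1 hp) _ r _) (c2' _)
    (fun x => hbA 1 b1 zero_le_one le_rfl _ x) (fun x => hbA _ b2 k1 k1' _ x)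
    (fun x => hbA _ b3 k2 k2' _ x) (fun x => hbA 1 b0 zero_le_one le_rfl _ x)
    (fun x => hbA _ b1 k1 k1' _ x) (fun x => hbA _ b2 k2 k2' _ x) hc
    (fun x => hb _ (e2_le hp hB) k1 _ x) (fun x => hb _ U1 k1 _ x)
  have s4 := Pair2.J_first
    (d_shift (d_e0 hp) (√q * za) r 1) (d_shift (d_e1 hp) _ r _) (c2' _)
    (d_shift (d_e1 hp) (√q * zb) r 1) (d_shift (d_e2 hp) _ r _)
    (continuous_const.mul ((c_e3 hp).comp (by fun_prop)))
    (fun x => hbA 1 b0 zero_le_one le_rfl _ x) (fun x => hbA _ b1 k1 k1' _ x)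
    (fun x => hbA _ b2 k2 k2' _ x) (fun x => hbA 1 b1 zero_le_one le_rfl _ x)
    (fun x => hbA _ b2 k1 k1' _ x) (fun x => hbA _ b3 k2 k2' _ x) hc
    (fun x => hb _ U1 k1 _ x) (fun x => hb _ (e2_le hp hB) k1 _ x)
  simp only [one_mul, integral_const_mul] at s1 s2 s3 s4
  simp only [cav, ← hr]
  refine ⟨s1.trans_eq ?_, s2.trans_eq ?_, s3.trans_eq ?_, s4.trans_eq ?_⟩
  · rw [← hexp, ← hrr]; ring
  all_goals
    rw [← hexp, ← hrr, abs_mul, abs_mul_self]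
    ring

end P157.RS.Row

end
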