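import Vale.Agent.P157.RS.RowPair

/-!
# P157, RS: the bound of a pair of systems at fixed shared fields
-/

noncomputable section

open MeasureTheory ProbabilityTheory Real Filter Topology Set
open scoped BigOperators Classical

namespace P157.RS.Row

open Vale.Agent.P150 (gauss)
open P157.Conc (Pot cav cav_exp_bounds cav_ratio_le integral_lin_eq lin pairG)

variable {Y ι : Type*} [Fintype Y] [Nonempty Y] [Fintype ι]
  {f f1 f2 f3 : ℝ → ℝ} {U V W B q ρ : ℝ}

/-- The mixing of the shared fields of a pair. -/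
def b2m (ρ : ℝ) : Fin 2 → Fin 2 → ℝ := ![![1, 0], ![ρ, √(1 - ρ ^ 2)]]

/-- The coupling inside a pair. -/
def cIn (q ρ : ℝ) (a : Y → Fin 2 → ι → ℝ) (y : Y) : ℝ :=
  (dot (a y 0) (a y 1) - ρ * q) / (1 - q)

/-- The mixing of the private fields of a pair. -/
def c2m (q ρ : ℝ) (a : Y → Fin 2 → ι → ℝ) (y : Y) : Fin 2 → Fin 2 → ℝ :=
  ![![1, 0], ![cIn q ρ a y, √(1 - cIn q ρ a y ^ 2)]]

variable {a : Y → Fin 2 → ι → ℝ}

omit [Fintype Y] [Nonempty Y] in
lemma cIn_sq (hq : q ∈ Ico (0 : ℝ) 1) (hR : ∀ y, |dot (a y 0) (a y 1) - ρ * q| ≤ 1 - q) (y : Y) :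
    cIn q ρ a y ^ 2 ≤ 1 := by
  rw [sq_le_one_iff_abs_le_one, cIn, abs_div, abs_of_pos (sub_pos.2 hq.2),
    div_le_one (sub_pos.2 hq.2)]
  exact hR y

omit [Fintype Y] [Nonempty Y] in
lemma ends2 (ha : Unit1 a) (hq : q ∈ Ico (0 : ℝ) 1) (hρ : ρ ∈ Icc (-1 : ℝ) 1)
    (hR : ∀ y, |dot (a y 0) (a y 1) - ρ * q| ≤ 1 - q) :
    Ends q a (b2m ρ) (c2m q ρ a) where
  h0 := hq.1
  h1 := hq.2.le
  ha := ha
  hb l := by
    have : ρ ^ 2 ≤ 1 := (sq_le_one_iff_abs_le_one _).2 (abs_le.2 hρ)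
    fin_cases l <;> simp [b2m, dot, Fin.sum_univ_two, ← sq, Real.sq_sqrt (sub_nonneg.2 this)]
  hc y l := by
    fin_cases l <;>
      simp [c2m, dot, Fin.sum_univ_two, ← sq, Real.sq_sqrt (sub_nonneg.2 (cIn_sq hq hR y))]
  hin y l l' := by
    have h1 : ρ ^ 2 ≤ 1 := (sq_le_one_iff_abs_le_one _).2 (abs_le.2 hρ)
    have h2 := cIn_sq hq hR y
    have hne : (1 : ℝ) - q ≠ 0 := (sub_pos.2 hq.2).ne'
    have hs1 := Real.mul_self_sqrt (sub_nonneg.2 h1)
    have hs2 := Real.mul_self_sqrt (sub_nonneg.2 h2)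
    have hcomm : dot (a y 1) (a y 0) = dot (a y 0) (a y 1) := by simp [dot, mul_comm]
    fin_cases l <;> fin_cases l'
    · simp [b2m, c2m, dot, Fin.sum_univ_two]; simpa [dot] using ha y 0
    · simp only [Fin.zero_eta, Fin.mk_one]
      rw [show dot (b2m ρ 0) (b2m ρ 1) = ρ by simp [b2m, dot, Fin.sum_univ_two],
        show dot (c2m q ρ a y 0) (c2m q ρ a y 1) = cIn q ρ a y by
          simp [c2m, dot, Fin.sum_univ_two], cIn]
      field_simp; ring
    · simp only [Fin.zero_eta, Fin.mk_one]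
      rw [hcomm, show dot (b2m ρ 1) (b2m ρ 0) = ρ by simp [b2m, dot, Fin.sum_univ_two],
        show dot (c2m q ρ a y 1) (c2m q ρ a y 0) = cIn q ρ a y by
          simp [c2m, dot, Fin.sum_univ_two], cIn]
      field_simp; ring
    · simp only [Fin.mk_one]
      rw [ha y 1, show dot (b2m ρ 1) (b2m ρ 1) = 1 by
          simp [b2m, dot, Fin.sum_univ_two]; linarith,
        show dot (c2m q ρ a y 1) (c2m q ρ a y 1) = 1 by
          simp [c2m, dot, Fin.sum_univ_two]; linarith]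
      ring

/-- The second shared field. -/
def zsnd (ρ : ℝ) (z : Fin 2 → ℝ) : ℝ := ρ * z 0 + √(1 - ρ ^ 2) * z 1

lemma integral_two {F : ℝ → ℝ → ℝ} :
    ∫ z, F (z 0) (z 1) ∂gauss (Fin 2)
      = ∫ p : ℝ × ℝ, F p.1 p.2 ∂(gaussianReal 0 1).prod (gaussianReal 0 1) := by
  have h := measurePreserving_finTwoArrow (gaussianReal 0 1)
  rw [← h.map_eq, integral_map_equiv, show gauss (Fin 2) = Measure.pi fun _ : Fin 2 => gaussianReal 0 1
    from rfl]
  simp [MeasurableEquiv.finTwoArrow]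

lemma bar_two (ρ : ℝ) (q c : ℝ) (g h : ℝ → ℝ) (z : Fin 2 → ℝ) :
    bar q (b2m ρ) ![![1, 0], ![c, √(1 - c ^ 2)]] (fun v => g (v 0) * h (v 1)) z
      = Pair2.J (fun x => g (√q * z 0 + √(1 - q) * x)) (fun x => h (√q * zsnd ρ z + √(1 - q) * x)) c := by
  rw [bar, Pair2.J, ← integral_two (F := fun x y => g (√q * z 0 + √(1 - q) * x) *
    h (√q * zsnd ρ z + √(1 - q) * (c * x + √(1 - c ^ 2) * y)))]
  simp [site, dot, b2m, zsnd, Fin.sum_univ_two]

lemma sE0_two (f : ℝ → ℝ) : sE0 (L := Fin 2) f = fun v => exp (f (v 0)) * exp (f (v 1)) := by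
  funext v; simp [sE0, Fin.sum_univ_two, exp_add]

lemma sE1_two (f f1 : ℝ → ℝ) :
    sE1 (L := Fin 2) f f1 0 = (fun v => e1 f f1 (v 0) * exp (f (v 1))) ∧
      sE1 (L := Fin 2) f f1 1 = fun v => exp (f (v 0)) * e1 f f1 (v 1) := by
  constructor <;> funext v <;> simp [sE1, sE0, e1, Fin.sum_univ_two, exp_add] <;> ring

/-- The conjugate fields without coupling. -/
def F0 (f f1 : ℝ → ℝ) (q ρ : ℝ) (z : Fin 2 → ℝ) (l : Fin 2) : ℝ :=
  Fz f f1 q (![z 0, zsnd ρ z] l)

omit [Fintype ι] [Nonempty Y] in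
/-- Absorbing a first order perturbation of the conjugate fields into the margin. -/
lemma absorb (w : Y → ℝ) (hw0 : ∀ y, 0 ≤ w y) (hw1 : ∑ y, w y = 1) (d : Y → ℝ)
    (D : Y → Fin 2 → Y → Fin 2 → ℝ) (F : Fin 2 → ℝ) (Fc : Y → Fin 2 → ℝ) {C M : ℝ} (hM : 0 ≤ M)
    (hC : 0 ≤ C) (hF : ∀ l, |F l| ≤ C) (hF1 : ∀ y l, |Fc y l| ≤ C)
    (hdF : ∀ y l, |Fc y l - F l| ≤ M * (|d y| + ∑ y', w y' * |d y'|)) :
    (∑ y, ∑ y', w y * w y' * ∑ l, ∑ l', D y l y' l' * (F l * F l'))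
      - ∑ y, ∑ y', w y * w y' * ∑ l, ∑ l', D y l y' l' * (Fc y l * Fc y' l')
      ≤ 8 * (C * M) * (∑ y, ∑ y', w y * w y' * ∑ l, ∑ l', D y l y' l' ^ 2)
        + 2 * (C * M) * ∑ y, w y * d y ^ 2 := by
  set db := ∑ y', w y' * |d y'| with hdb
  have hterm : ∀ y y' l l', D y l y' l' * (F l * F l') - D y l y' l' * (Fc y l * Fc y' l')
      ≤ C * M * (8 * D y l y' l' ^ 2 + (|d y| + |d y'| + 2 * db) ^ 2 / 32) := by
    intro y y' l l'
    set x := |d y| + |d y'| + 2 * db with hxdef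
    rw [← mul_sub]
    refine (le_abs_self _).trans ?_
    rw [abs_mul]
    have hdif : |F l * F l' - Fc y l * Fc y' l'| ≤ C * M * x := by
      rw [show F l * F l' - Fc y l * Fc y' l'
        = (F l - Fc y l) * F l' + Fc y l * (F l' - Fc y' l') by ring]
      refine (abs_add_le _ _).trans ?_
      rw [abs_mul, abs_mul, abs_sub_comm (F l), abs_sub_comm (F l')]
      refine (add_le_add (mul_le_mul (hdF y l) (hF l') (abs_nonneg _)
          ((abs_nonneg _).trans (hdF y l)))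
        (mul_le_mul (hF1 y l) (hdF y' l') (abs_nonneg _) hC)).trans_eq ?_
      rw [hxdef]; ring
    refine (mul_le_mul_of_nonneg_left hdif (abs_nonneg _)).trans ?_
    rw [mul_left_comm]
    refine mul_le_mul_of_nonneg_left ?_ (mul_nonneg hC hM)
    nlinarith [sq_nonneg (16 * |D y l y' l'| - x), sq_abs (D y l y' l')]
  have hx : ∑ y, ∑ y', w y * w y' * (|d y| + |d y'| + 2 * db) ^ 2
      ≤ 16 * ∑ y, w y * d y ^ 2 := by
    have hcs : db ^ 2 ≤ ∑ y, w y * d y ^ 2 := by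
      have h := Finset.sum_nonneg (s := Finset.univ) fun y (_ : y ∈ Finset.univ) =>
        mul_nonneg (hw0 y) (sq_nonneg (|d y| - db))
      have e : ∀ y, w y * (|d y| - db) ^ 2
          = w y * d y ^ 2 - 2 * db * (w y * |d y|) + db ^ 2 * w y := fun y => by
        rw [sub_sq, sq_abs]; ring
      simp only [e, Finset.sum_add_distrib, Finset.sum_sub_distrib, ← Finset.mul_sum, hw1, ← hdb] at h
      nlinarith
    calc _ ≤ ∑ y, ∑ y', w y * w y' * (4 * (d y ^ 2 + d y' ^ 2 + 2 * db ^ 2)) :=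
          Finset.sum_le_sum fun y _ => Finset.sum_le_sum fun y' _ =>
            mul_le_mul_of_nonneg_left (by
              rw [← sq_abs (d y), ← sq_abs (d y')]
              nlinarith [sq_nonneg (|d y| - |d y'|), sq_nonneg (|d y| - db), sq_nonneg (|d y'| - db)])
              (mul_nonneg (hw0 y) (hw0 y'))
      _ = 8 * (∑ y, w y * d y ^ 2) + 8 * db ^ 2 := by
          have t : ∀ y y', w y * w y' * (4 * (d y ^ 2 + d y' ^ 2 + 2 * db ^ 2))
              = 4 * (w y * d y ^ 2) * w y' + 4 * w y * (w y' * d y' ^ 2) + 8 * db ^ 2 * w y * w y' :=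
            fun y y' => by ring
          simp only [t, Finset.sum_add_distrib, ← Finset.mul_sum, ← Finset.sum_mul, hw1]
          ring
      _ ≤ _ := by linarith
  clear_value db
  have hsplit : ∀ (a b : Y → Y → ℝ), (∑ y, ∑ y', w y * w y' * a y y') - ∑ y, ∑ y', w y * w y' * b y y'
      = ∑ y, ∑ y', w y * w y' * (a y y' - b y y') := fun a b => by
    simp only [mul_sub, Finset.sum_sub_distrib]
  rw [hsplit (fun y y' => ∑ l, ∑ l', D y l y' l' * (F l * F l'))
    (fun y y' => ∑ l, ∑ l', D y l y' l' * (Fc y l * Fc y' l'))]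
  simp only [← Finset.sum_sub_distrib]
  calc _ ≤ ∑ y, ∑ y', w y * w y' * ∑ l, ∑ l',
        C * M * (8 * D y l y' l' ^ 2 + (|d y| + |d y'| + 2 * db) ^ 2 / 32) :=
        Finset.sum_le_sum fun y _ => Finset.sum_le_sum fun y' _ =>
          mul_le_mul_of_nonneg_left (Finset.sum_le_sum fun l _ => Finset.sum_le_sum fun l' _ =>
            hterm y y' l l') (mul_nonneg (hw0 y) (hw0 y'))
    _ = 8 * (C * M) * (∑ y, ∑ y', w y * w y' * ∑ l, ∑ l', D y l y' l' ^ 2)
        + C * M / 8 * ∑ y, ∑ y', w y * w y' * (|d y| + |d y'| + 2 * db) ^ 2 := by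
        have t : ∀ (G : Fin 2 → Fin 2 → ℝ) (X : ℝ), ∑ l, ∑ l', C * M * (8 * G l l' ^ 2 + X / 32)
            = 8 * (C * M) * (∑ l, ∑ l', G l l' ^ 2) + C * M / 8 * X := fun G X => by
          simp only [Fin.sum_univ_two]; ring
        rw [Finset.mul_sum, Finset.mul_sum, ← Finset.sum_add_distrib]
        refine Finset.sum_congr rfl fun y _ => ?_
        rw [Finset.mul_sum, Finset.mul_sum, ← Finset.sum_add_distrib]
        refine Finset.sum_congr rfl fun y' _ => ?_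
        rw [t (fun l l' => D y l y' l')]
        ring
    _ ≤ _ := by
        have := mul_le_mul_of_nonneg_left hx (by positivity : (0 : ℝ) ≤ C * M / 8)
        linarith

/-- The bound at fixed shared fields. -/
theorem pair_at (hp : Pot f f1 f2 f3 U V W) (hB : ∀ s, |f s| ≤ B) (ha : Unit1 a)
    (hq : q ∈ Ico (0 : ℝ) 1) (hρ : ρ ∈ Icc (-1 : ℝ) 1)
    (hR : ∀ y, |dot (a y 0) (a y 1) - ρ * q| ≤ 1 - q) (u : Y → ℝ) (z : Fin 2 → ℝ) :
    log (Zb f q (b2m ρ) (c2m q ρ a) u z) - 1 / 2 * Qb f f1 q a (b2m ρ) (c2m q ρ a) u z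
        - 4 * exp (8 * B) * (V * U ^ 2 + U ^ 4)
          * avgC u (fun y y' => ∑ l, ∑ l', Dst q a (b2m ρ) y l y' l' ^ 2)
      ≤ log (cav (fun s => exp (f s)) q (z 0)) + log (cav (fun s => exp (f s)) q (zsnd ρ z))
        + avgI u (fun y => (dot (a y 0) (a y 1) - ρ * q) * (Fz f f1 q (z 0) * Fz f f1 q (zsnd ρ z))
            + K2 U V B * (dot (a y 0) (a y 1) - ρ * q) ^ 2)
        - 1 / 2 * avgC u (fun y y' => ∑ l, ∑ l',
            Dst q a (b2m ρ) y l y' l' * (F0 f f1 q ρ z l * F0 f f1 q ρ z l')) := by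
  have he := ends2 ha hq hρ hR
  have hU : 0 ≤ U := (abs_nonneg _).trans (hp.b1 0)
  have hV : 0 ≤ V := (abs_nonneg _).trans (hp.b2 0)
  set za := z 0
  set zb := zsnd ρ z with hzb
  set Ba := cav (fun s => exp (f s)) q za with hBa
  set Bb := cav (fun s => exp (f s)) q zb with hBb
  set Aa := cav (e1 f f1) q za with hAa
  set Ab := cav (e1 f f1) q zb with hAb
  set d : Y → ℝ := fun y => dot (a y 0) (a y 1) - ρ * q with hd
  set w : Y → ℝ := gw u with hw
  have hw0 : ∀ y, 0 ≤ w y := gw_nonneg u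
  have hw1 : ∑ y, w y = 1 := sum_gw u
  have hcd : ∀ y, cIn q ρ a y * (1 - q) = d y := fun y => by
    simp only [cIn, hd]; exact div_mul_cancel₀ _ (sub_pos.2 hq.2).ne'
  set P0 := Ba * Bb with hP0
  set j0 : Y → ℝ := fun y => bar q (b2m ρ) (c2m q ρ a y) (sE0 f) z with hj0
  set j1 : Y → Fin 2 → ℝ := fun y l => bar q (b2m ρ) (c2m q ρ a y) (sE1 f f1 l) z with hj1
  have hb : ∀ y, j0 y ≤ P0 + d y * (Aa * Ab) + d y ^ 2 * (V ^ 2 * exp (2 * B)) / 2 ∧
      |j0 y - P0| ≤ |d y| * (U ^ 2 * exp (2 * B)) ∧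
      |j1 y 0 - Aa * Bb| ≤ |d y| * (V * U * exp (2 * B)) ∧
      |j1 y 1 - Ba * Ab| ≤ |d y| * (V * U * exp (2 * B)) := fun y => by
    have h := pair_bounds hp hB hq.1 hq.2.le (cIn_sq hq hR y) za zb
    simp only [hcd] at h
    simp only [hj0, hj1, sE0_two, (sE1_two f f1).1, (sE1_two f f1).2, c2m]
    rw [bar_two ρ q _ (fun s => exp (f s)) (fun s => exp (f s)),
      bar_two ρ q _ (e1 f f1) (fun s => exp (f s)), bar_two ρ q _ (fun s => exp (f s)) (e1 f f1)]
    exact h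
  have hBa0 := cav_exp_bounds hp hB q za
  have hBb0 := cav_exp_bounds hp hB q zb
  have hBapos : 0 < Ba := (exp_pos _).trans_le hBa0.1
  have hBbpos : 0 < Bb := (exp_pos _).trans_le hBb0.1
  have hP0pos : 0 < P0 := mul_pos hBapos hBbpos
  have hP0ge : exp (-(2 * B)) ≤ P0 := by
    refine le_trans (le_of_eq ?_) (mul_le_mul hBa0.1 hBb0.1 (exp_pos _).le hBapos.le)
    rw [← exp_add]; congr 1; ring
  set Z := Zb f q (b2m ρ) (c2m q ρ a) u z with hZ
  have hZe : Z = ∑ y, w y * j0 y := rfl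
  have hZge : exp (-(2 * B)) ≤ Z := by
    refine le_trans (le_of_eq ?_) (Zb_ge hp hB u z)
    simp
  have hZpos : 0 < Z := (exp_pos _).trans_le hZge
  have hinv : ∀ x : ℝ, exp (-(2 * B)) ≤ x → 1 / x ≤ exp (2 * B) := fun x hx => by
    rw [div_le_iff₀ ((exp_pos _).trans_le hx)]
    calc (1 : ℝ) = exp (2 * B) * exp (-(2 * B)) := by rw [← exp_add]; simp
      _ ≤ _ := mul_le_mul_of_nonneg_left hx (exp_pos _).le
  set db := ∑ y, w y * |d y| with hdb
  have hdb0 : 0 ≤ db := Finset.sum_nonneg fun y _ => mul_nonneg (hw0 y) (abs_nonneg _)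
  have hlog : log Z ≤ log Ba + log Bb + ∑ y, w y * (d y * (Fz f f1 q za * Fz f f1 q zb)
      + exp (4 * B) * V ^ 2 / 2 * d y ^ 2) := by
    have h1 := Real.log_le_sub_one_of_pos (div_pos hZpos hP0pos)
    rw [Real.log_div hZpos.ne' hP0pos.ne', hP0, Real.log_mul hBapos.ne' hBbpos.ne', ← hP0] at h1
    have h2 : Z / P0 - 1 ≤ ∑ y, w y * (d y * (Fz f f1 q za * Fz f f1 q zb)
        + exp (4 * B) * V ^ 2 / 2 * d y ^ 2) := by
      calc Z / P0 - 1 = ∑ y, w y * ((j0 y - P0) / P0) := by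
            simp only [sub_div, div_self hP0pos.ne', mul_sub, mul_one, Finset.sum_sub_distrib, hw1,
              hZe, Finset.sum_div, mul_div_assoc]
        _ ≤ _ := Finset.sum_le_sum fun y _ => mul_le_mul_of_nonneg_left (by
            have hF : Fz f f1 q za * Fz f f1 q zb = Aa * Ab / P0 := by
              rw [hP0]; simp only [Fz, hAa, hAb, hBa, hBb]; exact div_mul_div_comm _ _ _ _
            rw [hF, div_le_iff₀ hP0pos, add_mul, mul_assoc, div_mul_cancel₀ _ hP0pos.ne']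
            have h3 : exp (2 * B) ≤ exp (4 * B) * P0 := by
              refine le_trans (le_of_eq ?_) (mul_le_mul_of_nonneg_left hP0ge (exp_pos _).le)
              rw [← exp_add]; congr 1; ring
            have h4 := mul_le_mul_of_nonneg_left h3
              (by positivity : (0 : ℝ) ≤ V ^ 2 / 2 * d y ^ 2)
            linarith [(hb y).1]) (hw0 y)
    linarith
  set Fc : Y → Fin 2 → ℝ := fun y l => Fb f f1 q (b2m ρ) (c2m q ρ a) u z y l with hFc
  have hFe : ∀ y l, Fc y l = j1 y l / Z := fun y l => rfl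
  have hA0 : ∀ l, |![Aa * Bb, Ba * Ab] l / P0| ≤ U ∧ ![Aa * Bb, Ba * Ab] l / P0 = F0 f f1 q ρ z l := by
    intro l
    have e : ![Aa * Bb, Ba * Ab] l / P0 = F0 f f1 q ρ z l := by
      fin_cases l
      · simp [F0, hP0, Fz]; exact mul_div_mul_right _ _ hBbpos.ne'
      · simp [F0, hP0, Fz]; exact mul_div_mul_left _ _ hBapos.ne'
    exact ⟨e ▸ cav_ratio_le hp hB q _, e⟩
  set M := exp (4 * B) * U * (V + U ^ 2) with hM
  have hF1 : ∀ y l, |Fc y l| ≤ exp (4 * B) * U := fun y l => by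
    rw [hFe, abs_div, abs_of_pos hZpos, div_eq_mul_one_div]
    have hj : |j1 y l| ≤ U * exp (2 * B) := by
      refine (bar_sE1_le hp hB _ z l).trans (mul_le_mul_of_nonneg_left ?_ hU)
      refine (integral_mono (integrable_site (continuous_sE0 hp) (abs_sE0_le hB) _ z)
        (integrable_const _) fun ξ => (sE0_bounds hB _).2).trans_eq (by simp)
    refine (mul_le_mul hj (hinv Z hZge) (by positivity) (by positivity)).trans_eq ?_
    rw [mul_assoc, ← exp_add]; ring_nf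
  have hdF : ∀ y l, |Fc y l - F0 f f1 q ρ z l| ≤ M * (|d y| + db) := fun y l => by
    obtain ⟨hl1, hl2⟩ := hA0 l
    have hj : |j1 y l - ![Aa * Bb, Ba * Ab] l| ≤ |d y| * (V * U * exp (2 * B)) := by
      fin_cases l
      · exact (hb y).2.2.1
      · exact (hb y).2.2.2
    have hZd : |P0 - Z| ≤ db * (U ^ 2 * exp (2 * B)) := by
      have e : P0 - Z = ∑ y', w y' * (P0 - j0 y') := by
        simp only [mul_sub, Finset.sum_sub_distrib, ← Finset.sum_mul, hw1, one_mul, hZe]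
      rw [e, hdb, Finset.sum_mul]
      refine (Finset.abs_sum_le_sum_abs _ _).trans (Finset.sum_le_sum fun y' _ => ?_)
      rw [abs_mul, abs_of_nonneg (hw0 y'), abs_sub_comm, mul_assoc]
      exact mul_le_mul_of_nonneg_left (hb y').2.1 (hw0 y')
    have e : Fc y l - F0 f f1 q ρ z l = ((j1 y l - ![Aa * Bb, Ba * Ab] l)
        + ![Aa * Bb, Ba * Ab] l / P0 * (P0 - Z)) * (1 / Z) := by
      rw [hFe, ← hl2]; field_simp; ring
    rw [e, abs_mul, abs_of_pos (by positivity : (0 : ℝ) < 1 / Z)]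
    refine (mul_le_mul ((abs_add_le _ _).trans (add_le_add hj ((abs_mul _ _).trans_le
      (mul_le_mul hl1 hZd (abs_nonneg _) hU)))) (hinv Z hZge) (by positivity)
      (by positivity)).trans ?_
    · have hee : exp (2 * B) * exp (2 * B) = exp (4 * B) := by rw [← exp_add]; ring_nf
      rw [hM, ← hee]
      have p1 : 0 ≤ |d y| * (U * U ^ 2) * (exp (2 * B) * exp (2 * B)) := by positivity
      have p2 : 0 ≤ db * (V * U) * (exp (2 * B) * exp (2 * B)) := by positivity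
      linarith
  -- the replica average
  set μ := exp (8 * B) * (V * U ^ 2 + U ^ 4) with hμ
  have h8 : exp (4 * B) * exp (4 * B) = exp (8 * B) := by rw [← exp_add]; ring_nf
  have hμM : exp (4 * B) * U * M = μ := by rw [hM, hμ, ← h8]; ring
  have hB0 : 0 ≤ B := (abs_nonneg _).trans (hB 0)
  have hQ := absorb w hw0 hw1 d (Dst q a (b2m ρ)) (F0 f f1 q ρ z) Fc (C := exp (4 * B) * U) (M := M)
    (by positivity) (by positivity)
    (fun l => (cav_ratio_le hp hB q _).trans (le_mul_of_one_le_left hU (one_le_exp (by linarith))))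
    hF1 hdF
  rw [hμM] at hQ
  have e : Qb f f1 q a (b2m ρ) (c2m q ρ a) u z = ∑ y, ∑ y', w y * w y' * ∑ l, ∑ l',
      Dst q a (b2m ρ) y l y' l' * (Fc y l * Fc y' l') := by
    simp only [Qb, Finset.mul_sum, hFc]
    refine Finset.sum_congr rfl fun y _ => ?_
    rw [Finset.sum_comm]
    exact Finset.sum_congr rfl fun y' _ => Finset.sum_congr rfl fun l _ =>
      Finset.sum_congr rfl fun l' _ => by ring
  rw [← e] at hQ
  have hK : ∑ y, w y * (d y * (Fz f f1 q za * Fz f f1 q zb) + K2 U V B * d y ^ 2)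
      = (∑ y, w y * (d y * (Fz f f1 q za * Fz f f1 q zb) + exp (4 * B) * V ^ 2 / 2 * d y ^ 2))
        + μ * ∑ y, w y * d y ^ 2 := by
    rw [Finset.mul_sum, ← Finset.sum_add_distrib]
    exact Finset.sum_congr rfl fun y _ => by rw [K2, hμ]; ring
  simp only [avgI, avgC, ← hw]
  rw [hK]
  linarith

end P157.RS.Row

end
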