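import Vale.Agent.P157.RS.Defs

/-!
# P157, RS: second order calculus of one row for states with one or two sites
-/

noncomputable section

open MeasureTheory ProbabilityTheory Real Filter Topology Set
open scoped BigOperators Classical

namespace P157.RS

open Vale.Agent.P150 (gauss)
open P157.Conc (Path Sp Dmat Bd Grad)

variable {Y L κ : Type*} [Fintype Y] [Fintype L] [Fintype κ] {f f1 f2 f3 : ℝ → ℝ} {U V W B κ₀ : ℝ}

/-- The log partition sum. -/
def vH (f : ℝ → ℝ) (u : Y → ℝ) (v : Y × L → ℝ) : ℝ := lse fun y => u y + ∑ l, f (v (y, l))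

/-- Weight times `f'`. -/
def vq (f f1 : ℝ → ℝ) (u : Y → ℝ) (v : Y × L → ℝ) (x : Y × L) : ℝ :=
  gw (fun y => u y + ∑ l, f (v (y, l))) x.1 * f1 (v x)

/-- The replica average. -/
def vQD (f f1 : ℝ → ℝ) (u : Y → ℝ) (D : Y × L → Y × L → ℝ) (v : Y × L → ℝ) : ℝ :=
  ∑ x, ∑ x', D x x' * (vq f f1 u v x * vq f f1 u v x')

/-- The expected log partition sum along a path. -/
def vphi (f : ℝ → ℝ) (u : Y → ℝ) (e : Y × L → κ → ℝ) (P R : κ → ℝ) (t : ℝ) : ℝ :=
  ∫ g, vH f u (Sp e P R t g) ∂gauss κ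

/-- The expected replica average along a path. -/
def vpsi (f f1 : ℝ → ℝ) (u : Y → ℝ) (e : Y × L → κ → ℝ) (P R : κ → ℝ) (t : ℝ) : ℝ :=
  ∫ g, vQD f f1 u (Dmat e P R) (Sp e P R t g) ∂gauss κ

/-- The weight of a state under the field. -/
def vp (f : ℝ → ℝ) (u : Y → ℝ) (v : Y × L → ℝ) (y : Y) : ℝ :=
  gw (fun y => u y + ∑ l, f (v (y, l))) y

/-- Indicator. -/
def vInd (p : Prop) : ℝ := if p then 1 else 0

/-- The part of the Hessian of the weighted derivative which lives inside one state. -/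
def vM (f f1 f2 : ℝ → ℝ) (u : Y → ℝ) (v : Y × L → ℝ) (x z : Y × L) : ℝ :=
  vInd (x.1 = z.1) * (vp f u v x.1 * (f1 (v x) * f1 (v z)))
    + vInd (x = z) * (vp f u v x.1 * f2 (v x))

/-- The derivative of `vM` inside one state. -/
def vT3 (f f1 f2 f3 : ℝ → ℝ) (u : Y → ℝ) (v : Y × L → ℝ) (x z w : Y × L) : ℝ :=
  vInd (x.1 = z.1) * (vInd (x.1 = w.1) * (vp f u v x.1 * f1 (v w) * (f1 (v x) * f1 (v z))))
    + vInd (x.1 = z.1) * (vp f u v x.1
        * (vInd (w = x) * f2 (v x) * f1 (v z) + vInd (w = z) * f1 (v x) * f2 (v z)))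
    + vInd (x = z) * (vInd (x.1 = w.1) * (vp f u v x.1 * f1 (v w) * f2 (v x))
        + vInd (w = x) * (vp f u v x.1 * f3 (v x)))

/-- `Σ D q`. -/
def vr (f f1 : ℝ → ℝ) (u : Y → ℝ) (D : Y × L → Y × L → ℝ) (v : Y × L → ℝ) (x : Y × L) : ℝ :=
  ∑ a, D x a * vq f f1 u v a

/-- `M r`. -/
def vMr (f f1 f2 : ℝ → ℝ) (u : Y → ℝ) (D : Y × L → Y × L → ℝ) (v : Y × L → ℝ) (z : Y × L) : ℝ :=
  ∑ x, vM f f1 f2 u v z x * vr f f1 u D v x

/-- `D M`. -/
def vDM (f f1 f2 : ℝ → ℝ) (u : Y → ℝ) (D : Y × L → Y × L → ℝ) (v : Y × L → ℝ) (x w : Y × L) : ℝ :=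
  ∑ a, D x a * vM f f1 f2 u v a w

/-- The second derivatives of `vQD`. -/
def vQD2 (f f1 f2 f3 : ℝ → ℝ) (u : Y → ℝ) (D : Y × L → Y × L → ℝ) (v : Y × L → ℝ)
    (z w : Y × L) : ℝ :=
  2 * (∑ x, ((vT3 f f1 f2 f3 u v z x w - vq f f1 u v w * vM f f1 f2 u v z x) * vr f f1 u D v x
      + vM f f1 f2 u v z x * (vDM f f1 f2 u D v x w - vr f f1 u D v x * vq f f1 u v w)))
    - 2 * ((2 * vMr f f1 f2 u D v w - 2 * (vQD f f1 u D v * vq f f1 u v w)) * vq f f1 u v z
      + vQD f f1 u D v * (vM f f1 f2 u v z w - vq f f1 u v z * vq f f1 u v w))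

/-- `tr D M D M`. -/
def vTr (f f1 f2 : ℝ → ℝ) (u : Y → ℝ) (D : Y × L → Y × L → ℝ) (v : Y × L → ℝ) : ℝ :=
  ∑ z, ∑ w, D z w * ∑ x, vM f f1 f2 u v z x * vDM f f1 f2 u D v x w

/-- `r M r`. -/
def vRR (f f1 f2 : ℝ → ℝ) (u : Y → ℝ) (D : Y × L → Y × L → ℝ) (v : Y × L → ℝ) : ℝ :=
  ∑ z, vr f f1 u D v z * vMr f f1 f2 u D v z

/-- The quantity which controls the second derivative. -/
def vSgn (f f1 f2 : ℝ → ℝ) (u : Y → ℝ) (D : Y × L → Y × L → ℝ) (v : Y × L → ℝ) : ℝ :=
  vTr f f1 f2 u D v - 4 * vRR f f1 f2 u D v + 3 * vQD f f1 u D v ^ 2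

section algebra

variable {D : Y × L → Y × L → ℝ} {u : Y → ℝ}

lemma vM_comm (v : Y × L → ℝ) (x z : Y × L) :
    vM f f1 f2 u v x z = vM f f1 f2 u v z x := by
  unfold vM vInd
  by_cases hxz : x = z
  · subst hxz; rfl
  · have hzx : z ≠ x := fun h => hxz h.symm
    by_cases h1 : x.1 = z.1
    · simp only [h1, hxz, hzx, if_true, if_false]; ring
    · have h1' : ¬ z.1 = x.1 := fun h => h1 h.symm
      simp only [h1, h1', hxz, hzx, if_false, zero_mul, add_zero]

lemma D_mul_vM (hd : ∀ y l l', D (y, l) (y, l') = 0) (v : Y × L → ℝ) (z w : Y × L) :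
    D z w * vM f f1 f2 u v z w = 0 := by
  by_cases h : z.1 = w.1
  · obtain ⟨y, l⟩ := z; obtain ⟨y', l'⟩ := w
    simp only at h
    subst h
    rw [hd, zero_mul]
  · have : z ≠ w := fun h' => h (h' ▸ rfl)
    simp [vM, vInd, h, this]

lemma D_mul_vT3 (hd : ∀ y l l', D (y, l) (y, l') = 0) (v : Y × L → ℝ) (z x w : Y × L) :
    D z w * vT3 f f1 f2 f3 u v z x w = 0 := by
  by_cases h : z.1 = w.1
  · obtain ⟨y, l⟩ := z; obtain ⟨y', l'⟩ := w
    simp only at h
    subst h
    rw [hd, zero_mul]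
  · have h1 : w ≠ z := fun h' => h (h' ▸ rfl)
    by_cases h2 : z.1 = x.1
    · have h3 : w ≠ x := fun h' => h (h2.trans (h' ▸ rfl))
      simp [vT3, vInd, h, h1, h3]
    · have h4 : z ≠ x := fun h' => h2 (h' ▸ rfl)
      simp [vT3, vInd, h2, h4]

lemma sum_mul_vr (v : Y × L → ℝ) :
    ∑ x, vq f f1 u v x * vr f f1 u D v x = vQD f f1 u D v := by
  simp only [vQD, vr, Finset.mul_sum]
  exact Finset.sum_congr rfl fun x _ => Finset.sum_congr rfl fun a _ => by ring

/-- Contraction of the second derivatives of `vQD`. -/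
lemma sum_vQD2 (hD : ∀ x y, D x y = D y x) (hd : ∀ y l l', D (y, l) (y, l') = 0)
    (v : Y × L → ℝ) :
    ∑ z, ∑ w, D z w * vQD2 f f1 f2 f3 u D v z w = 2 * vSgn f f1 f2 u D v := by
  set q := vq f f1 u v with hq
  set Q := vQD f f1 u D v with hQ
  set Mr := vMr f f1 f2 u D v with hMr
  have e : ∀ z w, D z w * vQD2 f f1 f2 f3 u D v z w
      = 2 * (∑ x, D z w * vT3 f f1 f2 f3 u v z x w * vr f f1 u D v x)
        + 2 * (D z w * ∑ x, vM f f1 f2 u v z x * vDM f f1 f2 u D v x w)
        - 4 * (D z w * q w * Mr z) - 4 * (D z w * q z * Mr w)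
        - 2 * Q * (D z w * vM f f1 f2 u v z w) + 6 * (Q * (D z w * (q z * q w))) := by
    intro z w
    have e0 : ∑ x, ((vT3 f f1 f2 f3 u v z x w - q w * vM f f1 f2 u v z x) * vr f f1 u D v x
          + vM f f1 f2 u v z x * (vDM f f1 f2 u D v x w - vr f f1 u D v x * q w))
        = (∑ x, vT3 f f1 f2 f3 u v z x w * vr f f1 u D v x)
          + (∑ x, vM f f1 f2 u v z x * vDM f f1 f2 u D v x w) - 2 * (q w * Mr z) := by
      simp only [hMr, vMr, Finset.mul_sum, ← Finset.sum_add_distrib, ← Finset.sum_sub_distrib]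
      exact Finset.sum_congr rfl fun x _ => by ring
    have e1 : D z w * (∑ x, vT3 f f1 f2 f3 u v z x w * vr f f1 u D v x)
        = ∑ x, D z w * vT3 f f1 f2 f3 u v z x w * vr f f1 u D v x := by
      rw [Finset.mul_sum]; exact Finset.sum_congr rfl fun x _ => by ring
    simp only [vQD2, ← hq, ← hQ, ← hMr, e0]
    rw [← e1]
    ring
  have a1 : ∑ z, ∑ w, D z w * q w * Mr z = vRR f f1 f2 u D v := by
    refine Finset.sum_congr rfl fun z _ => ?_
    rw [← Finset.sum_mul]
    rfl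
  have a2 : ∑ z, ∑ w, D z w * q z * Mr w = vRR f f1 f2 u D v := by
    rw [← a1, Finset.sum_comm]
    exact Finset.sum_congr rfl fun z _ => Finset.sum_congr rfl fun w _ => by rw [hD w z]
  have a3 : ∑ z, ∑ w, D z w * (q z * q w) = Q := rfl
  simp only [e, D_mul_vT3 hd, D_mul_vM hd, zero_mul, mul_zero, Finset.sum_const_zero, zero_add,
    sub_zero, Finset.sum_add_distrib, Finset.sum_sub_distrib, ← Finset.mul_sum, a1, a2, a3]
  rw [vSgn, vTr, ← hQ]
  ring

lemma sum_vH2 (hd : ∀ y l l', D (y, l) (y, l') = 0) (v : Y × L → ℝ) :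
    ∑ x, ∑ z, D x z * (vM f f1 f2 u v x z - vq f f1 u v x * vq f f1 u v z)
      = -vQD f f1 u D v := by
  simp only [mul_sub, D_mul_vM hd, zero_sub, vQD,
    Finset.sum_neg_distrib]

end algebra

variable [Nonempty Y] {u : Y → ℝ} {D : Y × L → Y × L → ℝ}

lemma sum_exp_pos' (u : Y → ℝ) : 0 < ∑ y, exp (u y) :=
  Finset.sum_pos (fun _ _ => exp_pos _) Finset.univ_nonempty

lemma gw_nonneg' (u : Y → ℝ) (y : Y) : 0 ≤ gw u y :=
  div_nonneg (exp_pos _).le (sum_exp_pos' u).le

lemma sum_gw' (u : Y → ℝ) : ∑ y, gw u y = 1 := by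
  simp only [gw, ← Finset.sum_div]
  exact div_self (sum_exp_pos' u).ne'

lemma vp_nonneg (v : Y × L → ℝ) (y : Y) : 0 ≤ vp f u v y := gw_nonneg' _ y

lemma sum_vp (v : Y × L → ℝ) : ∑ y, vp f u v y = 1 := sum_gw' _

lemma vp_le_one (v : Y × L → ℝ) (y : Y) : vp f u v y ≤ 1 :=
  (Finset.single_le_sum (f := vp f u v) (fun z _ => vp_nonneg v z) (Finset.mem_univ y)).trans_eq
    (sum_vp v)

omit [Fintype Y] [Fintype L] [Nonempty Y] in
lemma abs_vInd_le (p : Prop) : |vInd p| ≤ 1 := by unfold vInd; split_ifs <;> simp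

lemma grad_comp {X : Type*} [Fintype X] {G G' : ℝ → ℝ} (hG : ∀ s, HasDerivAt G (G' s) s) (x : X) :
    Grad (fun v : X → ℝ => G (v x)) (fun v w => vInd (w = x) * G' (v x)) := by
  intro v w s hv
  refine ((hG (v s x)).comp s (hv x)).congr_deriv ?_
  simp [vInd]

lemma grad_add {X : Type*} [Fintype X] {A A' : (X → ℝ) → ℝ} {A1 A1' : (X → ℝ) → X → ℝ}
    (hA : Grad A A1) (hA' : Grad A' A1') :
    Grad (fun v => A v + A' v) (fun v x => A1 v x + A1' v x) := by
  intro v w s hv
  refine ((hA v w s hv).add (hA' v w s hv)).congr_deriv ?_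
  simp only [add_mul, Finset.sum_add_distrib]

section calculus

variable (hp : P157.Conc.Pot f f1 f2 f3 U V W)
include hp

omit [Fintype Y] [Nonempty Y] in
lemma state_deriv (v : ℝ → Y × L → ℝ) (w : Y × L → ℝ) (s : ℝ)
    (hv : ∀ x, HasDerivAt (fun r => v r x) (w x) s) (y : Y) :
    HasDerivAt (fun r => exp (u y + ∑ l, f (v r (y, l))))
      (exp (u y + ∑ l, f (v s (y, l))) * ∑ l, f1 (v s (y, l)) * w (y, l)) s :=
  ((HasDerivAt.fun_sum fun l _ => (hp.d1 (v s (y, l))).comp s (hv (y, l))).const_add (u y)).exp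

lemma grad_vH : Grad (vH f u) (fun v (x : Y × L) => vq f f1 u v x) := by
  intro v w s hv
  refine ((HasDerivAt.fun_sum fun y _ => state_deriv hp v w s hv y).log
    (sum_exp_pos' _).ne').congr_deriv ?_
  rw [Finset.sum_div, Fintype.sum_prod_type]
  refine Finset.sum_congr rfl fun y _ => ?_
  simp only [vq, gw, Finset.mul_sum, Finset.sum_div]
  exact Finset.sum_congr rfl fun l _ => by ring

lemma grad_vp (y : Y) : Grad (fun v => vp f u v y)
    (fun v (x : Y × L) => vInd (y = x.1) * (vp f u v y * f1 (v x)) - vp f u v y * vq f f1 u v x) := by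
  intro v w s hv
  have e : ∀ v' : Y × L → ℝ, vp f u v' y = exp (u y + ∑ l, f (v' (y, l))) * exp (-vH f u v') := by
    intro v'
    rw [vp, gw, vH, lse, exp_neg, exp_log (sum_exp_pos' _), div_eq_mul_inv]
  simp only [e]
  refine ((state_deriv hp v w s hv y).mul ((grad_vH (u := u) hp v w s hv).neg.exp)).congr_deriv ?_
  have e1 : ∑ x : Y × L, vInd (y = x.1) * (vp f u (v s) y * f1 (v s x)) * w x
      = vp f u (v s) y * ∑ l, f1 (v s (y, l)) * w (y, l) := by
    rw [Fintype.sum_prod_type, Finset.sum_eq_single_of_mem y (Finset.mem_univ y) fun y' _ hne =>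
      Finset.sum_eq_zero fun l _ => by simp [vInd, Ne.symm hne]]
    rw [Finset.mul_sum]
    exact Finset.sum_congr rfl fun l _ => by simp [vInd, mul_assoc]
  have e2 : ∑ x : Y × L, vp f u (v s) y * vq f f1 u (v s) x * w x
      = vp f u (v s) y * ∑ x, vq f f1 u (v s) x * w x := by
    rw [Finset.mul_sum]
    exact Finset.sum_congr rfl fun x _ => mul_assoc _ _ _
  simp only [← e, sub_mul, Finset.sum_sub_distrib, e1, e2, Pi.neg_apply]
  rw [e (v s)]
  ring

lemma grad_vq (x : Y × L) : Grad (fun v => vq f f1 u v x)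
    (fun v z => vM f f1 f2 u v x z - vq f f1 u v x * vq f f1 u v z) := by
  refine ((grad_vp (u := u) hp x.1).mul (grad_comp hp.d2 x)).congr fun v z => ?_
  have : vInd (z = x) = vInd (x = z) := by
    unfold vInd
    split_ifs with a b b <;> first | rfl | exact absurd a.symm b | exact absurd b.symm a
  simp only [vM, this, vq, vp]
  ring

lemma grad_vM (x z : Y × L) : Grad (fun v => vM f f1 f2 u v x z)
    (fun v w => vT3 f f1 f2 f3 u v x z w - vq f f1 u v w * vM f f1 f2 u v x z) := by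
  refine (grad_add (((grad_vp (u := u) hp x.1).mul
    ((grad_comp hp.d2 x).mul (grad_comp hp.d2 z))).const_mul (vInd (x.1 = z.1)))
    (((grad_vp (u := u) hp x.1).mul (grad_comp hp.d3 x)).const_mul (vInd (x = z)))).congr
    fun v w => ?_
  simp only [vT3, vM]
  ring

lemma grad_vr (x : Y × L) : Grad (fun v => vr f f1 u D v x)
    (fun v w => vDM f f1 f2 u D v x w - vr f f1 u D v x * vq f f1 u v w) := by
  refine (Grad.sum fun a => (grad_vq (u := u) hp a).const_mul (D x a)).congr fun v w => ?_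
  simp only [vDM, vr, Finset.sum_mul, mul_sub, Finset.sum_sub_distrib, mul_assoc]

lemma grad_vQD (hD : ∀ x y, D x y = D y x) : Grad (vQD f f1 u D)
    (fun v w => 2 * vMr f f1 f2 u D v w - 2 * (vQD f f1 u D v * vq f f1 u v w)) := by
  have e : vQD f f1 u D = fun v => ∑ x, vq f f1 u v x * vr f f1 u D v x := by
    funext v; exact (sum_mul_vr v).symm
  nth_rewrite 1 [e]
  refine (Grad.sum fun x => (grad_vq (u := u) hp x).mul (grad_vr hp x)).congr fun v w => ?_
  have e1 : ∑ x, vM f f1 f2 u v x w * vr f f1 u D v x = vMr f f1 f2 u D v w :=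
    Finset.sum_congr rfl fun x _ => by rw [vM_comm]
  have e2 : ∑ x, vq f f1 u v x * vDM f f1 f2 u D v x w = vMr f f1 f2 u D v w := by
    simp only [vMr, vDM, Finset.mul_sum]
    rw [Finset.sum_comm]
    refine Finset.sum_congr rfl fun a _ => ?_
    rw [vr, Finset.mul_sum]
    exact Finset.sum_congr rfl fun x _ => by rw [vM_comm, hD a x]; ring
  have e0 : ∀ x, (vM f f1 f2 u v x w - vq f f1 u v x * vq f f1 u v w) * vr f f1 u D v x
      + vq f f1 u v x * (vDM f f1 f2 u D v x w - vr f f1 u D v x * vq f f1 u v w)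
      = vM f f1 f2 u v x w * vr f f1 u D v x + vq f f1 u v x * vDM f f1 f2 u D v x w
        - 2 * vq f f1 u v w * (vq f f1 u v x * vr f f1 u D v x) := fun x => by ring
  simp only [e0, Finset.sum_add_distrib, Finset.sum_sub_distrib, ← Finset.mul_sum, e1, e2,
    sum_mul_vr]
  ring

lemma grad_vQD1 (hD : ∀ x y, D x y = D y x) (z : Y × L) :
    Grad (fun v => 2 * vMr f f1 f2 u D v z - 2 * (vQD f f1 u D v * vq f f1 u v z))
      (fun v w => vQD2 f f1 f2 f3 u D v z w) :=
  ((Grad.sum fun x => (grad_vM hp z x).mul (grad_vr hp x)).const_mul 2).sub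
    (((grad_vQD hp hD).mul (grad_vq hp z)).const_mul 2)

lemma continuous_vp (y : Y) : Continuous fun v : Y × L → ℝ => vp f u v y := by
  have := hp.cf
  unfold vp gw
  exact Continuous.div (by fun_prop) (by fun_prop) fun v => (sum_exp_pos' _).ne'

lemma continuous_vH : Continuous (vH f u : (Y × L → ℝ) → ℝ) := by
  have := hp.cf
  unfold vH lse
  exact Continuous.log (by fun_prop) fun v => (sum_exp_pos' _).ne'

lemma continuous_vq (x : Y × L) : Continuous fun v => vq f f1 u v x :=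
  (continuous_vp hp x.1).mul (hp.c1.comp (continuous_apply x))

lemma continuous_vM (x z : Y × L) : Continuous fun v => vM f f1 f2 u v x z := by
  have := hp.c1; have := hp.c2; have := continuous_vp (u := u) (L := L) hp x.1
  unfold vM
  fun_prop

lemma continuous_vT3 (x z w : Y × L) : Continuous fun v => vT3 f f1 f2 f3 u v x z w := by
  have := hp.c1; have := hp.c2; have := hp.c3; have := continuous_vp (u := u) (L := L) hp x.1
  unfold vT3
  fun_prop

lemma continuous_vr (x : Y × L) : Continuous fun v => vr f f1 u D v x :=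
  continuous_finsetSum _ fun a _ => continuous_const.mul (continuous_vq hp a)

lemma continuous_vQD : Continuous (vQD f f1 u D) :=
  continuous_finsetSum _ fun x _ => continuous_finsetSum _ fun a _ =>
    continuous_const.mul ((continuous_vq hp x).mul (continuous_vq hp a))

lemma continuous_vMr (z : Y × L) : Continuous fun v => vMr f f1 f2 u D v z :=
  continuous_finsetSum _ fun x _ => (continuous_vM hp z x).mul (continuous_vr hp x)

lemma continuous_vDM (x w : Y × L) : Continuous fun v => vDM f f1 f2 u D v x w :=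
  continuous_finsetSum _ fun a _ => continuous_const.mul (continuous_vM hp a w)

omit hp in
lemma bd_vp (y : Y) : Bd fun v : Y × L → ℝ => vp f u v y :=
  ⟨1, fun v => by rw [abs_of_nonneg (vp_nonneg v y)]; exact vp_le_one v y⟩

omit [Fintype Y] [Fintype L] [Nonempty Y] in
lemma bd_f1 (x : Y × L) : Bd fun v : Y × L → ℝ => f1 (v x) := ⟨U, fun _ => hp.b1 _⟩

omit [Fintype Y] [Fintype L] [Nonempty Y] in
lemma bd_f2 (x : Y × L) : Bd fun v : Y × L → ℝ => f2 (v x) := by
  refine ⟨V + U ^ 2, fun v => ?_⟩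
  have h1 := hp.b2 (v x)
  have h2 := sq_le_sq' (abs_le.1 (hp.b1 (v x))).1 (abs_le.1 (hp.b1 (v x))).2
  have h3 := sq_nonneg (f1 (v x))
  rw [abs_le] at h1 ⊢
  constructor <;> linarith

lemma bd_vq (x : Y × L) : Bd fun v => vq f f1 u v x := (bd_vp x.1).mul (bd_f1 hp x)

lemma bd_vM (x z : Y × L) : Bd fun v => vM f f1 f2 u v x z :=
  ((Bd.const _).mul ((bd_vp _).mul ((bd_f1 hp x).mul (bd_f1 hp z)))).add
    ((Bd.const _).mul ((bd_vp _).mul (bd_f2 hp x)))

lemma bd_vT3 (x z w : Y × L) : Bd fun v => vT3 f f1 f2 f3 u v x z w := by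
  have p := bd_vp (f := f) (u := u) (L := L) x.1
  exact (((Bd.const _).mul ((Bd.const _).mul ((p.mul (bd_f1 hp w)).mul
      ((bd_f1 hp x).mul (bd_f1 hp z))))).add
    ((Bd.const _).mul (p.mul ((((Bd.const _).mul (bd_f2 hp x)).mul (bd_f1 hp z)).add
      (((Bd.const _).mul (bd_f1 hp x)).mul (bd_f2 hp z)))))).add
    ((Bd.const _).mul (((Bd.const _).mul ((p.mul (bd_f1 hp w)).mul (bd_f2 hp x))).add
      ((Bd.const _).mul (p.mul ⟨W, fun _ => hp.b3 _⟩))))

lemma bd_vr (x : Y × L) : Bd fun v => vr f f1 u D v x :=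
  Bd.sum fun a => (Bd.const _).mul (bd_vq hp a)

lemma bd_vQD : Bd (vQD f f1 u D) :=
  Bd.sum fun x => Bd.sum fun a => (Bd.const _).mul ((bd_vq hp x).mul (bd_vq hp a))

lemma bd_vMr (z : Y × L) : Bd fun v => vMr f f1 f2 u D v z :=
  Bd.sum fun x => (bd_vM hp z x).mul (bd_vr hp x)

lemma bd_vDM (x w : Y × L) : Bd fun v => vDM f f1 f2 u D v x w :=
  Bd.sum fun a => (Bd.const _).mul (bd_vM hp a w)

lemma continuous_vSgn : Continuous (vSgn f f1 f2 u D) := by
  have := fun z x : Y × L => continuous_vM (u := u) hp z x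
  have := fun x w : Y × L => continuous_vDM (u := u) (D := D) hp x w
  have := fun x : Y × L => continuous_vr (u := u) (D := D) hp x
  have := fun z : Y × L => continuous_vMr (u := u) (D := D) hp z
  have := continuous_vQD (u := u) (D := D) hp
  unfold vSgn vTr vRR
  fun_prop

lemma bd_vSgn : Bd (vSgn f f1 f2 u D) := by
  have q := bd_vQD (u := u) (D := D) hp
  have h := ((Bd.sum fun z => Bd.sum fun w => (Bd.const (D z w)).mul
      (Bd.sum fun x => (bd_vM (u := u) hp z x).mul (bd_vDM (u := u) (D := D) hp x w))).sub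
    ((Bd.const 4).mul (Bd.sum fun z => (bd_vr (u := u) (D := D) hp z).mul (bd_vMr (u := u) (D := D) hp z)))).add
    ((Bd.const 3).mul (q.mul q))
  obtain ⟨C, hC⟩ := h
  exact ⟨C, fun v => by simpa only [vSgn, vTr, vRR, sq] using hC v⟩

end calculus

section bounds

/-- The diagonal and the full bound for two states. -/
lemma pair_bound {D' m m' : L → L → ℝ} {V U : ℝ} (hV : 0 ≤ V) (hL : Fintype.card L ≤ 2)
    (hm1 : ∀ l, |m l l| ≤ V) (hm2 : ∀ l l', l ≠ l' → |m l l'| ≤ U ^ 2)
    (hm1' : ∀ l, |m' l l| ≤ V) (hm2' : ∀ l l', l ≠ l' → |m' l l'| ≤ U ^ 2) :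
    |∑ l, ∑ l', D' l l' * ∑ k, ∑ k', m l k * D' k k' * m' k' l'|
        ≤ (V + U ^ 2) ^ 2 * ∑ l, ∑ l', D' l l' ^ 2
      ∧ ∑ l, ∑ l', D' l l' ^ 2 * (m l l * m' l' l' - (2 * V * U ^ 2 + U ^ 4))
        ≤ ∑ l, ∑ l', D' l l' * ∑ k, ∑ k', m l k * D' k k' * m' k' l' := by
  set a : L → L → ℝ := fun l k => if l = k then V else U ^ 2 with ha
  have ha0 : ∀ l k, 0 ≤ a l k := fun l k => by simp only [ha]; split_ifs <;> positivity
  have hac : ∀ l k, a k l = a l k := fun l k => by simp only [ha, eq_comm]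
  have hma : ∀ {n : L → L → ℝ}, (∀ l, |n l l| ≤ V) → (∀ l l', l ≠ l' → |n l l'| ≤ U ^ 2) →
      ∀ l k, |n l k| ≤ a l k := fun h1 h2 l k => by
    simp only [ha]; split_ifs with h
    · exact h ▸ h1 l
    · exact h2 l k h
  have hsum : ∀ l, ∑ k, a l k ≤ V + U ^ 2 := fun l => by
    have e : ∀ k, a l k = (if l = k then V - U ^ 2 else 0) + U ^ 2 := fun k => by
      simp only [ha]; split_ifs <;> ring
    simp only [e, Finset.sum_add_distrib, Finset.sum_ite_eq, Finset.mem_univ, if_true,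
      Finset.sum_const, Finset.card_univ, nsmul_eq_mul]
    have hc : (Fintype.card L : ℝ) ≤ 2 := by exact_mod_cast hL
    have := mul_le_mul_of_nonneg_right hc (sq_nonneg U)
    linarith
  set t : L → L → L → L → ℝ := fun l l' k k' => D' l l' * (m l k * D' k k' * m' k' l') with ht
  set b : L → L → L → L → ℝ := fun l l' k k' => a l k * a k' l' * D' l l' ^ 2 with hb
  have htb : ∀ l l' k k', |t l l' k k'| ≤ (b l l' k k' + b k k' l l') / 2 := by
    intro l l' k k'
    have e : |t l l' k k'| = |m l k| * |m' k' l'| * (|D' l l'| * |D' k k'|) := by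
      simp only [ht, abs_mul]; ring
    rw [e]
    refine (mul_le_mul (mul_le_mul (hma hm1 hm2 l k) (hma hm1' hm2' k' l') (abs_nonneg _) (ha0 _ _))
      le_rfl (by positivity) (mul_nonneg (ha0 _ _) (ha0 _ _))).trans ?_
    simp only [hb, hac k l, hac k' l']
    have := two_mul_le_add_sq (|D' l l'|) (|D' k k'|)
    rw [sq_abs, sq_abs] at this
    linarith [mul_le_mul_of_nonneg_left this (mul_nonneg (ha0 k l) (ha0 k' l'))]
  have hbs : ∀ l l', ∑ k, ∑ k', b l l' k k' ≤ (V + U ^ 2) ^ 2 * D' l l' ^ 2 := fun l l' => by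
    simp only [hb, ← Finset.sum_mul, ← Finset.mul_sum]
    refine mul_le_mul_of_nonneg_right ?_ (sq_nonneg _)
    rw [sq]
    refine mul_le_mul (hsum l) ?_ (Finset.sum_nonneg fun k _ => ha0 _ _) (by positivity)
    refine le_trans (le_of_eq (Finset.sum_congr rfl fun k _ => hac l' k)) (hsum l')
  have hswap : ∑ l, ∑ l', ∑ k, ∑ k', b k k' l l' = ∑ l, ∑ l', ∑ k, ∑ k', b l l' k k' :=
    calc ∑ l, ∑ l', ∑ k, ∑ k', b k k' l l' = ∑ l, ∑ k, ∑ l', ∑ k', b k k' l l' :=
          Finset.sum_congr rfl fun l _ => Finset.sum_comm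
      _ = ∑ k, ∑ l, ∑ l', ∑ k', b k k' l l' := Finset.sum_comm
      _ = ∑ k, ∑ l, ∑ k', ∑ l', b k k' l l' :=
          Finset.sum_congr rfl fun k _ => Finset.sum_congr rfl fun l _ => Finset.sum_comm
      _ = ∑ k, ∑ k', ∑ l, ∑ l', b k k' l l' :=
          Finset.sum_congr rfl fun k _ => Finset.sum_comm
  have hall : ∑ l, ∑ l', ∑ k, ∑ k', |t l l' k k'| ≤ ∑ l, ∑ l', ∑ k, ∑ k', b l l' k k' := by
    refine (Finset.sum_le_sum fun l _ => Finset.sum_le_sum fun l' _ => Finset.sum_le_sum fun k _ =>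
      Finset.sum_le_sum fun k' _ => htb l l' k k').trans_eq ?_
    simp only [← Finset.sum_div, Finset.sum_add_distrib, hswap]
    ring
  have hexp : ∀ l l', D' l l' * ∑ k, ∑ k', m l k * D' k k' * m' k' l' = ∑ k, ∑ k', t l l' k k' :=
    fun l l' => by simp only [ht, Finset.mul_sum]
  simp only [hexp]
  refine ⟨?_, ?_⟩
  · refine ((Finset.abs_sum_le_sum_abs _ _).trans (Finset.sum_le_sum fun l _ =>
      (Finset.abs_sum_le_sum_abs _ _).trans (Finset.sum_le_sum fun l' _ =>
        (Finset.abs_sum_le_sum_abs _ _).trans (Finset.sum_le_sum fun k _ =>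
          Finset.abs_sum_le_sum_abs _ _)))).trans (hall.trans ?_)
    rw [Finset.mul_sum]
    refine Finset.sum_le_sum fun l _ => ?_
    rw [Finset.mul_sum]
    exact Finset.sum_le_sum fun l' _ => hbs l l'
  · set d : L → L → L → L → ℝ := fun l l' k k' => if k = l then (if k' = l' then 1 else 0) else 0
      with hd
    have key : ∀ l l' k k', d l l' k k' * t l l' k k'
        - ((1 - d l l' k k') * b l l' k k' + (1 - d l l' k k') * b k k' l l') / 2 ≤ t l l' k k' := by
      intro l l' k k'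
      have h1 := neg_abs_le (t l l' k k')
      have h2 := htb l l' k k'
      by_cases h : k = l ∧ k' = l'
      · simp [hd, h.1, h.2]
      · have : d l l' k k' = 0 := by
          simp only [hd]; split_ifs with e1 e2 <;> first | rfl | exact absurd ⟨e1, e2⟩ h
        rw [this]; linarith
    have hd' : ∀ l l' k k', d k k' l l' = d l l' k k' := fun l l' k k' => by
      simp only [hd, eq_comm (a := l), eq_comm (a := l')]
    have s1 : ∀ l l', ∑ k, ∑ k', d l l' k k' * t l l' k k' = D' l l' ^ 2 * (m l l * m' l' l') := by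
      intro l l'
      simp only [hd, ite_mul, one_mul, zero_mul, Finset.sum_ite_irrel, Finset.sum_const_zero,
        Finset.sum_ite_eq', Finset.mem_univ, if_true, ht]
      ring
    have s2 : ∀ l l', ∑ k, ∑ k', (1 - d l l' k k') * b l l' k k'
        ≤ D' l l' ^ 2 * (2 * V * U ^ 2 + U ^ 4) := by
      intro l l'
      have h1 := hbs l l'
      have h2 : ∑ k, ∑ k', d l l' k k' * b l l' k k' = V * V * D' l l' ^ 2 := by
        simp only [hd, ite_mul, one_mul, zero_mul, Finset.sum_ite_irrel, Finset.sum_const_zero,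
          Finset.sum_ite_eq', Finset.mem_univ, if_true, hb, ha]
      simp only [sub_mul, one_mul, Finset.sum_sub_distrib, h2]
      linarith
    refine le_trans ?_ (Finset.sum_le_sum fun l _ => Finset.sum_le_sum fun l' _ =>
      Finset.sum_le_sum fun k _ => Finset.sum_le_sum fun k' _ => key l l' k k')
    simp only [Finset.sum_sub_distrib, ← Finset.sum_div, Finset.sum_add_distrib, s1]
    have hswap' : ∑ l, ∑ l', ∑ k, ∑ k', (1 - d l l' k k') * b k k' l l'
        = ∑ l, ∑ l', ∑ k, ∑ k', (1 - d l l' k k') * b l l' k k' :=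
      calc ∑ l, ∑ l', ∑ k, ∑ k', (1 - d l l' k k') * b k k' l l'
          = ∑ l, ∑ k, ∑ l', ∑ k', (1 - d l l' k k') * b k k' l l' :=
            Finset.sum_congr rfl fun l _ => Finset.sum_comm
        _ = ∑ k, ∑ l, ∑ l', ∑ k', (1 - d l l' k k') * b k k' l l' := Finset.sum_comm
        _ = ∑ k, ∑ l, ∑ k', ∑ l', (1 - d l l' k k') * b k k' l l' :=
            Finset.sum_congr rfl fun k _ => Finset.sum_congr rfl fun l _ => Finset.sum_comm
        _ = ∑ k, ∑ k', ∑ l, ∑ l', (1 - d l l' k k') * b k k' l l' :=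
            Finset.sum_congr rfl fun k _ => Finset.sum_comm
        _ = _ := by simp only [hd']
    rw [hswap', add_self_div_two]
    simp only [mul_sub, Finset.sum_sub_distrib]
    refine sub_le_sub_left ?_ _
    exact Finset.sum_le_sum fun l _ => Finset.sum_le_sum fun l' _ => s2 l l'

/-- The entries of `vM` inside one state, without the weight. -/
def blk (f1 f2 : ℝ → ℝ) (v : Y × L → ℝ) (y : Y) (l k : L) : ℝ :=
  f1 (v (y, l)) * f1 (v (y, k)) + vInd (l = k) * f2 (v (y, l))

omit [Nonempty Y] in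
lemma sum_vM (v : Y × L → ℝ) (y : Y) (l : L) (F : Y × L → ℝ) :
    ∑ x, vM f f1 f2 u v (y, l) x * F x = vp f u v y * ∑ k, blk f1 f2 v y l k * F (y, k) := by
  rw [Fintype.sum_prod_type]
  rw [Finset.sum_eq_single_of_mem y (Finset.mem_univ y) fun y' _ hne =>
    Finset.sum_eq_zero fun k _ => by
      simp [vM, vInd, Ne.symm hne]]
  rw [Finset.mul_sum]
  refine Finset.sum_congr rfl fun k _ => ?_
  simp only [vM, blk, vInd, Prod.mk.injEq, true_and, if_true]
  ring

omit [Nonempty Y] in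
lemma vTr_eq (v : Y × L → ℝ) : vTr f f1 f2 u D v = ∑ y, ∑ y', vp f u v y * vp f u v y' *
    ∑ l, ∑ l', D (y, l) (y', l') *
      ∑ k, ∑ k', blk f1 f2 v y l k * D (y, k) (y', k') * blk f1 f2 v y' k' l' := by
  have hDM : ∀ x y' l', vDM f f1 f2 u D v x (y', l')
      = vp f u v y' * ∑ k', D x (y', k') * blk f1 f2 v y' k' l' := by
    intro x y' l'
    simp only [vDM]
    rw [Fintype.sum_prod_type, Finset.sum_eq_single_of_mem y' (Finset.mem_univ y') fun b _ hne =>
      Finset.sum_eq_zero fun k _ => by simp [vM, vInd, hne]]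
    rw [Finset.mul_sum]
    refine Finset.sum_congr rfl fun k _ => ?_
    simp only [vM, blk, vInd, Prod.mk.injEq, true_and, if_true]
    ring
  simp only [vTr, Fintype.sum_prod_type (f := fun z : Y × L => ∑ w, _)]
  refine Finset.sum_congr rfl fun y _ => ?_
  simp only [Fintype.sum_prod_type (f := fun w : Y × L => D _ w * _)]
  rw [Finset.sum_comm]
  refine Finset.sum_congr rfl fun y' _ => ?_
  simp only [sum_vM]
  simp only [hDM, Finset.mul_sum]
  exact Finset.sum_congr rfl fun l _ => Finset.sum_congr rfl fun l' _ =>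
    Finset.sum_congr rfl fun k _ => Finset.sum_congr rfl fun k' _ => by ring

lemma vp_bounds (hB : ∀ s, |f s| ≤ B) (hL : Fintype.card L ≤ 2) (v : Y × L → ℝ) (y : Y) :
    exp (-(4 * B)) * gw u y ≤ vp f u v y ∧ vp f u v y ≤ exp (4 * B) * gw u y := by
  have hs := sum_exp_pos' u
  set F : Y → ℝ := fun z => ∑ l, f (v (z, l)) with hF
  have hZ : 0 < ∑ z, exp (u z + F z) := sum_exp_pos' _
  have hB0 : 0 ≤ B := (abs_nonneg _).trans (hB 0)
  have hF2 : ∀ z, |F z| ≤ 2 * B := fun z => by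
    refine (Finset.abs_sum_le_sum_abs _ _).trans
      ((Finset.sum_le_card_nsmul _ _ _ fun l _ => hB _).trans ?_)
    rw [Finset.card_univ, nsmul_eq_mul]
    exact mul_le_mul_of_nonneg_right (by exact_mod_cast hL) hB0
  constructor
  · rw [vp, gw, gw, le_div_iff₀ hZ, mul_div_assoc', div_mul_eq_mul_div, div_le_iff₀ hs,
      Finset.mul_sum, Finset.mul_sum]
    refine Finset.sum_le_sum fun z _ => ?_
    simp only [← exp_add]
    exact exp_le_exp.2 (by linarith [(abs_le.1 (hF2 y)).1, (abs_le.1 (hF2 z)).2])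
  · rw [vp, gw, gw, div_le_iff₀ hZ, mul_div_assoc', div_mul_eq_mul_div, le_div_iff₀ hs,
      Finset.mul_sum, Finset.mul_sum]
    refine Finset.sum_le_sum fun z _ => ?_
    simp only [← exp_add]
    exact exp_le_exp.2 (by linarith [(abs_le.1 (hF2 y)).2, (abs_le.1 (hF2 z)).1])

/-- The squared Gram derivative between two states. -/
def W2 (D : Y × L → Y × L → ℝ) (y y' : Y) : ℝ := ∑ l, ∑ l', D (y, l) (y', l') ^ 2

omit [Fintype Y] [Nonempty Y] in
lemma W2_nonneg (y y' : Y) : 0 ≤ W2 D y y' :=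
  Finset.sum_nonneg fun _ _ => Finset.sum_nonneg fun _ _ => sq_nonneg _

lemma rr_bounds (hp : P157.Conc.Pot f f1 f2 f3 U V W) (hL : Fintype.card L ≤ 2) (v : Y × L → ℝ) :
    |vRR f f1 f2 u D v| ≤ 2 * U ^ 2 * (V + U ^ 2) * ∑ y, ∑ y', vp f u v y * vp f u v y' * W2 D y y'
      ∧ vQD f f1 u D v ^ 2 ≤ 4 * U ^ 4 * ∑ y, ∑ y', vp f u v y * vp f u v y' * W2 D y y' := by
  have hU : 0 ≤ U := (abs_nonneg _).trans (hp.b1 0)
  have hV : 0 ≤ V := (abs_nonneg _).trans (hp.b2 0)
  have hc : (Fintype.card L : ℝ) ≤ 2 := by exact_mod_cast hL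
  set p := vp f u v with hpdef
  set r := vr f f1 u D v with hrdef
  have hp0 : ∀ y, 0 ≤ p y := vp_nonneg v
  have hq : ∀ x, |vq f f1 u v x| ≤ p x.1 * U := fun x => by
    rw [vq, abs_mul, abs_of_nonneg (gw_nonneg' _ _)]
    exact mul_le_mul_of_nonneg_left (hp.b1 _) (hp0 _)
  have hcard : ∑ x : Y × L, p x.1 ≤ 2 := by
    rw [Fintype.sum_prod_type]
    simp only [Finset.sum_const, Finset.card_univ, nsmul_eq_mul, ← Finset.mul_sum, hpdef, sum_vp]
    linarith
  have hr : ∀ x, r x ^ 2 ≤ 2 * U ^ 2 * ∑ a, p a.1 * D x a ^ 2 := by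
    intro x
    have h1 : |r x| ≤ U * ∑ a, √(p a.1) * (√(p a.1) * |D x a|) := by
      rw [hrdef, vr, Finset.mul_sum]
      refine (Finset.abs_sum_le_sum_abs _ _).trans (Finset.sum_le_sum fun a _ => ?_)
      rw [abs_mul, ← mul_assoc (√(p a.1)), Real.mul_self_sqrt (hp0 _)]
      exact (mul_le_mul_of_nonneg_left (hq a) (abs_nonneg _)).trans_eq (by ring)
    have h2 := Finset.sum_mul_sq_le_sq_mul_sq Finset.univ (fun a : Y × L => √(p a.1))
      (fun a => √(p a.1) * |D x a|)
    simp only [mul_pow, sq_abs, Real.sq_sqrt (hp0 _)] at h2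
    have h3 := pow_le_pow_left₀ (abs_nonneg _) h1 2
    rw [sq_abs, mul_pow] at h3
    have h4 := mul_le_mul_of_nonneg_right hcard
      (Finset.sum_nonneg fun a (_ : a ∈ Finset.univ) => mul_nonneg (hp0 a.1) (sq_nonneg (D x a)))
    exact h3.trans ((mul_le_mul_of_nonneg_left (h2.trans h4) (sq_nonneg U)).trans_eq (by ring))
  have hPr : ∑ x : Y × L, p x.1 * r x ^ 2 ≤ 2 * U ^ 2 * ∑ y, ∑ y', p y * p y' * W2 D y y' := by
    refine (Finset.sum_le_sum fun x _ => mul_le_mul_of_nonneg_left (hr x) (hp0 x.1)).trans_eq ?_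
    simp only [Fintype.sum_prod_type, W2, Finset.mul_sum]
    refine Finset.sum_congr rfl fun y _ => ?_
    rw [Finset.sum_comm]
    exact Finset.sum_congr rfl fun y' _ => Finset.sum_congr rfl fun l _ =>
      Finset.sum_congr rfl fun l' _ => by ring
  constructor
  · have h1 : ∀ y l, |r (y, l) * vMr f f1 f2 u D v (y, l)|
        ≤ p y * ∑ k, |blk f1 f2 v y l k| * ((r (y, l) ^ 2 + r (y, k) ^ 2) / 2) := by
      intro y l
      rw [vMr, sum_vM, ← mul_assoc, mul_comm (r (y, l)), mul_assoc, abs_mul, abs_of_nonneg (hp0 y)]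
      refine mul_le_mul_of_nonneg_left ?_ (hp0 y)
      rw [Finset.mul_sum]
      refine (Finset.abs_sum_le_sum_abs _ _).trans (Finset.sum_le_sum fun k _ => ?_)
      rw [← hrdef, abs_mul, abs_mul]
      have := two_mul_le_add_sq |r (y, l)| |r (y, k)|
      rw [sq_abs, sq_abs] at this
      nlinarith [mul_le_mul_of_nonneg_left this (abs_nonneg (blk f1 f2 v y l k))]
    have hblk : ∀ y l k, |blk f1 f2 v y l k| ≤ if l = k then V else U ^ 2 := by
      intro y l k
      simp only [blk, vInd]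
      split_ifs with h
      · subst h
        rw [one_mul, ← sq, add_comm]; exact hp.b2 _
      · rw [zero_mul, add_zero, abs_mul, sq]
        exact mul_le_mul (hp.b1 _) (hp.b1 _) (abs_nonneg _) hU
    have hblksum : ∀ l : L, ∑ k, (if l = k then V else U ^ 2) ≤ V + U ^ 2 := fun l => by
      have e : ∀ k, (if l = k then V else U ^ 2) = (if l = k then V - U ^ 2 else 0) + U ^ 2 :=
        fun k => by split_ifs <;> ring
      simp only [e, Finset.sum_add_distrib, Finset.sum_ite_eq, Finset.mem_univ, if_true,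
        Finset.sum_const, Finset.card_univ, nsmul_eq_mul]
      have := mul_le_mul_of_nonneg_right hc (sq_nonneg U)
      linarith
    have h2 : ∀ y, ∑ l, |r (y, l) * vMr f f1 f2 u D v (y, l)|
        ≤ (V + U ^ 2) * ∑ l, p y * r (y, l) ^ 2 := by
      intro y
      refine (Finset.sum_le_sum fun l _ => h1 y l).trans ?_
      rw [← Finset.mul_sum, ← Finset.mul_sum, mul_left_comm]
      refine mul_le_mul_of_nonneg_left ?_ (hp0 y)
      refine (Finset.sum_le_sum fun l _ => Finset.sum_le_sum fun k _ =>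
        mul_le_mul_of_nonneg_right (hblk y l k) (by positivity)).trans ?_
      have e : ∑ l, ∑ k, (if l = k then V else U ^ 2) * ((r (y, l) ^ 2 + r (y, k) ^ 2) / 2)
          = ∑ l, r (y, l) ^ 2 * ∑ k, (if l = k then V else U ^ 2) := by
        have e1 : ∑ l, ∑ k, (if l = k then V else U ^ 2) * r (y, k) ^ 2
            = ∑ l, ∑ k, (if l = k then V else U ^ 2) * r (y, l) ^ 2 := by
          rw [Finset.sum_comm]
          simp only [eq_comm]
        simp only [mul_div_assoc', ← Finset.sum_div, mul_add, Finset.sum_add_distrib, e1,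
          add_self_div_two, Finset.mul_sum]
        exact Finset.sum_congr rfl fun l _ => Finset.sum_congr rfl fun k _ => mul_comm _ _
      rw [e, Finset.mul_sum]
      exact Finset.sum_le_sum fun l _ =>
        (mul_le_mul_of_nonneg_left (hblksum l) (sq_nonneg _)).trans_eq (mul_comm _ _)
    rw [vRR, Fintype.sum_prod_type]
    refine (Finset.abs_sum_le_sum_abs _ _).trans ((Finset.sum_le_sum fun y _ =>
      (Finset.abs_sum_le_sum_abs _ _).trans (h2 y)).trans ?_)
    rw [← Finset.mul_sum, ← Fintype.sum_prod_type (f := fun x : Y × L => p x.1 * r x ^ 2)]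
    exact (mul_le_mul_of_nonneg_left hPr (by positivity)).trans_eq (by ring)
  · have h1 : |vQD f f1 u D v| ≤ U * ∑ x, √(p x.1) * (√(p x.1) * |r x|) := by
      rw [← sum_mul_vr, Finset.mul_sum]
      refine (Finset.abs_sum_le_sum_abs _ _).trans (Finset.sum_le_sum fun x _ => ?_)
      rw [abs_mul, ← mul_assoc (√(p x.1)), Real.mul_self_sqrt (hp0 _)]
      exact (mul_le_mul_of_nonneg_right (hq x) (abs_nonneg _)).trans_eq (by ring)
    have h2 := Finset.sum_mul_sq_le_sq_mul_sq Finset.univ (fun x : Y × L => √(p x.1))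
      (fun x => √(p x.1) * |r x|)
    simp only [mul_pow, sq_abs, Real.sq_sqrt (hp0 _)] at h2
    have h3 := pow_le_pow_left₀ (abs_nonneg _) h1 2
    rw [sq_abs, mul_pow] at h3
    have h4 := mul_le_mul hcard hPr
      (Finset.sum_nonneg fun x (_ : x ∈ Finset.univ) => mul_nonneg (hp0 x.1) (sq_nonneg (r x)))
      zero_le_two
    exact h3.trans ((mul_le_mul_of_nonneg_left (h2.trans h4) (sq_nonneg U)).trans_eq (by ring))

/-- Pointwise bounds of the second derivative. -/
lemma vSgn_bounds (hg : Good f f1 f2 f3 U V W B κ₀) (hL : Fintype.card L ≤ 2) (v : Y × L → ℝ) :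
    (∑ y, ∑ y', gw u y * gw u y' * ∑ l, ∑ l', D (y, l) (y', l') ^ 2 *
        ((f2 (v (y, l)) + f1 (v (y, l)) ^ 2) * (f2 (v (y', l')) + f1 (v (y', l')) ^ 2) - κ₀))
        + 16 * exp (8 * B) * (V * U ^ 2 + U ^ 4) * avgC u (W2 D)
      ≤ vSgn f f1 f2 u D v
    ∧ vSgn f f1 f2 u D v ≤ 2 * K1 U V B * avgC u (W2 D) := by
  have hp := hg.pot
  have hU : 0 ≤ U := (abs_nonneg _).trans (hp.b1 0)
  have hV : 0 ≤ V := (abs_nonneg _).trans (hp.b2 0)
  have hB0 : 0 ≤ B := (abs_nonneg _).trans (hg.bd 0)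
  set E := exp (8 * B) with hE
  set p := vp f u v with hpdef
  set w := gw u with hwdef
  set k : Y → L → ℝ := fun y l => f2 (v (y, l)) + f1 (v (y, l)) ^ 2 with hk
  have hp0 : ∀ y, 0 ≤ p y := vp_nonneg v
  have hw : ∀ y, 0 ≤ w y := gw_nonneg' u
  have hE4 : exp (4 * B) * exp (4 * B) = E := by rw [hE, ← exp_add]; ring_nf
  have hE4' : exp (-(4 * B)) * exp (-(4 * B)) = exp (-(8 * B)) := by rw [← exp_add]; ring_nf
  have pp1 : ∀ y y', p y * p y' ≤ E * (w y * w y') := fun y y' => by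
    refine (mul_le_mul (vp_bounds hg.bd hL v y).2 (vp_bounds hg.bd hL v y').2 (hp0 y')
      (mul_nonneg (exp_pos _).le (hw y))).trans_eq ?_
    rw [← hE4, hwdef]; ring
  have pp2 : ∀ y y', exp (-(8 * B)) * (w y * w y') ≤ p y * p y' := fun y y' => by
    refine le_trans (le_of_eq ?_) (mul_le_mul (vp_bounds hg.bd hL v y).1
      (vp_bounds hg.bd hL v y').1 (mul_nonneg (exp_pos _).le (hw y')) (hp0 y))
    rw [← hE4', hwdef]; ring
  set S := ∑ y, ∑ y', w y * w y' * W2 D y y' with hS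
  have hS0 : 0 ≤ S := Finset.sum_nonneg fun y _ => Finset.sum_nonneg fun y' _ =>
    mul_nonneg (mul_nonneg (hw y) (hw y')) (W2_nonneg y y')
  have hpS : ∑ y, ∑ y', p y * p y' * W2 D y y' ≤ E * S := by
    rw [hS, Finset.mul_sum]
    refine Finset.sum_le_sum fun y _ => ?_
    rw [Finset.mul_sum]
    exact Finset.sum_le_sum fun y' _ =>
      (mul_le_mul_of_nonneg_right (pp1 y y') (W2_nonneg y y')).trans_eq (by ring)
  have hblk1 : ∀ y l, blk f1 f2 v y l l = k y l := fun y l => by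
    simp only [blk, vInd, hk, if_true]; ring
  have hb1 : ∀ y l, |blk f1 f2 v y l l| ≤ V := fun y l => by rw [hblk1]; exact hp.b2 _
  have hb2 : ∀ y l l', l ≠ l' → |blk f1 f2 v y l l'| ≤ U ^ 2 := fun y l l' h => by
    simp only [blk, vInd, h, if_false, zero_mul, add_zero, abs_mul, sq]
    exact mul_le_mul (hp.b1 _) (hp.b1 _) (abs_nonneg _) hU
  have hpair := fun y y' => pair_bound (D' := fun l l' => D (y, l) (y', l')) hV hL
    (hb1 y) (hb2 y) (hb1 y') (hb2 y')
  obtain ⟨hRR, hQ⟩ := rr_bounds (u := u) (D := D) hp hL v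
  rw [← hpdef] at hRR hQ
  have hRR' : |vRR f f1 f2 u D v| ≤ 2 * U ^ 2 * (V + U ^ 2) * (E * S) :=
    hRR.trans (mul_le_mul_of_nonneg_left hpS (by positivity))
  have hQ' : vQD f f1 u D v ^ 2 ≤ 4 * U ^ 4 * (E * S) :=
    hQ.trans (mul_le_mul_of_nonneg_left hpS (by positivity))
  have hRa := abs_le.1 hRR'
  constructor
  · have hT : (∑ y, ∑ y', w y * w y' * ∑ l, ∑ l', D (y, l) (y', l') ^ 2 * (k y l * k y' l'))
        - ((E - 1) * V ^ 2 + E * (2 * V * U ^ 2 + U ^ 4)) * S ≤ vTr f f1 f2 u D v := by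
      rw [vTr_eq, hS, Finset.mul_sum, ← Finset.sum_sub_distrib]
      refine Finset.sum_le_sum fun y _ => ?_
      rw [Finset.mul_sum, ← Finset.sum_sub_distrib]
      refine Finset.sum_le_sum fun y' _ => ?_
      refine le_trans ?_ (mul_le_mul_of_nonneg_left (hpair y y').2 (mul_nonneg (hp0 y) (hp0 y')))
      simp only [W2, Finset.mul_sum, ← Finset.sum_sub_distrib]
      refine Finset.sum_le_sum fun l _ => Finset.sum_le_sum fun l' _ => ?_
      rw [hblk1, hblk1]
      set c := D (y, l) (y', l') ^ 2 with hc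
      have hc0 : 0 ≤ c := sq_nonneg _
      have hkk : |k y l * k y' l'| ≤ V ^ 2 := by
        rw [abs_mul, sq]; exact mul_le_mul (hp.b2 _) (hp.b2 _) (abs_nonneg _) hV
      have hww := mul_nonneg (hw y) (hw y')
      have h3 : exp (-(8 * B)) + E ≥ 2 := by
        have := add_one_le_exp (-(8 * B)); have := add_one_le_exp (8 * B); linarith
      have d : |p y * p y' - w y * w y'| ≤ (E - 1) * (w y * w y') :=
        abs_le.2 ⟨by nlinarith [pp2 y y'], by nlinarith [pp1 y y']⟩
      have h5 := neg_abs_le ((p y * p y' - w y * w y') * (k y l * k y' l'))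
      rw [abs_mul] at h5
      have h6 := mul_le_mul d hkk (abs_nonneg _) ((abs_nonneg _).trans d)
      have h7 : p y * p y' * (2 * V * U ^ 2 + U ^ 4)
          ≤ E * (w y * w y') * (2 * V * U ^ 2 + U ^ 4) :=
        mul_le_mul_of_nonneg_right (pp1 y y') (by positivity)
      have h8 : w y * w y' * (k y l * k y' l')
          - ((E - 1) * V ^ 2 + E * (2 * V * U ^ 2 + U ^ 4)) * (w y * w y')
          ≤ p y * p y' * (k y l * k y' l' - (2 * V * U ^ 2 + U ^ 4)) := by linarith
      have := mul_le_mul_of_nonneg_left h8 hc0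
      linarith
    have hlhs : (∑ y, ∑ y', w y * w y' * ∑ l, ∑ l', D (y, l) (y', l') ^ 2 * (k y l * k y' l' - κ₀))
        = (∑ y, ∑ y', w y * w y' * ∑ l, ∑ l', D (y, l) (y', l') ^ 2 * (k y l * k y' l'))
          - κ₀ * S := by
      simp only [hS, W2, Finset.mul_sum, ← Finset.sum_sub_distrib]
      exact Finset.sum_congr rfl fun y _ => Finset.sum_congr rfl fun y' _ =>
        Finset.sum_congr rfl fun l _ => Finset.sum_congr rfl fun l' _ => by ring
    have hSC : avgC u (W2 D) = S := rfl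
    rw [hlhs, hSC]
    have hcrit := mul_le_mul_of_nonneg_right hg.crit hS0
    have h9 : 0 ≤ E * S * (6 * (V * U ^ 2) + 7 * U ^ 4) :=
      mul_nonneg (mul_nonneg (exp_pos _).le hS0) (by positivity)
    have h10 : 0 ≤ vQD f f1 u D v ^ 2 := sq_nonneg _
    rw [vSgn]
    simp only [← hE] at hcrit
    linarith
  · have hT : vTr f f1 f2 u D v ≤ (V + U ^ 2) ^ 2 * (E * S) := by
      rw [vTr_eq]
      refine le_trans (Finset.sum_le_sum fun y _ => Finset.sum_le_sum fun y' _ =>
        mul_le_mul_of_nonneg_left ((le_abs_self _).trans (hpair y y').1)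
          (mul_nonneg (hp0 y) (hp0 y'))) ?_
      refine le_trans (le_of_eq ?_) (mul_le_mul_of_nonneg_left hpS (sq_nonneg (V + U ^ 2)))
      simp only [W2, Finset.mul_sum]
      exact Finset.sum_congr rfl fun y _ => Finset.sum_congr rfl fun y' _ =>
        Finset.sum_congr rfl fun l _ => Finset.sum_congr rfl fun l' _ => by ring
    have hES : 0 ≤ E * S := mul_nonneg (exp_pos _).le hS0
    have h1 : U ^ 2 * (V + U ^ 2) ≤ (V + U ^ 2) ^ 2 := by
      rw [sq (V + U ^ 2)]; exact mul_le_mul_of_nonneg_right (by linarith) (by positivity)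
    have h2 : U ^ 4 ≤ (V + U ^ 2) ^ 2 := by
      have := pow_le_pow_left₀ (sq_nonneg U) (show U ^ 2 ≤ V + U ^ 2 by linarith) 2
      linarith [show (U ^ 2) ^ 2 = U ^ 4 by ring]
    have h1' := mul_le_mul_of_nonneg_right h1 hES
    have h2' := mul_le_mul_of_nonneg_right h2 hES
    have h3 : 0 ≤ (V + U ^ 2) ^ 2 * (E * S) := mul_nonneg (sq_nonneg _) hES
    have hK : 2 * K1 U V B * avgC u (W2 D) = 64 * ((V + U ^ 2) ^ 2 * (E * S)) := by
      simp only [K1, avgC, hS, ← hE, ← hwdef]; ring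
    rw [hK, vSgn]
    linarith

end bounds

section path

variable {e : Y × L → κ → ℝ} {P R : κ → ℝ} (h : Path e P R)

lemma continuousOn_vphi (hp : P157.Conc.Pot f f1 f2 f3 U V W) (h : Path e P R) (u : Y → ℝ) :
    ContinuousOn (vphi f u e P R) (Icc 0 1) := by
  obtain ⟨C, hC⟩ := Bd.bound2 fun x : Y × L => bd_vq (u := u) hp x
  exact P157.Conc.continuousOn_path h.hP h.hR (continuous_vH hp) ((grad_vH hp).lip hC)

lemma hasDerivAt_vphi (hp : P157.Conc.Pot f f1 f2 f3 U V W) (h : Path e P R)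
    (hd : ∀ y l l', Dmat e P R (y, l) (y, l') = 0) (u : Y → ℝ) {t : ℝ} (ht : t ∈ Ioo (0 : ℝ) 1) :
    HasDerivAt (vphi f u e P R) (-(1 / 2) * vpsi f f1 u e P R t) t := by
  obtain ⟨C1, hC1⟩ := Bd.bound2 fun x : Y × L => bd_vq (u := u) hp x
  obtain ⟨C2, hC2⟩ := Bd.bound2 fun z : (Y × L) × (Y × L) =>
    ((bd_vM (u := u) hp z.1 z.2).sub ((bd_vq (u := u) hp z.1).mul (bd_vq (u := u) hp z.2)))
  refine (P157.Conc.hasDerivAt_path h.hP h.hR (H1 := fun v x => vq f f1 u v x)
    (H2 := fun v x z => vM f f1 f2 u v x z - vq f f1 u v x * vq f f1 u v z) (grad_vH hp)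
    (fun x => grad_vq hp x) (continuous_vH hp) (fun x => continuous_vq hp x)
    (fun x z => (continuous_vM hp x z).sub ((continuous_vq hp x).mul (continuous_vq hp z)))
    (C := max C1 C2) (fun v x => (hC1 v x).trans (le_max_left _ _))
    (fun v x z => (hC2 v (x, z)).trans (le_max_right _ _)) ht).congr_deriv ?_
  simp only [sum_vH2 hd, integral_neg, vpsi]
  ring

lemma continuousOn_vpsi (hp : P157.Conc.Pot f f1 f2 f3 U V W) (u : Y → ℝ) :
    ContinuousOn (vpsi f f1 u e P R) (Icc 0 1) := by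
  obtain ⟨C, hC⟩ := bd_vQD (u := u) (D := Dmat e P R) hp
  exact continuousOn_of_dominated (bound := fun _ => C)
    (fun t _ => ((continuous_vQD hp).comp (P157.Conc.continuous_Sp t)).aestronglyMeasurable)
    (fun t _ => ae_of_all _ fun g => hC _) (integrable_const _)
    (ae_of_all _ fun g => ((continuous_vQD hp).comp (P157.Conc.continuous_Sp_t g)).continuousOn)

lemma hasDerivAt_vpsi (hp : P157.Conc.Pot f f1 f2 f3 U V W) (h : Path e P R)
    (hd : ∀ y l l', Dmat e P R (y, l) (y, l') = 0) (u : Y → ℝ) {t : ℝ} (ht : t ∈ Ioo (0 : ℝ) 1) :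
    HasDerivAt (vpsi f f1 u e P R)
      (∫ g, vSgn f f1 f2 u (Dmat e P R) (Sp e P R t g) ∂gauss κ) t := by
  obtain ⟨C1, hC1⟩ := Bd.bound2 fun z : Y × L =>
    ((Bd.const 2).mul (bd_vMr (u := u) (D := Dmat e P R) hp z)).sub
      ((Bd.const 2).mul ((bd_vQD (u := u) (D := Dmat e P R) hp).mul (bd_vq (u := u) hp z)))
  obtain ⟨C2, hC2⟩ := Bd.bound2 fun z : (Y × L) × (Y × L) =>
    show Bd fun v => vQD2 f f1 f2 f3 u (Dmat e P R) v z.1 z.2 from
      ((Bd.const 2).mul (Bd.sum fun x => (((bd_vT3 hp _ x _).sub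
          ((bd_vq hp _).mul (bd_vM hp _ x))).mul (bd_vr hp x)).add
        ((bd_vM hp _ x).mul ((bd_vDM hp x _).sub ((bd_vr hp x).mul (bd_vq hp _)))))).sub
      ((Bd.const 2).mul (((((Bd.const 2).mul (bd_vMr hp _)).sub
          ((Bd.const 2).mul ((bd_vQD hp).mul (bd_vq hp _)))).mul (bd_vq hp _)).add
        ((bd_vQD hp).mul ((bd_vM hp _ _).sub ((bd_vq hp _).mul (bd_vq hp _))))))
  refine (P157.Conc.hasDerivAt_path h.hP h.hR (H2 := vQD2 f f1 f2 f3 u (Dmat e P R))
    (grad_vQD hp P157.Conc.Dmat_comm) (fun x => grad_vQD1 hp P157.Conc.Dmat_comm x)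
    (continuous_vQD hp) (fun z => ?_) (fun z w => ?_) (C := max C1 C2)
    (fun v x => (hC1 v x).trans (le_max_left _ _))
    (fun v x y => (hC2 v (x, y)).trans (le_max_right _ _)) ht).congr_deriv ?_
  · exact (continuous_const.mul (continuous_vMr hp z)).sub
      (continuous_const.mul ((continuous_vQD hp).mul (continuous_vq hp z)))
  · have := fun x : Y × L => continuous_vT3 (u := u) hp z x w
    have := fun x a : Y × L => continuous_vM (u := u) hp x a
    have := fun x : Y × L => continuous_vq (u := u) hp x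
    have := fun x : Y × L => continuous_vr (u := u) (D := Dmat e P R) hp x
    have := fun x : Y × L => continuous_vMr (u := u) (D := Dmat e P R) hp x
    have := fun x : Y × L => continuous_vDM (u := u) (D := Dmat e P R) hp x w
    have := continuous_vQD (u := u) (D := Dmat e P R) hp
    unfold vQD2
    fun_prop
  · simp only [sum_vQD2 P157.Conc.Dmat_comm hd, integral_const_mul]
    ring

lemma vSgn_integral (hg : Good f f1 f2 f3 U V W B κ₀) (hL : Fintype.card L ≤ 2) (h : Path e P R)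
    (u : Y → ℝ) {t : ℝ} (ht : t ∈ Icc (0 : ℝ) 1) :
    16 * exp (8 * B) * (V * U ^ 2 + U ^ 4)
        * avgC u (fun y z => ∑ l, ∑ l', Dmat e P R (y, l) (z, l') ^ 2)
        ≤ ∫ g, vSgn f f1 f2 u (Dmat e P R) (Sp e P R t g) ∂gauss κ
      ∧ ∫ g, vSgn f f1 f2 u (Dmat e P R) (Sp e P R t g) ∂gauss κ
        ≤ 2 * K1 U V B * avgC u (fun y z => ∑ l, ∑ l', Dmat e P R (y, l) (z, l') ^ 2) := by
  have hp := hg.pot
  set k : ℝ → ℝ := fun s => f2 s + f1 s ^ 2
  have hkc : Continuous k := hp.c2.add (hp.c1.pow 2)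
  have hV : 0 ≤ V := (abs_nonneg _).trans (hp.b2 0)
  have hki : ∀ x y, Integrable (fun g => k (Sp e P R t g x) * k (Sp e P R t g y)) (gauss κ) := by
    intro x y
    refine Integrable.of_bound (((hkc.comp ((continuous_apply x).comp (P157.Conc.continuous_Sp t))).mul
      (hkc.comp ((continuous_apply y).comp (P157.Conc.continuous_Sp t))))).aestronglyMeasurable
      (V * V) (ae_of_all _ fun g => ?_)
    rw [norm_eq_abs, abs_mul]
    exact mul_le_mul (hp.b2 _) (hp.b2 _) (abs_nonneg _) hV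
  have hlow : ∀ x y, κ₀ ≤ ∫ g, k (Sp e P R t g x) * k (Sp e P R t g y) ∂gauss κ := by
    intro x y
    obtain ⟨hr, he⟩ := P157.Conc.integral_pair (G := fun a b => k a * k b)
      ((hkc.comp continuous_fst).mul (hkc.comp continuous_snd)) (P157.Conc.pathE e P R t)
      (h.unit ht) x y
    exact (hg.low _ hr).trans_eq he.symm
  obtain ⟨C, hC⟩ := bd_vSgn (u := u) (D := Dmat e P R) hp
  have hSi : Integrable (fun g => vSgn f f1 f2 u (Dmat e P R) (Sp e P R t g)) (gauss κ) :=
    Integrable.of_bound ((continuous_vSgn hp).comp (P157.Conc.continuous_Sp t)).aestronglyMeasurable C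
      (ae_of_all _ fun g => hC _)
  refine ⟨?_, ?_⟩
  · set G : Y → Y → L → L → (κ → ℝ) → ℝ := fun y y' l l' g => gw u y * gw u y' *
      (Dmat e P R (y, l) (y', l') ^ 2 * (k (Sp e P R t g (y, l)) * k (Sp e P R t g (y', l')) - κ₀))
      with hG
    have hGi : ∀ y y' l l', Integrable (G y y' l l') (gauss κ) := fun y y' l l' =>
      ((((hki (y, l) (y', l')).sub (integrable_const κ₀)).const_mul _).const_mul _)
    have i2 : ∀ y y' l, Integrable (fun g => ∑ l', G y y' l l' g) (gauss κ) := fun y y' l =>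
      integrable_finsetSum _ fun l' _ => hGi y y' l l'
    have i3 : ∀ y y', Integrable (fun g => ∑ l, ∑ l', G y y' l l' g) (gauss κ) := fun y y' =>
      integrable_finsetSum _ fun l _ => i2 y y' l
    have i4 : ∀ y, Integrable (fun g => ∑ y', ∑ l, ∑ l', G y y' l l' g) (gauss κ) := fun y =>
      integrable_finsetSum _ fun y' _ => i3 y y'
    set m := 16 * exp (8 * B) * (V * U ^ 2 + U ^ 4)
      * avgC u (fun y z => ∑ l, ∑ l', Dmat e P R (y, l) (z, l') ^ 2) with hm
    refine le_trans ?_ (integral_mono ((integrable_finsetSum Finset.univ fun y _ => i4 y).add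
      (integrable_const m)) hSi fun g =>
      le_trans (le_of_eq ?_) (vSgn_bounds (u := u) (D := Dmat e P R) hg hL (Sp e P R t g)).1)
    · simp only [Pi.add_apply]
      rw [integral_add (integrable_finsetSum Finset.univ fun y _ => i4 y) (integrable_const m),
        integral_const, probReal_univ, one_smul]
      refine le_add_of_nonneg_left ?_
      rw [integral_finsetSum _ fun y _ => i4 y]
      refine Finset.sum_nonneg fun y _ => ?_
      rw [integral_finsetSum _ fun y' _ => i3 y y']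
      refine Finset.sum_nonneg fun y' _ => ?_
      rw [integral_finsetSum _ fun l _ => i2 y y' l]
      refine Finset.sum_nonneg fun l _ => ?_
      rw [integral_finsetSum _ fun l' _ => hGi y y' l l']
      refine Finset.sum_nonneg fun l' _ => ?_
      simp only [hG]
      rw [integral_const_mul, integral_const_mul, integral_sub (hki _ _) (integrable_const _)]
      refine mul_nonneg (mul_nonneg (gw_nonneg' u y) (gw_nonneg' u y'))
        (mul_nonneg (sq_nonneg _) ?_)
      simp only [integral_const, probReal_univ, one_smul]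
      linarith [hlow (y, l) (y', l')]
    · simp only [Pi.add_apply, hG, hm, Finset.mul_sum, k]
      rfl
  · refine (integral_mono hSi (integrable_const _) fun g =>
      (vSgn_bounds (u := u) (D := Dmat e P R) hg hL (Sp e P R t g)).2).trans_eq ?_
    simp only [integral_const, probReal_univ, one_smul]
    rfl

end path

/-- Tangent bound at the beginning of the path, with a margin. -/
theorem vec_tangent (hg : Good f f1 f2 f3 U V W B κ₀) (hL : Fintype.card L ≤ 2)
    {e : Y × L → κ → ℝ} {P R : κ → ℝ} (h : Path e P R)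
    (hd : ∀ y l l', Dmat e P R (y, l) (y, l') = 0) (u : Y → ℝ) :
    vphi f u e P R 1 ≤ vphi f u e P R 0 - 1 / 2 * vpsi f f1 u e P R 0
      - 4 * exp (8 * B) * (V * U ^ 2 + U ^ 4)
        * avgC u (fun y z => ∑ l, ∑ l', Dmat e P R (y, l) (z, l') ^ 2) := by
  have hp := hg.pot
  set c := 16 * exp (8 * B) * (V * U ^ 2 + U ^ 4)
    * avgC u (fun y z => ∑ l, ∑ l', Dmat e P R (y, l) (z, l') ^ 2) with hc
  have hm : MonotoneOn (fun t => vpsi f f1 u e P R t - c * t) (Icc 0 1) := by
    refine monotoneOn_of_hasDerivWithinAt_nonneg (f' := fun t =>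
      (∫ g, vSgn f f1 f2 u (Dmat e P R) (Sp e P R t g) ∂gauss κ) - c * 1) (convex_Icc 0 1)
      ((continuousOn_vpsi hp u).sub (continuousOn_const.mul continuousOn_id))
      (fun t ht => ?_) fun t ht => ?_ <;> rw [interior_Icc] at ht
    · exact ((hasDerivAt_vpsi hp h hd u ht).sub ((hasDerivAt_id t).const_mul c)).hasDerivWithinAt
    · have := (vSgn_integral hg hL h u ⟨ht.1.le, ht.2.le⟩).1
      linarith
  have ha : AntitoneOn (fun t => vphi f u e P R t + 1 / 2 * vpsi f f1 u e P R 0 * t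
      + c / 4 * t ^ 2) (Icc 0 1) := by
    refine antitoneOn_of_hasDerivWithinAt_nonpos (f' := fun t =>
      -(1 / 2) * vpsi f f1 u e P R t + 1 / 2 * vpsi f f1 u e P R 0 * 1
        + c / 4 * ((2 : ℕ) * t ^ (2 - 1))) (convex_Icc 0 1)
      (((continuousOn_vphi hp h u).add (continuousOn_const.mul continuousOn_id)).add
        (continuousOn_const.mul (continuousOn_id.pow 2))) (fun t ht => ?_) fun t ht => ?_ <;>
      rw [interior_Icc] at ht
    · exact (((hasDerivAt_vphi hp h hd u ht).add ((hasDerivAt_id t).const_mul _)).add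
        ((hasDerivAt_pow 2 t).const_mul _)).hasDerivWithinAt
    · have := hm (left_mem_Icc.2 zero_le_one) ⟨ht.1.le, ht.2.le⟩ ht.1.le
      simp only [mul_zero, sub_zero] at this
      norm_num
      linarith
  have := ha (left_mem_Icc.2 zero_le_one) (right_mem_Icc.2 zero_le_one) zero_le_one
  simp only [hc] at this
  norm_num at this
  linarith

/-- Second order lower bound from the beginning of the path. -/
theorem vec_second (hg : Good f f1 f2 f3 U V W B κ₀) (hL : Fintype.card L ≤ 2)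
    {e : Y × L → κ → ℝ} {P R : κ → ℝ} (h : Path e P R)
    (hd : ∀ y l l', Dmat e P R (y, l) (y, l') = 0) (u : Y → ℝ) :
    vphi f u e P R 0 - 1 / 2 * vpsi f f1 u e P R 0
      - K1 U V B * avgC u (fun y z => ∑ l, ∑ l', Dmat e P R (y, l) (z, l') ^ 2)
      ≤ vphi f u e P R 1 := by
  have hp := hg.pot
  set C := 2 * K1 U V B * avgC u (fun y z => ∑ l, ∑ l', Dmat e P R (y, l) (z, l') ^ 2) with hC
  have hC0 : 0 ≤ C :=
    mul_nonneg (mul_nonneg zero_le_two (mul_nonneg (by positivity) (sq_nonneg _)))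
      (Finset.sum_nonneg fun y _ => Finset.sum_nonneg fun z _ => mul_nonneg
        (mul_nonneg (gw_nonneg' u y) (gw_nonneg' u z)) (W2_nonneg (D := Dmat e P R) y z))
  obtain ⟨c, hc, he⟩ := exists_hasDerivAt_eq_slope (vphi f u e P R)
    (fun t => -(1 / 2) * vpsi f f1 u e P R t) zero_lt_one (continuousOn_vphi hp h u)
    (fun t ht => hasDerivAt_vphi hp h hd u ht)
  obtain ⟨c', hc', he'⟩ := exists_hasDerivAt_eq_slope (vpsi f f1 u e P R)
    (fun t => ∫ g, vSgn f f1 f2 u (Dmat e P R) (Sp e P R t g) ∂gauss κ) hc.1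
    ((continuousOn_vpsi hp u).mono (Icc_subset_Icc le_rfl hc.2.le))
    (fun t ht => hasDerivAt_vpsi hp h hd u ⟨ht.1, ht.2.trans hc.2⟩)
  have hb := (vSgn_integral hg hL h u (t := c') ⟨hc'.1.le, (hc'.2.trans hc.2).le⟩).2
  rw [he', sub_zero, div_le_iff₀ hc.1, ← hC] at hb
  have : C * c ≤ C := mul_le_of_le_one_right hC0 hc.2.le
  simp only [sub_zero, div_one] at he
  linarith

end P157.RS

end
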