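import Vale.Agent.P157.RS.Defs

/-!
# P157, RS: a concrete potential meeting the hypotheses
-/

noncomputable section

open MeasureTheory ProbabilityTheory Real Filter Topology Set
open scoped BigOperators

namespace P157.RS

open P157.Conc (integrable_pairG)

lemma integrable_sq_std : Integrable (fun t : ℝ => t ^ 2) (gaussianReal 0 1) :=
  (memLp_id_gaussianReal 2).integrable_sq

lemma integral_sq_std : ∫ x, x ^ 2 ∂gaussianReal 0 1 = 1 := by
  have h := variance_id_gaussianReal (μ := 0) (v := 1)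
  rw [variance_of_integral_eq_zero aemeasurable_id (by simp)] at h
  simpa using h

lemma sqrt_two_div_bounds : 7 / 10 ≤ √2 / 2 ∧ √2 / 2 ≤ 1 := by
  have h : √2 * √2 = 2 := Real.mul_self_sqrt (by norm_num)
  have := Real.sqrt_nonneg (2 : ℝ)
  constructor <;> nlinarith

/-- The shifted phase of the witness. -/
def ph (s : ℝ) : ℝ := s / 20 + π / 4

lemma cos_ph_ge (s : ℝ) : 27 / 40 - 1 / 40 * s ^ 2 ≤ cos (ph s) := by
  have h := (abs_le.1 (abs_cos_sub_cos_le (ph s) (π / 4))).1
  rw [show ph s - π / 4 = s / 20 by simp [ph], cos_pi_div_four, abs_div,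
    abs_of_pos (by norm_num : (0 : ℝ) < 20)] at h
  nlinarith [sq_nonneg (|s| - 1), sq_abs s, sqrt_two_div_bounds.1]

lemma sin_ph_near (s : ℝ) : |sin (ph s) - √2 / 2| ≤ |s| / 20 := by
  have h := abs_sin_sub_sin_le (ph s) (π / 4)
  rwa [show ph s - π / 4 = s / 20 by simp [ph], sin_pi_div_four, abs_div,
    abs_of_pos (by norm_num : (0 : ℝ) < 20)] at h

lemma sin_mul_sin_ge (x y : ℝ) :
    1 / 2 - (1 + x ^ 2) / 40 - (1 + y ^ 2) / 40 - (x ^ 2 + y ^ 2) / 800
      ≤ sin (ph x) * sin (ph y) := by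
  set c := √2 / 2 with hc
  have hc2 : c * c = 1 / 2 := by
    rw [hc, div_mul_div_comm, Real.mul_self_sqrt (by norm_num)]; norm_num
  have hc0 : 0 ≤ c := by positivity
  have hc1 : c ≤ 1 := sqrt_two_div_bounds.2
  set a := sin (ph x) - c
  set b := sin (ph y) - c
  have ha : |a| ≤ |x| / 20 := sin_ph_near x
  have hb : |b| ≤ |y| / 20 := sin_ph_near y
  have e : sin (ph x) * sin (ph y) = c * c + c * a + c * b + a * b := by simp only [a, b]; ring
  have h1 : -(|x| / 20) ≤ c * a := by
    have : |c * a| ≤ |x| / 20 := by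
      rw [abs_mul, abs_of_nonneg hc0]
      exact (mul_le_of_le_one_left (abs_nonneg a) hc1).trans ha
    exact neg_le_of_abs_le this
  have h2 : -(|y| / 20) ≤ c * b := by
    have : |c * b| ≤ |y| / 20 := by
      rw [abs_mul, abs_of_nonneg hc0]
      exact (mul_le_of_le_one_left (abs_nonneg b) hc1).trans hb
    exact neg_le_of_abs_le this
  have h3 : -(|x| * |y| / 400) ≤ a * b := by
    have : |a * b| ≤ |x| * |y| / 400 := by
      rw [abs_mul]
      calc |a| * |b| ≤ |x| / 20 * (|y| / 20) := mul_le_mul ha hb (abs_nonneg _) (by positivity)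
        _ = _ := by ring
    exact neg_le_of_abs_le this
  nlinarith [sq_nonneg (|x| - 1), sq_nonneg (|y| - 1), sq_nonneg (|x| - |y|), sq_abs x, sq_abs y]

lemma integral_cos_ph_ge : 65 / 100 ≤ ∫ s, cos (ph s) ∂gaussianReal 0 1 := by
  have hi : Integrable (fun s => cos (ph s)) (gaussianReal 0 1) :=
    Integrable.of_bound (by unfold ph; fun_prop : Continuous fun s => cos (ph s)).aestronglyMeasurable 1
      (ae_of_all _ fun s => by rw [norm_eq_abs]; exact abs_cos_le_one _)
  have i2 := integrable_sq_std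
  refine le_trans (le_of_eq ?_) (integral_mono ((integrable_const (27 / 40 : ℝ)).sub'
    (i2.const_mul (1 / 40))) hi cos_ph_ge)
  rw [integral_sub (integrable_const _) (i2.const_mul _), integral_const_mul,
    integral_sq_std]
  norm_num

lemma pairG_sin_ph_ge {r : ℝ} (hr : r ∈ Icc (-1 : ℝ) 1) :
    3 / 10 ≤ ∫ p : ℝ × ℝ, sin (ph p.1) * sin (ph (r * p.1 + √(1 - r ^ 2) * p.2))
      ∂(gaussianReal 0 1).prod (gaussianReal 0 1) := by
  have hs : √(1 - r ^ 2) ^ 2 = 1 - r ^ 2 := Real.sq_sqrt (by nlinarith [hr.1, hr.2])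
  have hle : ∀ p : ℝ × ℝ, (r * p.1 + √(1 - r ^ 2) * p.2) ^ 2 ≤ 2 * p.1 ^ 2 + 2 * p.2 ^ 2 := fun p => by
    have h1 : (r * p.1) ^ 2 ≤ p.1 ^ 2 := by
      rw [mul_pow]; exact mul_le_of_le_one_left (sq_nonneg _) (by nlinarith [hr.1, hr.2])
    have h2 : (√(1 - r ^ 2) * p.2) ^ 2 ≤ p.2 ^ 2 := by
      rw [mul_pow, hs]; exact mul_le_of_le_one_left (sq_nonneg _) (by nlinarith)
    nlinarith [sq_nonneg (r * p.1 - √(1 - r ^ 2) * p.2)]
  have i1 : Integrable (fun p : ℝ × ℝ => p.1 ^ 2) ((gaussianReal 0 1).prod (gaussianReal 0 1)) :=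
    integrable_sq_std.comp_fst _
  have i2 : Integrable (fun p : ℝ × ℝ => p.2 ^ 2) ((gaussianReal 0 1).prod (gaussianReal 0 1)) :=
    integrable_sq_std.comp_snd _
  have hi : Integrable (fun p : ℝ × ℝ => sin (ph p.1) * sin (ph (r * p.1 + √(1 - r ^ 2) * p.2)))
      ((gaussianReal 0 1).prod (gaussianReal 0 1)) :=
    Integrable.of_bound (by unfold ph; fun_prop : Continuous fun p : ℝ × ℝ =>
      sin (ph p.1) * sin (ph (r * p.1 + √(1 - r ^ 2) * p.2))).aestronglyMeasurable 1
      (ae_of_all _ fun p => by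
        rw [norm_eq_abs, abs_mul]
        exact mul_le_one₀ (abs_sin_le_one _) (abs_nonneg _) (abs_sin_le_one _))
  have hlow : Integrable (fun p : ℝ × ℝ => 1 / 2 - 1 / 20 - (63 / 800) * p.1 ^ 2 - (42 / 800) * p.2 ^ 2)
      ((gaussianReal 0 1).prod (gaussianReal 0 1)) :=
    ((integrable_const _).sub (i1.const_mul _)).sub (i2.const_mul _)
  refine le_trans ?_ (integral_mono hlow hi fun p => ?_)
  · rw [integral_sub ((integrable_const _).sub' (i1.const_mul _)) (i2.const_mul _),
      integral_sub (integrable_const _) (i1.const_mul _), integral_const_mul, integral_const_mul,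
      integral_fun_fst (f := fun t : ℝ => t ^ 2), integral_fun_snd (f := fun t : ℝ => t ^ 2),
      integral_sq_std]
    norm_num
  · exact le_trans (by linarith [hle p]) (sin_mul_sin_ge p.1 (r * p.1 + √(1 - r ^ 2) * p.2))

/-- The potentials `ε sin (s / 20 + π / 4)` with small positive `ε` meet the hypotheses. -/
theorem witness_good : ∃ ε₀ : ℝ, 0 < ε₀ ∧ ∀ ε : ℝ, 0 < ε → ε < ε₀ →
    ∃ (f1 f2 f3 : ℝ → ℝ) (U V W B κ : ℝ),
      Good (fun s => ε * sin (s / 20 + π / 4)) f1 f2 f3 U V W B κ := by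
  refine ⟨1 / 2000, by norm_num, fun ε hε hε1 => ?_⟩
  set f1 : ℝ → ℝ := fun s => ε / 20 * cos (ph s) with hf1
  set f2 : ℝ → ℝ := fun s => -(ε / 400) * sin (ph s) with hf2
  set f3 : ℝ → ℝ := fun s => -(ε / 8000) * cos (ph s) with hf3
  have hph : ∀ s, HasDerivAt ph (1 / 20) s := fun s => by
    exact (((hasDerivAt_id' s).div_const 20).add_const (π / 4))
  refine ⟨f1, f2, f3, ε / 20, ε / 400 + ε ^ 2 / 400, ε / 8000, ε, ε ^ 2 / 640000,
    ⟨fun s => ?_, fun s => ?_, fun s => ?_, by simp only [hf3]; unfold ph; fun_prop, fun s => ?_,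
      fun s => ?_, fun s => ?_⟩, fun s => ?_, fun r hr => ?_, ?_, ?_, ?_⟩
  · simp only [hf1]
    exact (((hph s).sin).const_mul ε).congr_deriv (by ring)
  · simp only [hf1, hf2]
    exact (((hph s).cos).const_mul (ε / 20)).congr_deriv (by ring)
  · simp only [hf2, hf3]
    exact (((hph s).sin).const_mul (-(ε / 400))).congr_deriv (by ring)
  · simp only [hf1, abs_mul, abs_of_pos (by positivity : (0 : ℝ) < ε / 20)]
    exact mul_le_of_le_one_right (by positivity) (abs_cos_le_one _)
  · refine (abs_add_le _ _).trans (add_le_add ?_ ?_)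
    · simp only [hf2, abs_mul, abs_neg, abs_of_pos (by positivity : (0 : ℝ) < ε / 400)]
      exact mul_le_of_le_one_right (by positivity) (abs_sin_le_one _)
    · rw [abs_of_nonneg (sq_nonneg (f1 s))]
      simp only [hf1]
      nlinarith [cos_sq_le_one (ph s), pow_pos hε 2]
  · simp only [hf3, abs_mul, abs_neg, abs_of_pos (by positivity : (0 : ℝ) < ε / 8000)]
    exact mul_le_of_le_one_right (by positivity) (abs_cos_le_one _)
  · rw [abs_mul, abs_of_pos hε]
    exact mul_le_of_le_one_right hε.le (abs_sin_le_one _)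
  · have hpt : ∀ x y : ℝ, (ε / 400) ^ 2 * (sin (ph x) * sin (ph y)) - (ε / 400) ^ 2 * (2 * ε)
        ≤ (f2 x + f1 x ^ 2) * (f2 y + f1 y ^ 2) := by
      intro x y
      have e : (f2 x + f1 x ^ 2) * (f2 y + f1 y ^ 2) = (ε / 400) ^ 2 *
          ((sin (ph x) - ε * cos (ph x) ^ 2) * (sin (ph y) - ε * cos (ph y) ^ 2)) := by
        simp only [hf1, hf2]; ring
      rw [e, ← mul_sub]
      refine mul_le_mul_of_nonneg_left ?_ (sq_nonneg _)
      have b : ∀ s t : ℝ, |s| ≤ 1 → 0 ≤ t → t ≤ 1 → s * t ≤ 1 := fun s t hs ht0 ht1 =>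
        le_trans (mul_le_mul_of_nonneg_right (le_of_abs_le hs) ht0) (by linarith)
      nlinarith [b _ _ (abs_sin_le_one (ph x)) (sq_nonneg (cos (ph y))) (cos_sq_le_one _),
        b _ _ (abs_sin_le_one (ph y)) (sq_nonneg (cos (ph x))) (cos_sq_le_one _),
        mul_nonneg (mul_nonneg hε.le (sq_nonneg (cos (ph x)))) (mul_nonneg hε.le (sq_nonneg (cos (ph y))))]
    have hA := pairG_sin_ph_ge hr
    have i1 : Integrable (fun p : ℝ × ℝ => sin (ph p.1) * sin (ph (r * p.1 + √(1 - r ^ 2) * p.2)))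
        ((gaussianReal 0 1).prod (gaussianReal 0 1)) :=
      Integrable.of_bound (by unfold ph; fun_prop : Continuous fun p : ℝ × ℝ =>
        sin (ph p.1) * sin (ph (r * p.1 + √(1 - r ^ 2) * p.2))).aestronglyMeasurable 1
        (ae_of_all _ fun p => by
          rw [norm_eq_abs, abs_mul]
          exact mul_le_one₀ (abs_sin_le_one _) (abs_nonneg _) (abs_sin_le_one _))
    have i2 : Integrable (fun p : ℝ × ℝ => (f2 p.1 + f1 p.1 ^ 2) *
        (f2 (r * p.1 + √(1 - r ^ 2) * p.2) + f1 (r * p.1 + √(1 - r ^ 2) * p.2) ^ 2))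
        ((gaussianReal 0 1).prod (gaussianReal 0 1)) := by
      refine integrable_pairG (k := fun s => f2 s + f1 s ^ 2) (M := ε / 400 + ε ^ 2 / 400)
        (by simp only [hf1, hf2]; unfold ph; fun_prop) (fun s => ?_) r
      refine (abs_add_le _ _).trans (add_le_add ?_ ?_)
      · simp only [hf2, abs_mul, abs_neg, abs_of_pos (by positivity : (0 : ℝ) < ε / 400)]
        exact mul_le_of_le_one_right (by positivity) (abs_sin_le_one _)
      · rw [abs_of_nonneg (sq_nonneg (f1 s))]
        simp only [hf1]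
        nlinarith [cos_sq_le_one (ph s), pow_pos hε 2]
    have h := integral_mono ((i1.const_mul ((ε / 400) ^ 2)).sub
      (integrable_const ((ε / 400) ^ 2 * (2 * ε)))) i2 fun p => hpt _ _
    rw [Pi.sub_def, integral_sub (i1.const_mul _) (integrable_const _), integral_const_mul,
      integral_const, probReal_univ, one_smul] at h
    refine le_trans ?_ h
    nlinarith [mul_le_mul_of_nonneg_left hA (sq_nonneg (ε / 400))]
  · have he := abs_exp_sub_one_le (x := 8 * ε) (by rw [abs_of_pos (by positivity)]; linarith)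
    rw [abs_of_pos (by positivity : (0 : ℝ) < 8 * ε)] at he
    have he2 := le_of_abs_le he
    have hVU : 0 ≤ (ε / 400 + ε ^ 2 / 400) * (ε / 20) ^ 2 + (ε / 20) ^ 4 := by positivity
    refine le_trans (add_le_add (mul_le_mul_of_nonneg_right
      (mul_le_mul_of_nonneg_left (by linarith : exp (8 * ε) ≤ 2) (by norm_num : (0 : ℝ) ≤ 32)) hVU)
      (mul_le_mul_of_nonneg_right he2 (sq_nonneg _))) ?_
    nlinarith [pow_pos hε 2, pow_pos hε 3, pow_pos hε 4]
  · have he := abs_exp_sub_one_le (x := 2 * ε) (by rw [abs_of_pos (by positivity)]; linarith)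
    rw [abs_of_pos (by positivity : (0 : ℝ) < 2 * ε)] at he
    have he2 := le_of_abs_le he
    refine le_trans (add_le_add (mul_le_mul_of_nonneg_right
      (mul_le_mul_of_nonneg_left (by linarith : exp (2 * ε) ≤ 1 + 4 * ε) (by norm_num : (0 : ℝ) ≤ 8))
      (by positivity)) (mul_le_mul_of_nonneg_left he2 (by positivity))) ?_
    simp only [hf1, integral_const_mul]
    rw [abs_mul, abs_of_pos (by positivity : (0 : ℝ) < ε / 20),
      abs_of_nonneg (le_trans (by norm_num) integral_cos_ph_ge)]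
    refine le_trans ?_ (mul_le_mul_of_nonneg_left integral_cos_ph_ge (by positivity))
    nlinarith [pow_pos hε 2, pow_pos hε 3]
  · simp only [hf1, integral_const_mul]
    exact mul_ne_zero (by positivity) (by linarith [integral_cos_ph_ge])

end P157.RS

end
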